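import Crest.Agent.R350.Impl

set_option autoImplicit false

namespace Crest.Agent.R350

open Finset

/-- The amplitude multipliers of the good and the bad part after `t` iterations. -/
noncomputable def ampAB (γ : ℝ) : ℕ → ℝ × ℝ
  | 0 => (1, 1)
  | t + 1 => (2 * (-(ampAB γ t).1 * γ + (ampAB γ t).2 * (1 - γ)) + (ampAB γ t).1,
      2 * (-(ampAB γ t).1 * γ + (ampAB γ t).2 * (1 - γ)) - (ampAB γ t).2)

theorem ampAB_trig (θ : ℝ) (t : ℕ) :
    (ampAB (Real.sin θ ^ 2) t).1 * Real.sin θ = Real.sin ((2 * t + 1) * θ) ∧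
      (ampAB (Real.sin θ ^ 2) t).2 * Real.cos θ = Real.cos ((2 * t + 1) * θ) := by
  induction t with
  | zero => simp [ampAB]
  | succ t ih =>
    obtain ⟨h1, h2⟩ := ih
    have e : (2 * ((t + 1 : ℕ) : ℝ) + 1) * θ = (2 * t + 1) * θ + θ + θ := by push_cast; ring
    have hc := Real.sin_sq_add_cos_sq θ
    have hc' : 1 - Real.sin θ ^ 2 = Real.cos θ ^ 2 := by linarith
    rw [e]
    simp only [ampAB, Real.sin_add, Real.cos_add, hc']
    rw [← h1, ← h2]
    constructor
    · linear_combination (-(ampAB (Real.sin θ ^ 2) t).1 * Real.sin θ) * hc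
    · linear_combination ((ampAB (Real.sin θ ^ 2) t).2 * Real.cos θ) * hc

theorem amp_sum_sin_sq (θ : ℝ) (T : ℕ) :
    4 * Real.sin (2 * θ) * ∑ t ∈ range T, Real.sin ((2 * t + 1) * θ) ^ 2 =
      2 * T * Real.sin (2 * θ) - Real.sin (4 * T * θ) := by
  induction T with
  | zero => simp
  | succ T ih =>
    rw [sum_range_succ, mul_add, ih]
    have e1 : 4 * ((T + 1 : ℕ) : ℝ) * θ = 2 * ((2 * T + 1) * θ) + 2 * θ := by push_cast; ring
    have e2 : 4 * (T : ℝ) * θ = 2 * ((2 * T + 1) * θ) - 2 * θ := by ring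
    rw [e1, e2, Real.sin_add, Real.sin_sub, Real.cos_two_mul ((2 * T + 1) * θ)]
    have hc := Real.sin_sq_add_cos_sq ((2 * T + 1) * θ)
    push_cast
    linear_combination (4 * Real.sin (2 * θ)) * hc

theorem ampAB_sum_ge {γ : ℝ} (h0 : 0 ≤ γ) (h1 : γ ≤ 1 / 2) {T : ℕ} (hT : 1 ≤ (T : ℝ) ^ 2 * γ) :
    (T : ℝ) / 4 ≤ ∑ t ∈ range T, (ampAB γ t).1 ^ 2 * γ := by
  set θ := Real.arcsin (Real.sqrt γ) with hθ
  have hs1 : Real.sqrt γ ≤ 1 := Real.sqrt_le_one.mpr (by linarith)
  have hsin : Real.sin θ = Real.sqrt γ :=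
    Real.sin_arcsin (by linarith [Real.sqrt_nonneg γ]) hs1
  have hγ : Real.sin θ ^ 2 = γ := by rw [hsin, Real.sq_sqrt h0]
  have hcos : 0 ≤ Real.cos θ := Real.cos_arcsin_nonneg _
  have hsin0 : 0 ≤ Real.sin θ := by rw [hsin]; exact Real.sqrt_nonneg γ
  have hc := Real.sin_sq_add_cos_sq θ
  have h2 : ∀ t : ℕ, (ampAB γ t).1 ^ 2 * γ = Real.sin ((2 * t + 1) * θ) ^ 2 := by
    intro t
    rw [← (ampAB_trig θ t).1, hγ, mul_pow, hγ]
  simp only [h2]
  have h3 := amp_sum_sin_sq θ T
  have h4 : 0 ≤ Real.sin (2 * θ) := by rw [Real.sin_two_mul]; positivity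
  have h5 : 1 ≤ T * Real.sin (2 * θ) := by
    have e : (T * Real.sin (2 * θ)) ^ 2 = 4 * ((T : ℝ) ^ 2 * γ) * (1 - γ) := by
      rw [Real.sin_two_mul, ← hγ]
      linear_combination (4 * (T : ℝ) ^ 2 * Real.sin θ ^ 2) * hc
    have h6 : 1 ^ 2 ≤ (T * Real.sin (2 * θ)) ^ 2 := by rw [e]; nlinarith
    exact (pow_le_pow_iff_left₀ zero_le_one (by positivity) two_ne_zero).mp h6
  have h6 : 0 < Real.sin (2 * θ) := by
    rcases h4.lt_or_eq with h | h
    · exact h
    · rw [← h] at h5; linarith
  have h7 := Real.sin_le_one (4 * T * θ)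
  refine le_of_mul_le_mul_left ?_ (show 0 < 4 * Real.sin (2 * θ) by linarith)
  rw [h3]
  linarith

theorem amp_reflect {E : Type} [Fintype E] [DecidableEq E] (e₀ : E) (V : Matrix E E ℝ)
    (hV : V.transpose * V = 1) (v : E → ℝ) (e : E) :
    ∑ e', (V * Matrix.diagonal (fun k => if k = e₀ then (1 : ℝ) else -1) * V.transpose) e e' * v e' =
      2 * (∑ e', V e' e₀ * v e') * V e e₀ - v e := by
  have hV' : V * V.transpose = 1 := mul_eq_one_comm.1 hV
  have h1 : ∀ e', (V * Matrix.diagonal (fun k => if k = e₀ then (1 : ℝ) else -1) * V.transpose) e e'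
      = 2 * V e e₀ * V e' e₀ - (if e = e' then 1 else 0) := by
    intro e'
    rw [← Matrix.one_apply, ← hV', Matrix.mul_apply, Matrix.mul_apply]
    simp only [Matrix.mul_diagonal, Matrix.transpose_apply]
    have h2 : ∀ k, V e k * (if k = e₀ then (1 : ℝ) else -1) * V e' k =
        (if k = e₀ then 2 * V e k * V e' k else 0) - V e k * V e' k := by
      intro k
      split_ifs <;> ring
    simp only [h2, sum_sub_distrib, sum_ite_eq', mem_univ, if_true]
  simp only [h1, sub_mul, sum_sub_distrib, ite_mul, one_mul, zero_mul, sum_ite_eq, mem_univ,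
    if_true, mul_sum, sum_mul]
  congr 1
  exact sum_congr rfl fun e' _ => by ring

theorem amp_diag_orth {E : Type} [Fintype E] [DecidableEq E] (d : E → ℝ)
    (hd : ∀ e, d e * d e = 1) : (Matrix.diagonal d).transpose * Matrix.diagonal d = 1 := by
  rw [Matrix.diagonal_transpose, Matrix.diagonal_mul_diagonal, ← Matrix.diagonal_one]
  congr 1
  funext e
  exact hd e

theorem Samp.amp_iter {I A : Type} {q : ℕ} {P : (I → Bool) → (A → ℝ) → ℝ} (h : Samp q P)
    (G : A → Prop) (t : ℕ) :
    Samp ((2 * t + 1) * q) (fun x g =>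
      (ampAB (P x fun a => ind (G a)) t).1 ^ 2 * P x (fun a => ind (G a) * g a) +
      (ampAB (P x fun a => ind (G a)) t).2 ^ 2 * P x (fun a => ind (¬G a) * g a)) := by
  classical
  have hprob := h.isProb
  obtain ⟨E, _, _, e₀, V, lab, hV, hP⟩ := h
  have key : ∃ U : (I → Bool) → Matrix E E ℝ, Impl ((2 * t + 1) * q) U ∧ ∀ x e, U x e e₀ =
      (if G (lab e) then (ampAB (P x fun a => ind (G a)) t).1
        else (ampAB (P x fun a => ind (G a)) t).2) * V x e e₀ := by
    induction t with
    | zero => exact ⟨V, by simpa using hV, fun x e => by simp [ampAB]⟩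
    | succ t ih =>
      obtain ⟨U, hU, hcol⟩ := ih
      have hR : Impl 0 (fun _ : I → Bool =>
          Matrix.diagonal (fun k : E => if k = e₀ then (1 : ℝ) else -1)) :=
        Impl.const _ (amp_diag_orth _ fun e => by split_ifs <;> norm_num)
      have hS := amp_diag_orth (fun k : E => if G (lab k) then (-1 : ℝ) else 1)
        fun e => by split_ifs <;> norm_num
      refine ⟨_, (((hV.mul hR).mul hV.transpose).mul (hU.mul_left hS)).mono
        (le_of_eq (by ring)), fun x e => ?_⟩
      rw [Matrix.mul_apply, amp_reflect e₀ (V x) (hV.orth x)]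
      simp only [Matrix.diagonal_mul, hcol]
      set a := (ampAB (P x fun a => ind (G a)) t).1 with ha
      set b := (ampAB (P x fun a => ind (G a)) t).2 with hb
      have hs : ∑ e', V x e' e₀ * ((if G (lab e') then (-1 : ℝ) else 1) *
          ((if G (lab e') then a else b) * V x e' e₀)) =
          -a * (P x fun a => ind (G a)) + b * (1 - P x fun a => ind (G a)) := by
        rw [← (hprob x).ind_not, hP, hP, mul_sum, mul_sum, ← sum_add_distrib]
        refine sum_congr rfl fun e' _ => ?_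
        by_cases hG : G (lab e')
        · rw [if_pos hG, if_pos hG, ind_of hG, ind_of_not (not_not.mpr hG)]; ring
        · rw [if_neg hG, if_neg hG, ind_of_not hG, ind_of hG]; ring
      rw [hs]
      simp only [ampAB, ← ha, ← hb]
      split_ifs <;> ring
  obtain ⟨U, hU, hcol⟩ := key
  refine ⟨E, inferInstance, inferInstance, e₀, U, lab, hU, fun x g => ?_⟩
  simp only [hcol]
  set a := (ampAB (P x fun a => ind (G a)) t).1 with ha
  set b := (ampAB (P x fun a => ind (G a)) t).2 with hb
  rw [hP, hP, mul_sum, mul_sum, ← sum_add_distrib]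
  refine sum_congr rfl fun e _ => ?_
  by_cases hG : G (lab e)
  · rw [if_pos hG, ind_of hG, ind_of_not (not_not.mpr hG)]; ring
  · rw [if_neg hG, ind_of_not hG, ind_of hG]; ring

/-- Amplitude amplification with a random number of iterations. -/
theorem Samp.amp {I A : Type} {q : ℕ} {P : (I → Bool) → (A → ℝ) → ℝ} (h : Samp q P)
    (G : A → Prop) (T : ℕ) (hT : 1 ≤ T) :
    ∃ P' : (I → Bool) → (A → ℝ) → ℝ, Samp (2 * T * q) P' ∧ ∀ x, ∃ α β : ℝ, 0 ≤ α ∧ 0 ≤ β ∧
      (∀ g, P' x g = α * P x (fun a => ind (G a) * g a) + β * P x (fun a => ind (¬G a) * g a)) ∧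
      (1 ≤ (T : ℝ) ^ 2 * P x (fun a => ind (G a)) → 1 / 8 ≤ α * P x (fun a => ind (G a))) := by
  have : Nonempty (Fin T) := ⟨⟨0, hT⟩⟩
  have hT0 : (0 : ℝ) < T := by exact_mod_cast hT
  let τ : Bool × Fin T → ℕ := fun ω => if ω.1 then ω.2.val else 0
  have hτ : ∀ ω, (2 * τ ω + 1) * q ≤ 2 * T * q := by
    intro ω
    refine Nat.mul_le_mul_right q ?_
    have := ω.2.2
    simp only [τ]
    split_ifs <;> omega
  have h1 := (Samp.const (I := I) (isW_unif (Bool × Fin T))).bind
    fun ω => (h.amp_iter G (τ ω)).mono (hτ ω)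
  rw [Nat.zero_add] at h1
  refine ⟨_, h1, fun x => ⟨∑ ω, (Fintype.card (Bool × Fin T) : ℝ)⁻¹ *
      (ampAB (P x fun a => ind (G a)) (τ ω)).1 ^ 2,
    ∑ ω, (Fintype.card (Bool × Fin T) : ℝ)⁻¹ * (ampAB (P x fun a => ind (G a)) (τ ω)).2 ^ 2,
    by positivity, by positivity, fun g => ?_, fun hγ => ?_⟩⟩
  · simp only [Ex, sum_mul, ← sum_add_distrib]
    exact sum_congr rfl fun ω _ => by ring
  · set γ := P x fun a => ind (G a) with hγdef
    have h0 : 0 ≤ γ := (h.isProb x).nonneg fun a => ind_nonneg _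
    have e : (∑ ω, (Fintype.card (Bool × Fin T) : ℝ)⁻¹ * (ampAB γ (τ ω)).1 ^ 2) * γ =
        (2 * T : ℝ)⁻¹ * (∑ t ∈ range T, (ampAB γ t).1 ^ 2 * γ + T * γ) := by
      rw [← mul_sum, Fintype.sum_prod_type, Fintype.sum_bool, ← sum_mul,
        ← Fin.sum_univ_eq_sum_range (fun t => (ampAB γ t).1 ^ 2)]
      simp [τ, ampAB]
      ring
    rw [e, ← div_eq_inv_mul, le_div_iff₀ (by positivity)]
    rcases le_total γ (1 / 2) with h2 | h2
    · have h3 := ampAB_sum_ge h0 h2 hγ
      have h4 : 0 ≤ T * γ := by positivity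
      linarith
    · have h3 : 0 ≤ ∑ t ∈ range T, (ampAB γ t).1 ^ 2 * γ := by positivity
      nlinarith

/-- Grover verification of a conjunction of local checks, with one-sided error. -/
theorem verify {I K : Type} [Fintype K] [Nonempty K] (c T ρ : ℕ) (chk : K → (I → Bool) → Bool)
    (hchk : ∀ κ, DT c (chk κ)) (hT : Fintype.card K ≤ T ^ 2) :
    ∃ P : (I → Bool) → (Bool → ℝ) → ℝ, Samp (ρ * (2 * T * c)) P ∧ ∀ x,
      ((∀ κ, chk κ x = true) → P x (fun b => ind (b = true)) = 1) ∧
      (¬(∀ κ, chk κ x = true) → P x (fun b => ind (b = true)) ≤ (7 / 8) ^ ρ) := by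
  have hK : 0 < Fintype.card K := Fintype.card_pos
  have hK' : (0 : ℝ) < Fintype.card K := by exact_mod_cast hK
  have hT1 : 1 ≤ T := by
    rcases Nat.eq_zero_or_pos T with h | h
    · subst h; simp at hT
    · exact h
  have hbase := (Samp.const (I := I) (isW_unif K)).bind fun κ => Samp.ofDT (hchk κ)
  rw [Nat.zero_add] at hbase
  obtain ⟨R, hR, hRx⟩ := hbase.amp (fun b => b = false) T hT1
  have hround : ∀ x, ((∀ κ, chk κ x = true) → R x (fun b => ind (b = true)) = 1) ∧
      (¬(∀ κ, chk κ x = true) → R x (fun b => ind (b = true)) ≤ 7 / 8) := by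
    intro x
    obtain ⟨α, β, -, -, hg, hγ⟩ := hRx x
    have e1 : R x (fun b => ind (b = true)) = 1 - R x (fun b => ind (b = false)) := by
      rw [← (hR.isProb x).ind_not]
      congr 1
      funext b
      exact ind_congr (by simp)
    have e2 : R x (fun b => ind (b = false)) =
        α * Ex (fun _ : K => (Fintype.card K : ℝ)⁻¹) (fun κ => ind (chk κ x = false)) := by
      rw [hg]
      have e3 : ∀ b : Bool, ind (b = false) * ind (b = false) = ind (b = false) := by
        intro b; cases b <;> simp [ind]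
      have e4 : ∀ b : Bool, ind (¬b = false) * ind (b = false) = 0 := by
        intro b; cases b <;> simp [ind]
      simp only [e3, e4]
      simp [Ex]
    rw [e1, e2]
    constructor
    · intro hall
      simp [Ex, hall, ind]
    · intro hex
      obtain ⟨κ, hκ⟩ := not_forall.mp hex
      have h1 : (Fintype.card K : ℝ)⁻¹ ≤
          Ex (fun _ : K => (Fintype.card K : ℝ)⁻¹) (fun κ => ind (chk κ x = false)) := by
        refine le_trans (le_of_eq ?_) (single_le_sum
          (f := fun κ => (Fintype.card K : ℝ)⁻¹ * ind (chk κ x = false))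
          (fun κ _ => mul_nonneg (by positivity) (ind_nonneg _)) (mem_univ κ))
        rw [ind_of (by simpa using hκ), mul_one]
      have h2 : (Fintype.card K : ℝ) ≤ (T : ℝ) ^ 2 := by exact_mod_cast hT
      have h3 := hγ (by
        refine le_trans ?_ (mul_le_mul h2 h1 (by positivity) (by positivity))
        rw [mul_inv_cancel₀ hK'.ne'])
      linarith
  induction ρ with
  | zero =>
    refine ⟨_, (Samp.pure (I := I) true).mono (Nat.zero_le _), fun x => ?_⟩
    simp [ind]
  | succ ρ ih =>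
    obtain ⟨P, hP, hPx⟩ := ih
    have h1 := hR.bind (q' := ρ * (2 * T * c))
      (P' := fun (b : Bool) x (g : Bool → ℝ) => if b then P x g else g false) (fun b => by
        cases b
        · simpa using (Samp.pure (I := I) false).mono (Nat.zero_le _)
        · simpa using hP)
    refine ⟨_, h1.mono (le_of_eq (by ring)), fun x => ?_⟩
    have e : (R x fun b => if b = true then P x (fun b => ind (b = true)) else ind (false = true)) =
        R x (fun b => ind (b = true)) * P x (fun b => ind (b = true)) := by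
      rw [← (hR.isProb x).mul_const]
      congr 1
      funext b
      cases b <;> simp [ind]
    simp only [e]
    constructor
    · intro hall
      rw [(hround x).1 hall, (hPx x).1 hall, mul_one]
    · intro hex
      rw [pow_succ']
      exact mul_le_mul ((hround x).2 hex) ((hPx x).2 hex)
        ((hP.isProb x).nonneg fun _ => ind_nonneg _) (by norm_num)

end Crest.Agent.R350
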