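import Crest.Agent.R350.Defs

/-!
Closure properties of `DT`, elementary facts on `IsProb`, `Ex`, `piW`, `piD`.
-/

set_option autoImplicit false

namespace Crest.Agent.R350

open Finset

namespace DT

variable {I α β : Type}

lemma congr {d : ℕ} {f g : (I → Bool) → α} (h : DT d f) (e : ∀ x, f x = g x) : DT d g := by
  have : f = g := funext e
  rwa [← this]

lemma succ {d : ℕ} {f : (I → Bool) → α} (h : DT d f) : DT (d + 1) f := by
  induction h with
  | const d a => exact .const _ a
  | query d i f g _ _ ihf ihg => exact .query _ i f g ihf ihg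

lemma mono {d d' : ℕ} {f : (I → Bool) → α} (h : DT d f) (hd : d ≤ d') : DT d' f := by
  induction hd with
  | refl => exact h
  | step _ ih => exact ih.succ

lemma bind {d d' : ℕ} {f : (I → Bool) → α} {g : α → (I → Bool) → β} (hf : DT d f)
    (hg : ∀ a, DT d' (g a)) : DT (d + d') (fun x => g (f x) x) := by
  induction hf with
  | const d a => exact (hg a).mono (by omega)
  | query d i f₁ f₂ _ _ ih₁ ih₂ =>
    have := DT.query _ i _ _ ih₁ ih₂
    refine (this.mono (by omega)).congr fun x => ?_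
    by_cases h : x i = true <;> simp [h]

lemma map {d : ℕ} {f : (I → Bool) → α} (hf : DT d f) (h : α → β) : DT d (fun x => h (f x)) :=
  hf.bind (d' := 0) (g := fun a _ => h a) fun a => .const 0 (h a)

lemma read (i : I) : DT 1 (fun x : I → Bool => x i) :=
  (DT.query 0 i _ _ (.const 0 false) (.const 0 true)).congr fun x => by
    cases x i <;> simp

lemma prod {d d' : ℕ} {f : (I → Bool) → α} {g : (I → Bool) → β} (hf : DT d f) (hg : DT d' g) :
    DT (d + d') (fun x => (f x, g x)) :=
  hf.bind (g := fun a x => (a, g x)) fun a => hg.map fun b => (a, b)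

lemma map₂ {γ : Type} {d d' : ℕ} {f : (I → Bool) → α} {g : (I → Bool) → β} (hf : DT d f)
    (hg : DT d' g) (h : α → β → γ) : DT (d + d') (fun x => h (f x) (g x)) :=
  (hf.prod hg).map fun p => h p.1 p.2

lemma pi_fin {c : ℕ} : ∀ (k : ℕ) (h : Fin k → (I → Bool) → α), (∀ κ, DT c (h κ)) →
    DT (k * c) (fun x κ => h κ x)
  | 0, h, _ => (DT.const _ (fun κ : Fin 0 => (κ.elim0 : α))).congr fun x => by
      funext κ; exact κ.elim0
  | k + 1, h, hh => by
      have h1 := pi_fin k (fun κ => h κ.succ) fun κ => hh κ.succ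
      have h2 := (h1.map₂ (hh 0) fun (t : Fin k → α) a => (Fin.cons a t : Fin (k + 1) → α))
      refine (h2.mono (by rw [Nat.succ_mul])).congr fun x => ?_
      funext κ
      refine Fin.cases ?_ (fun κ => ?_) κ <;> simp

lemma pi {K : Type} [Fintype K] {c : ℕ} (h : K → (I → Bool) → α) (hh : ∀ κ, DT c (h κ)) :
    DT (Fintype.card K * c) (fun x κ => h κ x) := by
  let e := Fintype.equivFin K
  have h1 := pi_fin (Fintype.card K) (fun κ => h (e.symm κ)) fun κ => hh _
  refine (h1.map fun t κ => t (e κ)).congr fun x => ?_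
  funext κ
  simp

/-- Reading a tuple of bits. -/
lemma tuple {K : Type} [Fintype K] (idx : K → I) :
    DT (Fintype.card K) (fun (x : I → Bool) κ => x (idx κ)) := by
  simpa using pi (c := 1) (fun κ (x : I → Bool) => x (idx κ)) fun κ => read (idx κ)

/-- Substituting variables and constants for variables. -/
lemma comp {J : Type} {d : ℕ} {f : (I → Bool) → α} (hf : DT d f) (σ : I → J ⊕ Bool) :
    DT d (fun y : J → Bool => f fun i => (σ i).elim y id) := by
  induction hf with
  | const d a => exact .const d a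
  | query d i f g _ _ ihf ihg =>
    rcases hσ : σ i with j | b
    · refine (DT.query d j _ _ ihf ihg).congr fun y => ?_
      simp [hσ]
    · cases b
      · refine ihf.succ.congr fun y => ?_
        simp [hσ]
      · refine ihg.succ.congr fun y => ?_
        simp [hσ]

end DT

namespace IsProb

variable {A : Type} {p : (A → ℝ) → ℝ}

lemma add (hp : IsProb p) (f g : A → ℝ) : p (fun a => f a + g a) = p f + p g := by
  obtain ⟨Ω, _, w, val, -, h⟩ := hp
  simp [h, mul_add, sum_add_distrib]

lemma sub (hp : IsProb p) (f g : A → ℝ) : p (fun a => f a - g a) = p f - p g := by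
  obtain ⟨Ω, _, w, val, -, h⟩ := hp
  simp [h, mul_sub, sum_sub_distrib]

lemma const_mul (hp : IsProb p) (c : ℝ) (f : A → ℝ) : p (fun a => c * f a) = c * p f := by
  obtain ⟨Ω, _, w, val, -, h⟩ := hp
  simp only [h, mul_sum]
  exact sum_congr rfl fun _ _ => by ring

lemma mul_const (hp : IsProb p) (c : ℝ) (f : A → ℝ) : p (fun a => f a * c) = p f * c := by
  rw [mul_comm, ← hp.const_mul]
  simp only [mul_comm]

lemma const (hp : IsProb p) (c : ℝ) : p (fun _ => c) = c := by
  obtain ⟨Ω, _, w, val, hw, h⟩ := hp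
  rw [h, ← sum_mul, hw.2, one_mul]

lemma mono (hp : IsProb p) {f g : A → ℝ} (hfg : ∀ a, f a ≤ g a) : p f ≤ p g := by
  obtain ⟨Ω, _, w, val, hw, h⟩ := hp
  rw [h, h]
  exact sum_le_sum fun ω _ => mul_le_mul_of_nonneg_left (hfg _) (hw.1 ω)

lemma nonneg (hp : IsProb p) {f : A → ℝ} (hf : ∀ a, 0 ≤ f a) : 0 ≤ p f := by
  have := hp.mono (f := fun _ => 0) hf
  rwa [hp.const] at this

lemma le_const (hp : IsProb p) {f : A → ℝ} {c : ℝ} (hf : ∀ a, f a ≤ c) : p f ≤ c := by
  have := hp.mono (g := fun _ => c) hf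
  rwa [hp.const] at this

lemma const_le (hp : IsProb p) {f : A → ℝ} {c : ℝ} (hf : ∀ a, c ≤ f a) : c ≤ p f := by
  have := hp.mono (f := fun _ => c) hf
  rwa [hp.const] at this

lemma sum (hp : IsProb p) {K : Type*} (s : Finset K) (f : K → A → ℝ) :
    p (fun a => ∑ k ∈ s, f k a) = ∑ k ∈ s, p (f k) := by
  obtain ⟨Ω, _, w, val, -, h⟩ := hp
  simp only [h, mul_sum]
  exact sum_comm

lemma ind_not (hp : IsProb p) (G : A → Prop) :
    p (fun a => ind (¬G a)) = 1 - p (fun a => ind (G a)) := by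
  simp only [Crest.Agent.R350.ind_not]
  rw [hp.sub, hp.const]

/-- Fubini. -/
lemma swap {B : Type} {p' : (B → ℝ) → ℝ} (hp : IsProb p) (hp' : IsProb p') (f : A → B → ℝ) :
    p (fun a => p' (fun b => f a b)) = p' (fun b => p (fun a => f a b)) := by
  obtain ⟨Ω, _, w, val, -, h⟩ := hp
  simp only [h]
  rw [hp'.sum]
  exact sum_congr rfl fun ω _ => (hp'.const_mul _ _).symm

end IsProb

lemma isProb_Ex {Ω : Type} [Fintype Ω] {w : Ω → ℝ} (hw : IsW w) : IsProb (Ex w) :=
  ⟨Ω, inferInstance, w, id, hw, fun _ => rfl⟩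

lemma isW_unif (Ω : Type) [Fintype Ω] [Nonempty Ω] :
    IsW (fun _ : Ω => ((Fintype.card Ω : ℝ))⁻¹) := by
  refine ⟨fun _ => by positivity, ?_⟩
  have : (Fintype.card Ω : ℝ) ≠ 0 := by exact_mod_cast Fintype.card_ne_zero
  simp [this]

lemma Ex_piW_prod {K Ω : Type} [Fintype K] [DecidableEq K] [Fintype Ω] (w : K → Ω → ℝ)
    (f : K → Ω → ℝ) : Ex (piW w) (fun ω => ∏ κ, f κ (ω κ)) = ∏ κ, Ex (w κ) (f κ) := by
  simp only [Ex, piW, ← prod_mul_distrib]
  rw [Finset.prod_univ_sum]
  simp

lemma isW_piW {K Ω : Type} [Fintype K] [DecidableEq K] [Fintype Ω] {w : K → Ω → ℝ}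
    (hw : ∀ κ, IsW (w κ)) : IsW (piW w) := by
  refine ⟨fun ω => prod_nonneg fun κ _ => (hw κ).1 _, ?_⟩
  have := Ex_piW_prod w (fun _ _ => 1)
  simp only [Ex, prod_const_one, mul_one] at this
  rw [this]
  exact prod_eq_one fun κ _ => (hw κ).2

lemma Ex_piD {K W : Type} [Fintype K] [DecidableEq K] [Fintype W] [DecidableEq W]
    (w : K → (W → Bool) → ℝ) (g : (K × W → Bool) → ℝ) :
    Ex (piD w) g = Ex (piW w) (fun ω => g fun p => ω p.1 p.2) := by
  unfold Ex
  refine Fintype.sum_equiv (Equiv.curry K W Bool) _ _ fun x => ?_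
  rfl

lemma isW_piD {K W : Type} [Fintype K] [DecidableEq K] [Fintype W] [DecidableEq W]
    {w : K → (W → Bool) → ℝ} (hw : ∀ κ, IsW (w κ)) : IsW (piD w) := by
  refine ⟨fun ω => prod_nonneg fun κ _ => (hw κ).1 _, ?_⟩
  have h1 := Ex_piD w (fun _ => 1)
  have h2 := (isW_piW hw).2
  simp only [Ex, mul_one] at h1
  rw [h1, h2]

/-- Splitting off one coordinate of a product law. -/
lemma Ex_piW_split {K Ω : Type} [Fintype K] [DecidableEq K] [Fintype Ω] {w : K → Ω → ℝ}
    (hw : ∀ κ, IsW (w κ)) (κ : K) (g : (K → Ω) → ℝ) :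
    Ex (piW w) g = Ex (piW w) (fun ω => Ex (w κ) fun a => g (Function.update ω κ a)) := by
  have key : ∀ (ω : K → Ω) (a : Ω), piW w ω * w κ a
      = piW w (Function.update ω κ a) * w κ (ω κ) := by
    intro ω a
    unfold piW
    rw [← mul_prod_erase univ _ (mem_univ κ), ← mul_prod_erase univ _ (mem_univ κ)]
    have : ∏ x ∈ univ.erase κ, w x (Function.update ω κ a x) = ∏ x ∈ univ.erase κ, w x (ω x) :=
      prod_congr rfl fun x hx => by rw [Function.update_of_ne (ne_of_mem_erase hx)]
    rw [this, Function.update_self]; ring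
  let e : (K → Ω) × Ω ≃ (K → Ω) × Ω :=
    { toFun := fun p => (Function.update p.1 κ p.2, p.1 κ)
      invFun := fun p => (Function.update p.1 κ p.2, p.1 κ)
      left_inv := fun p => by simp
      right_inv := fun p => by simp }
  calc Ex (piW w) g = ∑ p : (K → Ω) × Ω, piW w p.1 * w κ p.2 * g p.1 := by
        rw [Fintype.sum_prod_type]
        refine sum_congr rfl fun ω _ => ?_
        simp only
        rw [← sum_mul, ← mul_sum, (hw κ).2, mul_one]
    _ = ∑ p : (K → Ω) × Ω, piW w p.1 * w κ p.2 * g (Function.update p.1 κ p.2) := by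
        refine (Fintype.sum_equiv e _ _ fun p => ?_).symm
        simp only [e, Equiv.coe_fn_mk]
        rw [key]
    _ = _ := by
        rw [Fintype.sum_prod_type]
        refine sum_congr rfl fun ω _ => ?_
        simp only [Ex, mul_sum, mul_assoc]

end Crest.Agent.R350
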