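import Crest.Agent.R350.Impl
import Crest.Prelude.Def_QueryComplexity

set_option autoImplicit false

namespace Crest.Agent.R350

open Finset

open Crest.MathPhysics.Query

namespace Bridge

open Matrix
open scoped Kronecker

variable {I E : Type} {n w : ℕ}

/-- The embedding of the phase-model state space (target bit in the uniform superposition). -/
noncomputable def emb (ε : E ≃ Fin w) (i₀ : Fin n) (ψ : E → ℝ) : QIdx n w → ℂ :=
  fun p => if p.1 = i₀ then ((ψ (ε.symm p.2.2) / Real.sqrt 2 : ℝ) : ℂ) else 0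

/-- An orthogonal matrix acting on the work register. -/
noncomputable def lift (ε : E ≃ Fin w) (U : Matrix E E ℝ) : Matrix (QIdx n w) (QIdx n w) ℂ :=
  (1 : Matrix (Fin n) (Fin n) ℂ) ⊗ₖ ((1 : Matrix Bool Bool ℂ) ⊗ₖ
    Matrix.of fun z z' : Fin w => ((U (ε.symm z) (ε.symm z') : ℝ) : ℂ))

lemma lift_unitary [Fintype E] [DecidableEq E] (ε : E ≃ Fin w) {U : Matrix E E ℝ}
    (hU : U.transpose * U = 1) : lift (n := n) ε U ∈ Matrix.unitaryGroup (QIdx n w) ℂ := by
  refine kronecker_mem_unitary (one_mem _) (kronecker_mem_unitary (one_mem _) ?_)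
  change _ ∈ Matrix.unitaryGroup (Fin w) ℂ
  rw [Matrix.mem_unitaryGroup_iff']
  ext z z'
  have := congrFun (congrFun hU (ε.symm z)) (ε.symm z')
  rw [Matrix.mul_apply] at this ⊢
  simp only [star_apply, Matrix.of_apply, RCLike.star_def, Complex.conj_ofReal]
  rw [← Equiv.sum_comp ε]
  simp only [Equiv.symm_apply_apply, transpose_apply] at this ⊢
  rw [Matrix.one_apply] at this ⊢
  simp only [EmbeddingLike.apply_eq_iff_eq] at this
  have h2 := congrArg (fun r : ℝ => (r : ℂ)) this
  push_cast at h2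
  rw [h2]
  split_ifs <;> simp

lemma lift_emb [Fintype E] (ε : E ≃ Fin w) (i₀ : Fin n) (U : Matrix E E ℝ) (ψ : E → ℝ) :
    (lift ε U).mulVec (emb ε i₀ ψ) = emb ε i₀ (U.mulVec ψ) := by
  funext ⟨i, b, z⟩
  simp only [Matrix.mulVec, dotProduct, lift, emb, kroneckerMap_apply, Fintype.sum_prod_type,
    Matrix.of_apply, Matrix.one_apply]
  rw [Finset.sum_eq_single i]
  · rw [Finset.sum_eq_single b]
    · by_cases hi : i = i₀
      · simp only [hi, if_true, one_mul]
        rw [← Equiv.sum_comp ε]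
        simp only [Equiv.symm_apply_apply]
        push_cast
        rw [Finset.sum_div]
        exact Finset.sum_congr rfl fun _ _ => by ring
      · simp [hi]
    · intro b' _ hb; simp [Ne.symm hb]
    · simp
  · intro i' _ hi; simp [Ne.symm hi]
  · simp

/-- A signed permutation matrix. -/
noncomputable def sperm {Q : Type} [DecidableEq Q] (σ : Q → Q) (s : Q → ℂ) : Matrix Q Q ℂ :=
  Matrix.of fun p p' => if p' = σ p then s p else 0

lemma sperm_mulVec {Q : Type} [Fintype Q] [DecidableEq Q] (σ : Q → Q) (s : Q → ℂ) (ψ : Q → ℂ) :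
    (sperm σ s).mulVec ψ = fun p => s p * ψ (σ p) := by
  funext p
  simp [Matrix.mulVec, dotProduct, sperm]

lemma sperm_unitary {Q : Type} [Fintype Q] [DecidableEq Q] {σ : Q → Q} {s : Q → ℂ}
    (hσ : Function.Injective σ) (hs : ∀ p, s p * star (s p) = 1) :
    sperm σ s ∈ Matrix.unitaryGroup Q ℂ := by
  rw [Matrix.mem_unitaryGroup_iff]
  ext p p'
  rw [Matrix.mul_apply, Finset.sum_eq_single (σ p)]
  · simp only [sperm, Matrix.of_apply, if_true, star_apply, hσ.eq_iff, Matrix.one_apply]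
    split_ifs with h
    · rw [← h]; exact hs p
    · simp
  · intro r _ hr; simp [sperm, hr]
  · simp

/-- The basis change before and after a query. -/
noncomputable def rot (e : Fin n ≃ I) (ε : E ≃ Fin w) (i₀ : Fin n) (φ : E → Option I) :
    Matrix (QIdx n w) (QIdx n w) ℂ :=
  sperm (fun p => (Equiv.swap i₀ ((φ (ε.symm p.2.2)).elim i₀ e.symm) p.1, p.2))
    (fun p => (φ (ε.symm p.2.2)).elim 1 fun _ => sg p.2.1)

lemma rot_unitary (e : Fin n ≃ I) (ε : E ≃ Fin w) (i₀ : Fin n) (φ : E → Option I) :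
    rot e ε i₀ φ ∈ Matrix.unitaryGroup (QIdx n w) ℂ := by
  refine sperm_unitary ?_ ?_
  · rintro ⟨i, r⟩ ⟨i', r'⟩ h
    simp only [Prod.mk.injEq] at h
    obtain ⟨h1, rfl⟩ := h
    rw [(Equiv.injective _ h1 : i = i')]
  · rintro ⟨i, b, z⟩
    cases φ (ε.symm z) <;> cases b <;> simp

lemma rot_oracle [DecidableEq E] [Fintype E] (e : Fin n ≃ I) (ε : E ≃ Fin w) (i₀ : Fin n)
    (φ : E → Option I) (y : Fin n → Bool) (ψ : E → ℝ) :
    (rot e ε i₀ φ).mulVec (oracle y ((rot e ε i₀ φ).mulVec (emb ε i₀ ψ))) =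
      emb ε i₀ ((phase φ fun i => y (e.symm i)).mulVec ψ) := by
  funext ⟨i, b, z⟩
  simp only [rot, sperm_mulVec, oracle, emb, Equiv.swap_apply_self, phase, mulVec_diagonal]
  by_cases hi : i = i₀
  · subst hi
    rcases φ (ε.symm z) with _ | k
    · simp
    · simp only [Option.elim_some, Equiv.swap_apply_left, if_true]
      cases b <;> cases y (e.symm k) <;> simp [neg_div]
  · simp [hi]

lemma stateAfter_congr {U U' : ℕ → Matrix (QIdx n w) (QIdx n w) ℂ} (y : Fin n → Bool)
    (ψ : QIdx n w → ℂ) : ∀ q : ℕ, (∀ t ≤ q, U t = U' t) → stateAfter U y ψ q = stateAfter U' y ψ q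
  | 0, h => by simp only [stateAfter, h 0 le_rfl]
  | q + 1, h => by
    simp only [stateAfter, h (q + 1) le_rfl,
      stateAfter_congr y ψ q fun t ht => h t (ht.trans (Nat.le_succ q))]

lemma simulate [Fintype E] [DecidableEq E] (e : Fin n ≃ I) (ε : E ≃ Fin w) (i₀ : Fin n)
    (ψ₀ : E → ℝ) {q : ℕ} {V : (I → Bool) → Matrix E E ℝ} (h : Impl q V) :
    ∀ W ∈ Matrix.unitaryGroup (QIdx n w) ℂ, ∃ U : ℕ → Matrix (QIdx n w) (QIdx n w) ℂ,
      (∀ t, U t ∈ Matrix.unitaryGroup (QIdx n w) ℂ) ∧ ∀ y : Fin n → Bool,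
        stateAfter U y (emb ε i₀ ψ₀) q =
          W.mulVec (emb ε i₀ ((V fun i => y (e.symm i)).mulVec ψ₀)) := by
  induction h with
  | const U hU =>
    intro W hW
    refine ⟨fun _ => W * lift ε U, fun _ => mul_mem hW (lift_unitary ε hU), fun y => ?_⟩
    simp only [stateAfter]
    rw [← Matrix.mulVec_mulVec, lift_emb]
  | step q V φ U _ hU ih =>
    intro W hW
    obtain ⟨Us, hUs, hst⟩ := ih (rot e ε i₀ φ) (rot_unitary e ε i₀ φ)
    refine ⟨Function.update Us (q + 1) (W * lift ε U * rot e ε i₀ φ), fun t => ?_, fun y => ?_⟩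
    · by_cases ht : t = q + 1
      · rw [ht, Function.update_self]
        exact mul_mem (mul_mem hW (lift_unitary ε hU)) (rot_unitary e ε i₀ φ)
      · rw [Function.update_of_ne ht]; exact hUs t
    · simp only [stateAfter, Function.update_self]
      rw [stateAfter_congr (U' := Us) y _ q fun t ht => Function.update_of_ne (by omega) _ _,
        hst, ← Matrix.mulVec_mulVec, rot_oracle, ← Matrix.mulVec_mulVec, lift_emb,
        Matrix.mulVec_mulVec, Matrix.mulVec_mulVec]

lemma sum_emb [Fintype E] (ε : E ≃ Fin w) (i₀ : Fin n) (ψ : E → ℝ) (g : E → ℝ) :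
    ∑ p : QIdx n w, ‖emb ε i₀ ψ p‖ ^ 2 * g (ε.symm p.2.2) = ∑ z, ψ z ^ 2 * g z := by
  rw [Fintype.sum_prod_type, Finset.sum_eq_single i₀]
  · rw [Fintype.sum_prod_type, Fintype.sum_bool, ← Finset.sum_add_distrib, ← Equiv.sum_comp ε]
    refine Finset.sum_congr rfl fun z _ => ?_
    simp only [emb, if_true, Equiv.symm_apply_apply, Complex.norm_real, Real.norm_eq_abs, sq_abs,
      div_pow]
    rw [Real.sq_sqrt (by norm_num)]
    ring
  · intro i _ hi; simp [emb, hi]
  · simp

end Bridge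

/-- A sampler in the phase-oracle model gives an algorithm in the official model. -/
theorem Samp.quantumComputes {I : Type} [Nonempty I] {n q : ℕ} (e : Fin n ≃ I)
    {P : (I → Bool) → (Bool → ℝ) → ℝ} (h : Samp q P) (F : (I → Bool) → Bool)
    (hF : ∀ x, 2 / 3 ≤ P x fun b => ind (b = F x)) :
    QuantumComputes (fun y : Fin n → Bool => F fun i => y (e.symm i)) q := by
  obtain ⟨E, _, _, e₀, V, lab, hV, hP⟩ := h
  let ε : E ≃ Fin (Fintype.card E) := Fintype.equivFin E
  let i₀ : Fin n := e.symm (Classical.arbitrary I)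
  obtain ⟨U, hU, hst⟩ := Bridge.simulate e ε i₀ (Pi.single e₀ 1) hV 1 (one_mem _)
  refine ⟨Fintype.card E, U, Bridge.emb ε i₀ (Pi.single e₀ 1), fun p => lab (ε.symm p.2.2), hU,
    ?_, fun y => ?_⟩
  · have := Bridge.sum_emb ε i₀ (Pi.single e₀ 1) (fun _ => 1)
    simp only [mul_one] at this
    rw [this, Finset.sum_eq_single e₀] <;> simp +contextual
  · refine (hF fun i => y (e.symm i)).trans (le_of_eq ?_)
    rw [hP, hst, Matrix.one_mulVec]
    have := Bridge.sum_emb ε i₀ ((V fun i => y (e.symm i)).mulVec (Pi.single e₀ 1))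
      (fun z => ind (lab z = F fun i => y (e.symm i)))
    simp only [Matrix.mulVec_single_one, Matrix.col_apply] at this ⊢
    rw [← this]
    refine Finset.sum_congr rfl fun p _ => ?_
    rw [ind_eq_ite]
    split_ifs <;> simp

end Crest.Agent.R350
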