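import Crest.Agent.R350.Had

set_option autoImplicit false

namespace Crest.Agent.R350

open Finset

section dext

variable {V R : Type} [Fintype V] [DecidableEq V] [CommRing R] [Algebra ℝ R]

theorem map_dext {R' : Type} [CommRing R'] [Algebra ℝ R'] (f : R →ₐ[ℝ] R') (g : (V → Bool) → ℝ)
    (S : Finset V) (z : V → R) : f (dext g S z) = dext g S (fun v => f (z v)) := by
  unfold dext
  rw [map_sum]
  refine sum_congr rfl fun x _ => ?_
  rw [map_smul, map_prod]
  congr 1
  refine prod_congr rfl fun v _ => ?_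
  rw [map_smul]
  congr 1
  split_ifs
  · exact map_sg f _
  · rw [map_add, map_one, map_mul, map_sg]

theorem eval_dext {σ : Type} (ω : σ → ℝ) (g : (V → Bool) → ℝ) (S : Finset V)
    (z : V → MvPolynomial σ ℝ) :
    MvPolynomial.eval ω (dext g S z) = dext g S (fun v => MvPolynomial.eval ω (z v)) :=
  map_dext (MvPolynomial.aeval ω) g S z

lemma dx_abs_pair (y : ℝ) : 1 / 2 * |1 + -1 * y| + 1 / 2 * |1 + 1 * y| = max 1 |y| := by
  rcases abs_cases (1 + -1 * y) with h | h <;> rcases abs_cases (1 + 1 * y) with h' | h' <;>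
    rcases abs_cases y with h'' | h'' <;> rcases max_cases 1 |y| with h3 | h3 <;> linarith

theorem abs_dext_le (g : (V → Bool) → ℝ) (hg : ∀ x, |g x| ≤ 1) (S : Finset V) (z : V → ℝ) :
    |dext g S z| ≤ ∏ v, max 1 |z v| := by
  unfold dext
  let F : V → Bool → ℝ := fun v b => (1 / 2 : ℝ) * |if v ∈ S then sg b else 1 + sg b * z v|
  calc _ ≤ ∑ x : V → Bool, ∏ v, F v (x v) := by
        refine (abs_sum_le_sum_abs _ _).trans (sum_le_sum fun x _ => ?_)
        rw [smul_eq_mul, abs_mul, abs_prod]
        have h1 : ∏ v, |(1 / 2 : ℝ) • (if v ∈ S then (sg (x v) : ℝ) else 1 + sg (x v) * z v)| =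
            ∏ v, F v (x v) := prod_congr rfl fun v _ => by
          rw [smul_eq_mul, abs_mul, abs_of_pos (by norm_num : (0 : ℝ) < 1 / 2)]
        rw [h1]
        have h2 : 0 ≤ ∏ v, F v (x v) := prod_nonneg fun v _ => by positivity
        nlinarith [hg x]
    _ = ∏ v, ∑ b, F v b := by
        rw [Finset.prod_univ_sum, Fintype.piFinset_univ]
    _ ≤ _ := by
        refine prod_le_prod (fun v _ => sum_nonneg fun b _ => by positivity) fun v _ => ?_
        rw [Fintype.sum_bool]
        simp only [F]
        split_ifs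
        · rw [abs_sg, abs_sg]
          have := le_max_left 1 |z v|
          linarith
        · rw [sg_true, sg_false, dx_abs_pair]

omit [Fintype V] in
lemma dx_leibniz_prod (D : Derivation ℝ R R) (s : Finset V) (a : V → R) :
    D (∏ v ∈ s, a v) = ∑ v ∈ s, D (a v) * ∏ w ∈ s.erase v, a w := by
  induction s using Finset.induction_on with
  | empty => simp
  | insert u s hu ih =>
    rw [prod_insert hu, sum_insert hu, Derivation.leibniz, ih, erase_insert hu, smul_eq_mul,
      smul_eq_mul, mul_sum, add_comm, mul_comm]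
    congr 1
    refine sum_congr rfl fun v hv => ?_
    have huv : u ≠ v := fun h => hu (h ▸ hv)
    rw [erase_insert_of_ne huv, prod_insert fun h => hu (mem_of_mem_erase h)]
    ring

lemma dx_deriv_sg (D : Derivation ℝ R R) (b : Bool) : D (sg b) = 0 := by
  cases b <;> simp

/-- Splitting off the factor at `v` from the product in `dext g (insert v S)`. -/
lemma dx_prod_insert (S : Finset V) (v : V) (x : V → Bool) (z : V → R) :
    ∏ w, (1 / 2 : ℝ) • (if w ∈ insert v S then (sg (x w) : R) else 1 + sg (x w) * z w) =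
      (1 / 2 : ℝ) • sg (x v) *
        ∏ w ∈ univ.erase v, (1 / 2 : ℝ) • (if w ∈ S then (sg (x w) : R) else 1 + sg (x w) * z w) := by
  rw [← mul_prod_erase univ _ (mem_univ v), if_pos (mem_insert_self v S)]
  congr 1
  refine prod_congr rfl fun w hw => ?_
  simp only [mem_insert, ne_of_mem_erase hw, false_or]

/-- Chain rule for derivations. -/
theorem derivation_dext (D : Derivation ℝ R R) (g : (V → Bool) → ℝ) (S : Finset V) (z : V → R) :
    D (dext g S z) = ∑ v ∈ Sᶜ, D (z v) * dext g (insert v S) z := by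
  unfold dext
  simp only [mul_sum]
  rw [map_sum, sum_comm]
  refine sum_congr rfl fun x _ => ?_
  rw [Derivation.map_smul, dx_leibniz_prod, smul_sum,
    ← sum_subset (subset_univ Sᶜ) fun v _ hv => ?_]
  · refine sum_congr rfl fun v hv => ?_
    have hv' : v ∉ S := mem_compl.1 hv
    rw [dx_prod_insert S v, if_neg hv', Derivation.map_smul, map_add, Derivation.leibniz,
      dx_deriv_sg, Derivation.map_one_eq_zero]
    simp only [smul_eq_mul, mul_zero, add_zero, zero_add, mul_smul_comm, smul_mul_assoc]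
    congr 2
    ring
  · have hv' : v ∈ S := by simpa using hv
    rw [if_pos hv', Derivation.map_smul, dx_deriv_sg, smul_zero, zero_mul, smul_zero]

omit [Fintype V] in
lemma dx_hasDerivAt_prod (s : Finset V) (a b : V → R) (t : ℝ) (L : R →ₗ[ℝ] ℝ) :
    HasDerivAt (fun t : ℝ => L (∏ v ∈ s, (a v + t • b v)))
      (∑ v ∈ s, L (b v * ∏ w ∈ s.erase v, (a w + t • b w))) t := by
  induction s using Finset.induction_on generalizing L with
  | empty => simpa using hasDerivAt_const t (L 1)
  | insert u s hu ih =>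
    have h1 := ih (L ∘ₗ LinearMap.mulLeft ℝ (a u))
    have h2 := (hasDerivAt_id t).mul (ih (L ∘ₗ LinearMap.mulLeft ℝ (b u)))
    have h3 := h1.add h2
    have e : (fun t : ℝ => L (∏ v ∈ insert u s, (a v + t • b v))) =
        (fun t : ℝ => (L ∘ₗ LinearMap.mulLeft ℝ (a u)) (∏ v ∈ s, (a v + t • b v))) +
          id * fun t : ℝ => (L ∘ₗ LinearMap.mulLeft ℝ (b u)) (∏ v ∈ s, (a v + t • b v)) := by
      funext r
      rw [prod_insert hu, add_mul, smul_mul_assoc, map_add, map_smul]
      rfl
    rw [e]
    refine h3.congr_deriv ?_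
    rw [sum_insert hu, erase_insert hu]
    simp only [LinearMap.comp_apply, LinearMap.mulLeft_apply, id, one_mul]
    rw [add_left_comm, mul_sum, ← sum_add_distrib]
    congr 1
    refine sum_congr rfl fun v hv => ?_
    have huv : u ≠ v := fun h => hu (h ▸ hv)
    rw [erase_insert_of_ne huv, prod_insert fun h => hu (mem_of_mem_erase h), ← smul_eq_mul t,
      ← map_smul, ← map_add]
    congr 1
    rw [add_mul, smul_mul_assoc, mul_add, mul_smul_comm, mul_left_comm, mul_left_comm (b u)]

/-- Derivative along an affine path, under a linear functional. -/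
theorem hasDerivAt_dext (L : R →ₗ[ℝ] ℝ) (g : (V → Bool) → ℝ) (A B : V → R) (t : ℝ) :
    HasDerivAt (fun t : ℝ => L (dext g ∅ fun v => A v + t • B v))
      (∑ v, L (B v * dext g {v} fun v => A v + t • B v)) t := by
  let a : (V → Bool) → V → R := fun x v => (1 / 2 : ℝ) • (1 + sg (x v) * A v)
  let b : (V → Bool) → V → R := fun x v => (1 / 2 : ℝ) • (sg (x v) * B v)
  have hab : ∀ (x : V → Bool) (v : V) (r : ℝ), (1 / 2 : ℝ) •
      (if v ∈ (∅ : Finset V) then (sg (x v) : R) else 1 + sg (x v) * (A v + r • B v)) =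
        a x v + r • b x v := by
    intro x v r
    rw [if_neg (notMem_empty v)]
    simp only [a, b]
    rw [smul_comm r, ← smul_add, mul_add, mul_smul_comm, add_assoc]
  have h := HasDerivAt.fun_sum (u := univ) fun x _ =>
    (dx_hasDerivAt_prod univ (a x) (b x) t L).const_mul (g x)
  have e : (fun t : ℝ => L (dext g ∅ fun v => A v + t • B v)) =
      fun t : ℝ => ∑ x : V → Bool, g x * L (∏ v, (a x v + t • b x v)) := by
    funext r
    unfold dext
    rw [map_sum]
    refine sum_congr rfl fun x _ => ?_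
    rw [map_smul, smul_eq_mul]
    simp only [hab]
  rw [e]
  refine h.congr_deriv ?_
  simp only [mul_sum]
  rw [sum_comm]
  refine sum_congr rfl fun v _ => ?_
  unfold dext
  rw [mul_sum, map_sum]
  refine sum_congr rfl fun x _ => ?_
  rw [mul_smul_comm, map_smul, smul_eq_mul, ← insert_empty_eq,
    dx_prod_insert ∅ v]
  simp only [hab]
  congr 2
  simp only [b, smul_mul_assoc, mul_smul_comm]
  congr 1
  ring

/-- The product rounding law with means `z`. -/
noncomputable def rnd (z : V → ℝ) (x : V → Bool) : ℝ := ∏ v, (1 + sg (x v) * z v) / 2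

theorem sum_rnd (z : V → ℝ) : ∑ x, rnd z x = 1 := by
  have h := Finset.prod_univ_sum (fun _ : V => (univ : Finset Bool))
    (fun v b => (1 + (sg b : ℝ) * z v) / 2)
  rw [Fintype.piFinset_univ] at h
  unfold rnd
  rw [← h]
  refine prod_eq_one fun v _ => ?_
  rw [Fintype.sum_bool, sg_true, sg_false]
  ring

theorem rnd_nonneg (z : V → ℝ) (hz : ∀ v, |z v| ≤ 1) (x : V → Bool) : 0 ≤ rnd z x := by
  refine prod_nonneg fun v _ => ?_
  have := abs_le.1 (hz v)
  cases x v
  · rw [sg_false]; linarith
  · rw [sg_true]; linarith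

theorem Ex_rnd (z : V → ℝ) (g : (V → Bool) → ℝ) : Ex (rnd z) g = dext g ∅ z := by
  unfold Ex dext rnd
  refine sum_congr rfl fun x _ => ?_
  rw [smul_eq_mul, mul_comm]
  congr 1
  refine prod_congr rfl fun v _ => ?_
  rw [if_neg (notMem_empty v), smul_eq_mul]
  ring

/-- A sign factor that is independent of the rest has mean `z v`. -/
lemma Ex_rnd_sg_mul (z : V → ℝ) (v : V) (f : (V → Bool) → ℝ)
    (hf : ∀ x b, f (Function.update x v b) = f x) :
    Ex (rnd z) (fun x => sg (x v) * f x) = z v * Ex (rnd z) f := by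
  let F : (V → Bool) → ℝ := fun x => rnd z x * (sg (x v) * f x) - z v * (rnd z x * f x)
  let e : (V → Bool) → (V → Bool) := fun x => Function.update x v (!x v)
  have he : Function.Involutive e := fun x => by simp [e]
  have hF : ∀ x, F (e x) = -F x := by
    intro x
    have h1 : ∀ y : V → Bool, rnd z y = (1 + sg (y v) * z v) / 2 *
        ∏ w ∈ univ.erase v, (1 + sg (y w) * z w) / 2 := fun y =>
      (mul_prod_erase univ (fun w => (1 + sg (y w) * z w) / 2) (mem_univ v)).symm
    have h2 : ∏ w ∈ univ.erase v, (1 + sg (e x w) * z w) / 2 =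
        ∏ w ∈ univ.erase v, (1 + (sg (x w) : ℝ) * z w) / 2 :=
      prod_congr rfl fun w hw => by
        simp only [e, Function.update_of_ne (ne_of_mem_erase hw)]
    have h3 : e x v = !x v := by simp [e]
    have h4 : f (e x) = f x := hf _ _
    simp only [F]
    rw [h1 (e x), h1 x, h2, h3, h4]
    cases x v <;> simp <;> ring
  have h5 : ∑ x, F x = -∑ x, F x := by
    conv_lhs => rw [← Equiv.sum_comp he.toPerm F]
    rw [← sum_neg_distrib]
    exact sum_congr rfl fun x _ => hF x
  have h6 : ∑ x, F x = 0 := by linarith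
  simp only [F] at h6
  rw [sum_sub_distrib, ← mul_sum] at h6
  unfold Ex
  linarith

lemma vec_congr {S : Type*} [CommRing S] {n m : ℕ} (z z' : Fin (m + 1) × Cube n → S)
    (κ : Fin (m + 1)) (h : ∀ κ' ≤ κ, ∀ i, z (κ', i) = z' (κ', i)) (j : Cube n) :
    vec z κ j = vec z' κ j := by
  induction κ using Fin.induction generalizing j with
  | zero => rw [vec_zero, vec_zero, h 0 le_rfl]
  | succ κ ih =>
    rw [vec_succ, vec_succ, h _ le_rfl]
    congr 1
    refine sum_congr rfl fun i _ => ?_
    rw [ih fun κ' hκ' => h κ' (hκ'.trans κ.castSucc_lt_succ.le)]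

lemma Ex_rnd_vec {n m : ℕ} (z : Fin (m + 1) × Cube n → ℝ) (κ : Fin (m + 1)) (j : Cube n) :
    Ex (rnd z) (fun x => vec (fun v => (sg (x v) : ℝ)) κ j) = vec z κ j := by
  induction κ using Fin.induction generalizing j with
  | zero =>
    have h := Ex_rnd_sg_mul z (0, j) (fun _ => 1) fun _ _ => rfl
    have h1 : Ex (rnd z) (fun _ => (1 : ℝ)) = 1 := by
      simp only [Ex, mul_one]
      exact sum_rnd z
    rw [h1] at h
    simpa using h
  | succ κ ih =>
    simp only [vec_succ]
    rw [Ex_rnd_sg_mul z (κ.succ, j)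
      (fun x => ∑ i, had i j * vec (fun v => (sg (x v) : ℝ)) κ.castSucc i)]
    · congr 1
      simp only [← ih, Ex, mul_sum]
      rw [sum_comm]
      exact sum_congr rfl fun i _ => sum_congr rfl fun x _ => by ring
    · intro x b
      refine sum_congr rfl fun i _ => ?_
      rw [vec_congr _ (fun v => (sg (x v) : ℝ)) κ.castSucc]
      intro κ' hκ' i'
      rw [Function.update_of_ne]
      intro h
      have h1 : κ' = κ.succ := (Prod.ext_iff.1 h).1
      exact absurd (h1 ▸ hκ') (not_le.2 κ.castSucc_lt_succ)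

/-- Forrelation is its own multilinear extension. -/
theorem dext_forr {n m : ℕ} (z : Fin (m + 1) × Cube n → ℝ) :
    dext (fun x => forr x) ∅ z = forrI z / rt n ^ (m + 2) := by
  rw [← Ex_rnd]
  simp only [forrI, ← Ex_rnd_vec z, Ex, forr, sum_div, mul_sum]
  rw [sum_comm]
  exact sum_congr rfl fun i _ => sum_congr rfl fun x _ => by ring

end dext

end Crest.Agent.R350
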