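import Crest.Agent.R350.Basic

set_option autoImplicit false

namespace Crest.Agent.R350

open Finset

open MeasureTheory ProbabilityTheory MvPolynomial

/-- Independent centred Gaussians of variance `δ`. -/
noncomputable def gam (σ : Type) [Fintype σ] (δ : NNReal) : Measure (σ → ℝ) :=
  Measure.pi fun _ => gaussianReal 0 δ

instance gam_prob (σ : Type) [Fintype σ] (δ : NNReal) : IsProbabilityMeasure (gam σ δ) := by
  unfold gam; infer_instance

namespace GaussAux

/-- Tilted moments of the one-dimensional Gaussian. -/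
noncomputable def tm (δ : NNReal) (n : ℕ) (t : ℝ) : ℝ :=
  ∫ x, x ^ n * Real.exp (t * x) ∂(gaussianReal 0 δ)

lemma hasDerivAt_tm (δ : NNReal) (n : ℕ) (t : ℝ) : HasDerivAt (tm δ n) (tm δ (n + 1) t) t :=
  hasDerivAt_integral_pow_mul_exp_real (X := fun x : ℝ => x) (μ := gaussianReal 0 δ)
    (by simp) n

lemma tm_zero (δ : NNReal) : tm δ 0 = fun t => Real.exp (δ * t ^ 2 / 2) := by
  have := mgf_fun_id_gaussianReal (μ := 0) (v := δ)
  funext t
  have h := congrFun this t
  simpa [mgf, tm] using h

lemma tm_succ (δ : NNReal) (n : ℕ) (t : ℝ) :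
    tm δ (n + 1) t = δ * t * tm δ n t + n * δ * tm δ (n - 1) t := by
  induction n generalizing t with
  | zero =>
    have h1 := hasDerivAt_tm δ 0 t
    have h2 : HasDerivAt (fun t : ℝ => Real.exp (δ * t ^ 2 / 2))
        (Real.exp (δ * t ^ 2 / 2) * (δ * (2 * t) / 2)) t := by
      refine HasDerivAt.exp ?_
      refine HasDerivAt.div_const (HasDerivAt.const_mul _ ?_) _
      simpa using hasDerivAt_pow 2 t
    rw [tm_zero] at h1 ⊢
    rw [h1.unique h2]
    simp only [Nat.cast_zero, zero_mul, add_zero]
    ring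
  | succ n ih =>
    have h1 := hasDerivAt_tm δ (n + 1) t
    have h2 : HasDerivAt (fun t : ℝ => δ * t * tm δ n t + n * δ * tm δ (n - 1) t)
        ((δ * 1 * tm δ n t + δ * t * tm δ (n + 1) t) + n * δ * tm δ (n - 1 + 1) t) t :=
      (((hasDerivAt_id t).const_mul (δ : ℝ)).mul (hasDerivAt_tm δ n t)).add
        ((hasDerivAt_tm δ (n - 1) t).const_mul _)
    rw [← funext ih] at h2
    rw [h1.unique h2]
    have : (n : ℝ) * δ * tm δ (n - 1 + 1) t = n * δ * tm δ n t := by
      cases n <;> simp
    rw [this]
    simp only [Nat.add_sub_cancel]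
    push_cast
    ring

/-- Moments of the one-dimensional Gaussian. -/
noncomputable def mom (δ : NNReal) (n : ℕ) : ℝ := ∫ x, x ^ n ∂(gaussianReal 0 δ)

lemma mom_eq (δ : NNReal) (n : ℕ) : mom δ n = tm δ n 0 := by simp [mom, tm]

lemma mom_zero (δ : NNReal) : mom δ 0 = 1 := by simp [mom]

lemma mom_succ (δ : NNReal) (n : ℕ) : mom δ (n + 1) = n * δ * mom δ (n - 1) := by
  simp [mom_eq, tm_succ]

lemma integrable_pow (δ : NNReal) (n : ℕ) :
    Integrable (fun x : ℝ => x ^ n) (gaussianReal 0 δ) :=
  integrable_pow_of_mem_interior_integrableExpSet (X := fun x : ℝ => x) (by simp) n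

lemma mom_even_nonneg (δ : NNReal) (p : ℕ) : 0 ≤ mom δ (2 * p) :=
  integral_nonneg fun x => by
    simp only [Pi.zero_apply, pow_mul]
    positivity

lemma mom_even_le (δ : NNReal) (p : ℕ) : mom δ (2 * p) ≤ (2 * p).factorial * (δ : ℝ) ^ p := by
  induction p with
  | zero => simp [mom_zero]
  | succ p ih =>
    have e : 2 * (p + 1) = (2 * p + 1) + 1 := by ring
    rw [e, mom_succ, Nat.add_sub_cancel, Nat.factorial_succ, Nat.factorial_succ, pow_succ]
    push_cast
    have h0 : (0 : ℝ) ≤ (2 * p + 1) * δ * ((2 * p).factorial * (δ : ℝ) ^ p) := by positivity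
    have h1 : (1 : ℝ) ≤ 2 * p + 1 + 1 := by
      have : (0 : ℝ) ≤ p := by positivity
      linarith
    calc (2 * p + 1 : ℝ) * δ * mom δ (2 * p)
        ≤ (2 * p + 1) * δ * ((2 * p).factorial * (δ : ℝ) ^ p) := by gcongr
      _ ≤ (2 * p + 1 + 1) * ((2 * p + 1) * δ * ((2 * p).factorial * (δ : ℝ) ^ p)) :=
        le_mul_of_one_le_left h0 h1
      _ = _ := by ring

lemma eval_monomial' {σ : Type} [Fintype σ] (s : σ →₀ ℕ) (c : ℝ) (ω : σ → ℝ) :
    eval ω (monomial s c) = c * ∏ a, ω a ^ s a := by
  rw [eval_monomial, Finsupp.prod_fintype _ _ (by simp)]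

end GaussAux

open GaussAux

variable {σ : Type} [Fintype σ] [DecidableEq σ]

theorem measurable_eval (f : MvPolynomial σ ℝ) : Measurable fun ω : σ → ℝ => eval ω f :=
  (MvPolynomial.continuous_eval f).measurable

theorem integrable_eval (δ : NNReal) (f : MvPolynomial σ ℝ) :
    Integrable (fun ω : σ → ℝ => eval ω f) (gam σ δ) := by
  induction f using MvPolynomial.induction_on' with
  | monomial s c =>
    simp only [eval_monomial']
    exact (Integrable.fintype_prod (f := fun a x => x ^ s a)
      fun a => integrable_pow δ (s a)).const_mul c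
  | add p q hp hq =>
    simp only [map_add]
    exact hp.add hq

/-- Gaussian expectation of a polynomial. -/
noncomputable def GE (δ : NNReal) : MvPolynomial σ ℝ →ₗ[ℝ] ℝ where
  toFun f := ∫ ω, eval ω f ∂(gam σ δ)
  map_add' f g := by
    simp only [map_add]
    exact integral_add (integrable_eval δ f) (integrable_eval δ g)
  map_smul' c f := by
    simp only [smul_eval, RingHom.id_apply, smul_eq_mul]
    exact integral_const_mul _ _

lemma GE_apply (δ : NNReal) (f : MvPolynomial σ ℝ) :
    GE δ f = ∫ ω, eval ω f ∂(gam σ δ) := rfl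

theorem GE_one (δ : NNReal) : GE δ (1 : MvPolynomial σ ℝ) = 1 := by
  simp [GE_apply]

lemma GE_monomial (δ : NNReal) (s : σ →₀ ℕ) (c : ℝ) :
    GE δ (monomial s c) = c * ∏ a, mom δ (s a) := by
  simp only [GE_apply, eval_monomial']
  rw [integral_const_mul]
  congr 1
  exact integral_fintype_prod_eq_prod (fun a (x : ℝ) => x ^ s a)

/-- Stein's identity. -/
theorem GE_stein (δ : NNReal) (a : σ) (f : MvPolynomial σ ℝ) :
    GE δ (X a * f) = δ * GE δ (pderiv a f) := by
  induction f using MvPolynomial.induction_on' with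
  | monomial s c =>
    have h1 : (X a : MvPolynomial σ ℝ) * monomial s c = monomial (Finsupp.single a 1 + s) c := by
      rw [monomial_single_add, pow_one]
    rw [h1, pderiv_monomial, GE_monomial, GE_monomial,
      ← Finset.mul_prod_erase _ _ (Finset.mem_univ a),
      ← Finset.mul_prod_erase _ _ (Finset.mem_univ a)]
    have h2 : ∏ b ∈ univ.erase a, mom δ ((Finsupp.single a 1 + s : σ →₀ ℕ) b) =
        ∏ b ∈ univ.erase a, mom δ (s b) :=
      Finset.prod_congr rfl fun b hb => by
        simp [Finsupp.single_eq_of_ne (Finset.ne_of_mem_erase hb)]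
    have h3 : ∏ b ∈ univ.erase a, mom δ ((s - Finsupp.single a 1 : σ →₀ ℕ) b) =
        ∏ b ∈ univ.erase a, mom δ (s b) :=
      Finset.prod_congr rfl fun b hb => by
        simp [Finsupp.single_eq_of_ne (Finset.ne_of_mem_erase hb)]
    rw [h2, h3]
    simp only [Finsupp.coe_add, Pi.add_apply, Finsupp.single_eq_same, Finsupp.coe_tsub,
      Pi.sub_apply]
    rw [add_comm 1, mom_succ]
    ring
  | add p q hp hq =>
    rw [mul_add, map_add, map_add, map_add, hp, hq, mul_add]

namespace GaussAux

lemma stein_unique (δ : ℝ) (L : MvPolynomial σ ℝ →ₗ[ℝ] ℝ) (h1 : L 1 = 0)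
    (hL : ∀ a f, L (X a * f) = δ * L (pderiv a f)) (f : MvPolynomial σ ℝ) : L f = 0 := by
  have key : ∀ (n : ℕ) (s : σ →₀ ℕ) (c : ℝ), ∑ a, s a = n → L (monomial s c) = 0 := by
    intro n
    induction n using Nat.strong_induction_on with
    | _ n ih =>
      intro s c hs
      by_cases h0 : s = 0
      · subst h0
        have : (monomial 0 c : MvPolynomial σ ℝ) = c • 1 := by
          rw [smul_eq_C_mul, mul_one]; rfl
        rw [this, map_smul, h1, smul_zero]
      · obtain ⟨a, ha⟩ : ∃ a, s a ≠ 0 := by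
          by_contra hc
          push Not at hc
          exact h0 (Finsupp.ext hc)
        have e : s = Finsupp.single a 1 + (s - Finsupp.single a 1) := by
          rw [add_tsub_cancel_of_le]
          rw [Finsupp.single_le_iff]
          omega
        rw [e, monomial_single_add, pow_one, hL, pderiv_monomial, ih _ ?_ _ _ rfl, mul_zero]
        rw [← hs]
        refine Finset.sum_lt_sum (fun b _ => ?_) ⟨a, Finset.mem_univ a, ?_⟩
        · simp only [Finsupp.coe_tsub, Pi.sub_apply]
          omega
        · simp only [Finsupp.coe_tsub, Pi.sub_apply, Finsupp.single_eq_same]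
          omega
  induction f using MvPolynomial.induction_on' with
  | monomial s c => exact key _ s c rfl
  | add p q hp hq => rw [map_add, hp, hq, add_zero]

lemma pderiv_aeval_lin (O : σ → σ → ℝ) (c : σ) (f : MvPolynomial σ ℝ) :
    pderiv c (aeval (fun a => ∑ c, O a c • (X c : MvPolynomial σ ℝ)) f) =
      ∑ b, O b c • aeval (fun a => ∑ c, O a c • (X c : MvPolynomial σ ℝ)) (pderiv b f) := by
  induction f using MvPolynomial.induction_on with
  | C a => simp
  | add p q hp hq => simp only [map_add, hp, hq, smul_add, Finset.sum_add_distrib]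
  | mul_X p a hp =>
    have h1 : pderiv c (∑ c, O a c • (X c : MvPolynomial σ ℝ)) = O a c • 1 := by
      rw [map_sum, Finset.sum_eq_single c]
      · simp
      · intro b _ hb
        simp [pderiv_X_of_ne hb]
      · simp
    simp only [map_mul, aeval_X, pderiv_mul, hp, h1, map_add, smul_add, Finset.sum_add_distrib,
      Finset.sum_mul, smul_mul_assoc]
    congr 1
    rw [Finset.sum_eq_single a]
    · simp
    · intro b _ hb
      simp [pderiv_X_of_ne (Ne.symm hb)]
    · simp

end GaussAux

/-- Rotation invariance. -/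
theorem GE_rot (δ : NNReal) (O : σ → σ → ℝ)
    (hO : ∀ a b, ∑ c, O a c * O b c = if a = b then 1 else 0) (f : MvPolynomial σ ℝ) :
    GE δ (aeval (fun a => ∑ c, O a c • (X c : MvPolynomial σ ℝ)) f) = GE δ f := by
  set θ : σ → MvPolynomial σ ℝ := fun a => ∑ c, O a c • (X c : MvPolynomial σ ℝ) with hθ
  have := stein_unique δ (GE δ ∘ₗ (aeval θ).toLinearMap - GE δ) (by simp) (fun a g => ?_) f
  · simpa [sub_eq_zero] using this
  · simp only [LinearMap.sub_apply, LinearMap.comp_apply, AlgHom.toLinearMap_apply, map_mul,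
      aeval_X, mul_sub, GE_stein]
    congr 1
    rw [hθ]
    simp only [Finset.sum_mul, smul_mul_assoc, map_sum, map_smul, GE_stein, pderiv_aeval_lin,
      smul_eq_mul, Finset.mul_sum]
    rw [Finset.sum_comm, Finset.sum_eq_single a]
    · have := hO a a
      rw [if_pos rfl] at this
      calc _ = ∑ c, O a c * O a c * (δ * GE δ (aeval θ (pderiv a g))) :=
            Finset.sum_congr rfl fun c _ => by ring
        _ = _ := by rw [← Finset.sum_mul, this, one_mul]
    · intro b _ hb
      have := hO a b
      rw [if_neg (Ne.symm hb)] at this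
      calc _ = ∑ c, O a c * O b c * (δ * GE δ (aeval θ (pderiv b g))) :=
            Finset.sum_congr rfl fun c _ => by ring
        _ = _ := by rw [← Finset.sum_mul, this, zero_mul]
    · simp

/-- A product moment bound. -/
theorem GE_prod_moment (δ : NNReal) (p : ℕ) (c : ℝ) (hc : 0 ≤ c) :
    GE δ (∏ a : σ, (1 + c • (X a : MvPolynomial σ ℝ) ^ (2 * p))) ≤
      Real.exp (Fintype.card σ * (c * ((2 * p).factorial * (δ : ℝ) ^ p))) := by
  have h1 : GE δ (∏ a : σ, (1 + c • (X a : MvPolynomial σ ℝ) ^ (2 * p))) =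
      (1 + c * mom δ (2 * p)) ^ Fintype.card σ := by
    simp only [GE_apply, map_prod, map_add, map_one, smul_eval, map_pow, eval_X]
    refine (integral_fintype_prod_eq_pow (fun x : ℝ => 1 + c * x ^ (2 * p))).trans ?_
    rw [integral_add (integrable_const _) ((integrable_pow δ _).const_mul c), integral_const_mul]
    simp [mom]
  rw [h1, Real.exp_nat_mul]
  have h2 := mom_even_nonneg δ p
  have h3 := mom_even_le δ p
  gcongr
  refine le_trans ?_ (Real.add_one_le_exp _)
  rw [add_comm]
  gcongr

end Crest.Agent.R350
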