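import Crest.Agent.R350.ZDefs
import Crest.Agent.R350.Gauss
import Crest.Agent.R350.Dext

set_option autoImplicit false

namespace Crest.Agent.R350

open Finset

open MvPolynomial

namespace Chain

lemma pderiv_Vp (m n : ℕ) (κ κ' : Fin m) (i j : Cube n) :
    pderiv (κ, i) (Vp m n κ' j) = if κ' = κ then (had i j / rt n : ℝ) • 1 else 0 := by
  unfold Vp
  rw [map_sum]
  simp only [Derivation.map_smul, pderiv_X]
  split_ifs with h
  · subst h
    rw [sum_eq_single i]
    · simp
    · intro b _ hb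
      rw [Pi.single_eq_of_ne (by simpa using hb), smul_zero]
    · simp
  · refine sum_eq_zero fun b _ => ?_
    rw [Pi.single_eq_of_ne (by simp [h]), smul_zero]

lemma pderiv_Ap (m n : ℕ) (t : ℝ) (κ : Fin m) (κ' : Fin (m + 1)) (i j : Cube n) :
    pderiv (κ, i) (Ap m n t κ' j) = if κ' = κ.succ then (had i j / rt n : ℝ) • 1 else 0 := by
  refine Fin.cases ?_ (fun κ' => ?_) κ'
  · rw [Ap_zero, pderiv_C, if_neg (Fin.succ_ne_zero κ).symm]
  · rw [Ap_succ, pderiv_Vp]
    simp only [Fin.succ_inj]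

lemma pderiv_Bp (m n : ℕ) (κ : Fin m) (κ' : Fin (m + 1)) (i j : Cube n)
    (h : (κ', j) ≠ (κ.castSucc, i)) : pderiv (κ, i) (Bp m n κ' j) = 0 := by
  revert h
  refine Fin.lastCases ?_ (fun κ' => ?_) κ'
  · intro _
    rw [Bp_last, pderiv_one]
  · intro h
    rw [Bp_castSucc, pderiv_X, Pi.single_eq_of_ne]
    intro h'
    apply h
    rw [Prod.mk.injEq] at h' ⊢
    exact ⟨by rw [h'.1], h'.2⟩

/-- One step of the Stein chain. -/
lemma step (m n : ℕ) (δ : NNReal) (g : (Fin (m + 1) × Cube n → Bool) → ℝ) (t : ℝ) (κ : Fin m)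
    (i : Cube n) (S : Finset (Fin (m + 1) × Cube n)) (hi : (κ.castSucc, i) ∈ S)
    (hS : ∀ j, (κ.succ, j) ∉ S) :
    GE δ (Bp m n κ.castSucc i * dext g S (Zp m n t)) =
      (δ : ℝ) / rt n * ∑ j, had i j *
        GE δ (Bp m n κ.succ j * dext g (insert (κ.succ, j) S) (Zp m n t)) := by
  rw [Bp_castSucc, GE_stein, derivation_dext]
  have h1 : ∑ v ∈ Sᶜ, pderiv (κ, i) (Zp m n t v) * dext g (insert v S) (Zp m n t) =
      ∑ v : Fin (m + 1) × Cube n, if v.1 = κ.succ then
        (had i v.2 / rt n : ℝ) • (Bp m n v.1 v.2 * dext g (insert v S) (Zp m n t)) else 0 := by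
    rw [← sum_add_sum_compl S]
    rw [sum_eq_zero (s := S), zero_add]
    · refine sum_congr rfl fun v hv => ?_
      have hv' : (v.1, v.2) ≠ (κ.castSucc, i) := by
        intro h
        rw [mem_compl] at hv
        exact hv (h ▸ hi : (v.1, v.2) ∈ S)
      rw [Zp, Derivation.leibniz, pderiv_Bp m n κ v.1 i v.2 hv', pderiv_Ap, smul_zero, zero_add]
      split_ifs
      · simp
      · simp
    · intro v hv
      rw [if_neg]
      intro h
      exact hS v.2 (h ▸ hv : (κ.succ, v.2) ∈ S)
  rw [h1, Fintype.sum_prod_type, sum_eq_single κ.succ]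
  · simp only [if_true, map_sum, map_smul, smul_eq_mul, mul_sum]
    refine sum_congr rfl fun j _ => ?_
    ring
  · intro b _ hb
    simp [hb]
  · simp

lemma sum_update {K Ω : Type} [Fintype K] [DecidableEq K] [Fintype Ω] (a : K) (G : (K → Ω) → ℝ) :
    ∑ I : K → Ω, ∑ j, G (Function.update I a j) = Fintype.card Ω * ∑ I, G I := by
  let e : (K → Ω) × Ω ≃ (K → Ω) × Ω :=
    { toFun := fun p => (Function.update p.1 a p.2, p.1 a)
      invFun := fun p => (Function.update p.1 a p.2, p.1 a)
      left_inv := fun p => by simp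
      right_inv := fun p => by simp }
  rw [← Fintype.sum_prod_type' (fun I j => G (Function.update I a j)),
    Fintype.sum_equiv e (fun p => G (Function.update p.1 a p.2)) (fun p => G p.1) (fun p => rfl),
    Fintype.sum_prod_type]
  simp [mul_sum]

/-- The initial part of the graph of a path. -/
def pgraph {m n : ℕ} (κ : Fin (m + 1)) (I : Fin (m + 1) → Cube n) :
    Finset (Fin (m + 1) × Cube n) :=
  (univ.filter (· ≤ κ)).image fun κ' => (κ', I κ')

/-- The initial part of the sign of a path. -/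
noncomputable def psign {m n : ℕ} (κ : Fin (m + 1)) (I : Fin (m + 1) → Cube n) : ℝ :=
  ∏ κ' ∈ univ.filter (fun κ' : Fin m => κ'.succ ≤ κ), had (I κ'.castSucc) (I κ'.succ)

lemma mem_pgraph {m n : ℕ} {κ : Fin (m + 1)} {I : Fin (m + 1) → Cube n}
    {v : Fin (m + 1) × Cube n} : v ∈ pgraph κ I ↔ v.1 ≤ κ ∧ v.2 = I v.1 := by
  simp only [pgraph, mem_image, mem_filter, mem_univ, true_and]
  constructor
  · rintro ⟨a, ha, rfl⟩; exact ⟨ha, rfl⟩
  · rintro ⟨h1, h2⟩; exact ⟨v.1, h1, by rw [← h2]⟩

lemma pgraph_update {m n : ℕ} (κ : Fin m) (I : Fin (m + 1) → Cube n) (j : Cube n) :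
    pgraph κ.succ (Function.update I κ.succ j) = insert (κ.succ, j) (pgraph κ.castSucc I) := by
  ext ⟨a, b⟩
  rw [mem_insert, mem_pgraph, mem_pgraph]
  by_cases h : a = κ.succ
  · subst h
    have : ¬ κ.succ ≤ κ.castSucc := not_le.mpr Fin.castSucc_lt_succ
    simp [this]
  · have h2 : a ≤ κ.succ ↔ a ≤ κ.castSucc := by
      have : a.val ≠ κ.val + 1 := fun h' => h (Fin.ext h')
      simp only [Fin.le_def, Fin.val_succ, Fin.val_castSucc]
      omega
    simp [h, h2]

lemma psign_update {m n : ℕ} (κ : Fin m) (I : Fin (m + 1) → Cube n) (j : Cube n) :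
    psign κ.succ (Function.update I κ.succ j) = psign κ.castSucc I * had (I κ.castSucc) j := by
  have h1 : univ.filter (fun κ' : Fin m => κ'.succ ≤ κ.succ) =
      insert κ (univ.filter (fun κ' : Fin m => κ'.succ ≤ κ.castSucc)) := by
    ext a
    simp only [mem_filter, mem_univ, true_and, mem_insert, Fin.le_def, Fin.val_succ,
      Fin.val_castSucc, Fin.ext_iff]
    omega
  have h2 : κ ∉ univ.filter (fun κ' : Fin m => κ'.succ ≤ κ.castSucc) := by
    simp only [mem_filter, mem_univ, true_and, not_le]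
    exact Fin.castSucc_lt_succ
  rw [psign, psign, h1, prod_insert h2, Function.update_self,
    Function.update_of_ne (Fin.castSucc_lt_succ).ne, mul_comm]
  congr 1
  refine prod_congr rfl fun a ha => ?_
  simp only [mem_filter, mem_univ, true_and] at ha
  have h3 : a.succ < κ.succ := ha.trans_lt Fin.castSucc_lt_succ
  rw [Function.update_of_ne h3.ne, Function.update_of_ne (Fin.castSucc_lt_succ.trans h3).ne]

lemma chain_sum (m n : ℕ) (δ : NNReal) (g : (Fin (m + 1) × Cube n → Bool) → ℝ) (t : ℝ) :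
    ∑ j, GE δ (Bp m n 0 j * dext g {(0, j)} (Zp m n t)) =
      ((δ : ℝ) / rt n) ^ m *
        GE δ (∑ i : Fin (m + 1) → Cube n, chainSign i • dext g (graph i) (Zp m n t)) := by
  set N : ℝ := (Fintype.card (Cube n) : ℝ) with hN
  have hN0 : N ≠ 0 := by rw [hN]; exact_mod_cast Fintype.card_ne_zero
  let G : Fin (m + 1) → (Fin (m + 1) → Cube n) → ℝ := fun κ I =>
    psign κ I * GE δ (Bp m n κ (I κ) * dext g (pgraph κ I) (Zp m n t))
  have hstep : ∀ κ : Fin m, ∑ I, G κ.castSucc I = (δ : ℝ) / rt n * N * ∑ I, G κ.succ I := by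
    intro κ
    rw [mul_assoc, hN, ← sum_update κ.succ, mul_sum]
    refine sum_congr rfl fun I _ => ?_
    simp only [G]
    rw [step m n δ g t κ (I κ.castSucc) _ (mem_pgraph.mpr ⟨le_rfl, rfl⟩)
      (fun j h => absurd (mem_pgraph.mp h).1 (not_le.mpr Fin.castSucc_lt_succ))]
    simp only [mul_sum]
    refine sum_congr rfl fun j _ => ?_
    rw [psign_update, pgraph_update, Function.update_self]
    ring
  have hall : ∀ κ : Fin (m + 1), ∑ I, G 0 I = ((δ : ℝ) / rt n * N) ^ κ.val * ∑ I, G κ I := by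
    intro κ
    induction κ using Fin.induction with
    | zero => simp
    | succ κ ih => rw [ih, hstep, Fin.val_succ, Fin.val_castSucc, pow_succ]; ring
  have h0 : ∀ I j, G 0 (Function.update I 0 j) =
      GE δ (Bp m n 0 j * dext g {(0, j)} (Zp m n t)) := by
    intro I j
    have h1 : pgraph 0 (Function.update I 0 j) = {(0, j)} := by
      ext ⟨a, b⟩
      rw [mem_pgraph, mem_singleton, Prod.mk.injEq]
      simp only [Fin.le_zero_iff]
      constructor
      · rintro ⟨rfl, h⟩; exact ⟨rfl, by simpa using h⟩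
      · rintro ⟨rfl, h⟩; exact ⟨rfl, by simpa using h⟩
    have h2 : psign 0 (Function.update I 0 j) = 1 := by
      refine prod_eq_one fun a ha => ?_
      simp at ha
    simp only [G]
    rw [h1, h2, Function.update_self, one_mul]
  have hlast : ∑ I, G (Fin.last m) I =
      GE δ (∑ i : Fin (m + 1) → Cube n, chainSign i • dext g (graph i) (Zp m n t)) := by
    rw [map_sum]
    refine sum_congr rfl fun I _ => ?_
    simp only [G]
    have e1 : psign (Fin.last m) I = chainSign I := by simp [psign, chainSign, Fin.le_last]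
    have e2 : pgraph (Fin.last m) I = graph I := by simp [pgraph, graph, Fin.le_last]
    rw [map_smul, Bp_last, one_mul, smul_eq_mul, e1, e2]
  have h1 := sum_update (0 : Fin (m + 1)) (G 0)
  simp only [h0] at h1
  rw [sum_const, card_univ, Fintype.card_fun, Fintype.card_fin, nsmul_eq_mul, Nat.cast_pow, ← hN,
    hall (Fin.last m), hlast, Fin.val_last] at h1
  apply mul_left_cancel₀ (pow_ne_zero (m + 1) hN0)
  rw [h1]
  ring

lemma mean_aux (m n : ℕ) (δ : NNReal) (t : ℝ) (κ : Fin (m + 1)) :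
    ∃ r : Cube n → MvPolynomial (Sig m n) ℝ, (∀ j, vec (Zp m n t) κ j = Bp m n κ j * r j) ∧
      (∀ j (κ' : Fin m) i, κ.val ≤ κ'.val → pderiv (κ', i) (r j) = 0) ∧
      ∀ j, GE δ (r j) = t * (δ * rt n) ^ κ.val := by
  induction κ using Fin.induction with
  | zero =>
    refine ⟨fun _ => C t, fun j => ?_, fun j κ' i _ => pderiv_C, fun j => ?_⟩
    · rw [vec_zero, Zp, mul_comm]; rfl
    · rw [C_eq_smul_one, map_smul, GE_one]; simp
  | succ κ ih =>
    obtain ⟨r, h1, h2, h3⟩ := ih
    refine ⟨fun j => ∑ i, (had i j : ℝ) • (X (κ, i) * (Vp m n κ j * r i)), fun j => ?_,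
      fun j κ' i hκ => ?_, fun j => ?_⟩
    · rw [vec_succ, Zp, Ap_succ, mul_sum, mul_sum]
      refine sum_congr rfl fun i _ => ?_
      rw [h1, Bp_castSucc, smul_eq_C_mul, map_had]
      ring
    · have hne : κ ≠ κ' := by
        rintro rfl
        simp at hκ
      have hle : κ.castSucc.val ≤ κ'.val := by
        simp only [Fin.val_succ, Fin.val_castSucc] at hκ ⊢
        omega
      rw [map_sum]
      refine sum_eq_zero fun i' _ => ?_
      rw [Derivation.map_smul, Derivation.leibniz, Derivation.leibniz, h2 _ _ _ hle, pderiv_Vp,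
        if_neg hne, pderiv_X, Pi.single_eq_of_ne (by simp [hne])]
      simp
    · rw [map_sum]
      have : ∀ i, GE δ ((had i j : ℝ) • (X (κ, i) * (Vp m n κ j * r i))) =
          δ / rt n * (t * (δ * rt n) ^ κ.val) := by
        intro i
        rw [map_smul, GE_stein, Derivation.leibniz, h2 _ _ _ (by simp), pderiv_Vp, if_pos rfl,
          smul_zero, zero_add, smul_eq_mul, smul_eq_mul, mul_smul_comm, mul_one, map_smul, h3,
          smul_eq_mul, Fin.val_castSucc]
        have := had_mul_self (R := ℝ) i j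
        linear_combination (δ / rt n * (t * (δ * rt n) ^ κ.val)) * this
      simp only [this]
      rw [sum_const, card_univ, Fintype.card_fun, Fintype.card_bool, Fintype.card_fin, nsmul_eq_mul,
        Fin.val_succ]
      push_cast
      rw [← rt_sq]
      have := (rt_pos n).ne'
      field_simp
      ring

end Chain

open Chain

/-- The Stein chain: only level `m + 1` appears in the derivative. -/
theorem chain_deriv (m n : ℕ) (δ : NNReal) (g : (Fin (m + 1) × Cube n → Bool) → ℝ) (t : ℝ) :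
    HasDerivAt (fun t : ℝ => GE δ (dext g ∅ (Zp m n t)))
      (((δ : ℝ) / rt n) ^ m *
        GE δ (∑ i : Fin (m + 1) → Cube n, chainSign i • dext g (graph i) (Zp m n t))) t := by
  let B : Fin (m + 1) × Cube n → MvPolynomial (Sig m n) ℝ := fun v =>
    if v.1 = 0 then Bp m n 0 v.2 else 0
  have hZ : ∀ s : ℝ, (fun v => Zp m n 0 v + s • B v) = Zp m n s := by
    intro s
    funext ⟨κ, j⟩
    refine Fin.cases ?_ (fun κ => ?_) κ
    · simp [Zp, B, smul_eq_C_mul]
    · simp [Zp, B]
  have h := hasDerivAt_dext (GE δ) g (Zp m n 0) B t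
  simp only [hZ] at h
  rw [← chain_sum]
  refine h.congr_deriv ?_
  rw [Fintype.sum_prod_type, sum_eq_single 0]
  · simp [B]
  · intro b _ hb
    simp [B, hb]
  · simp

/-- The mean of Forrelation at the Gaussian point. -/
theorem chain_mean (m n : ℕ) (δ : NNReal) (t : ℝ) :
    GE δ (forrI (Zp m n t)) = t * (δ : ℝ) ^ m * rt n ^ (m + 2) := by
  obtain ⟨r, h1, -, h3⟩ := mean_aux m n δ t (Fin.last m)
  rw [forrI, map_sum]
  simp only [h1, Bp_last, one_mul, h3, Fin.val_last]
  rw [sum_const, card_univ, Fintype.card_fun, Fintype.card_bool, Fintype.card_fin, nsmul_eq_mul]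
  push_cast
  rw [← rt_sq]
  ring

end Crest.Agent.R350
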