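import Crest.Agent.R350.Basic

set_option autoImplicit false

namespace Crest.Agent.R350

open Finset

section had

variable {R : Type*} [CommRing R] {n m : ℕ}

lemma had_comm (i j : Cube n) : (had i j : R) = had j i := by
  simp only [had, Bool.and_comm]

lemma had_mul_self (i j : Cube n) : (had i j : R) * had i j = 1 := by
  simp only [had, ← prod_mul_distrib, sg_mul_self, prod_const_one]

lemma abs_had (i j : Cube n) : |(had i j : ℝ)| = 1 := by
  simp only [had, abs_prod, abs_sg, prod_const_one]

lemma had_zero (j : Cube n) : (had j (fun _ => false) : R) = 1 := by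
  simp [had]

lemma had_orth (i i' : Cube n) :
    ∑ j, (had i j : R) * had i' j = if i = i' then 2 ^ n else 0 := by
  simp only [had, ← prod_mul_distrib]
  rw [← Fintype.prod_sum fun a b => (sg (i a && b) : R) * sg (i' a && b)]
  split_ifs with h
  · subst h
    simp [sg_mul_self]
  · obtain ⟨a, ha⟩ := Function.ne_iff.1 h
    refine prod_eq_zero (mem_univ a) ?_
    revert ha
    cases i a <;> cases i' a <;> simp

lemma map_had {S F : Type*} [CommRing S] [FunLike F R S] [RingHomClass F R S] (f : F)
    (i j : Cube n) : f (had i j) = had i j := by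
  simp only [had, map_prod, map_sg]

lemma map_vec {S F : Type*} [CommRing S] [FunLike F R S] [RingHomClass F R S] (f : F)
    (z : Fin (m + 1) × Cube n → R) (κ : Fin (m + 1)) (j : Cube n) :
    f (vec z κ j) = vec (fun v => f (z v)) κ j := by
  induction κ using Fin.induction generalizing j with
  | zero => simp
  | succ κ ih => simp only [vec_succ, map_mul, map_sum, map_had, ih]

lemma map_forrI {S F : Type*} [CommRing S] [FunLike F R S] [RingHomClass F R S] (f : F)
    (z : Fin (m + 1) × Cube n → R) : f (forrI z) = forrI (fun v => f (z v)) := by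
  simp only [forrI, map_sum, map_vec]

/-- Parseval for the unnormalised Hadamard matrix. -/
lemma sum_had_sq (y : Cube n → R) : ∑ j, (∑ i, had i j * y i) ^ 2 = 2 ^ n * ∑ i, y i ^ 2 := by
  have : ∀ j, (∑ i, had i j * y i) ^ 2 = ∑ i, ∑ i', y i * y i' * (had i j * had i' j) := fun j => by
    rw [sq, sum_mul_sum]
    exact sum_congr rfl fun i _ => sum_congr rfl fun i' _ => by ring
  simp only [this]
  rw [sum_comm, mul_sum]
  refine sum_congr rfl fun i _ => ?_
  rw [sum_comm]
  simp only [← mul_sum, had_orth, mul_ite, mul_zero, sum_ite_eq, mem_univ, if_true]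
  ring

lemma sum_vec_sq (x : Fin (m + 1) × Cube n → Bool) (κ : Fin (m + 1)) :
    ∑ j, vec (fun v => (sg (x v) : ℝ)) κ j ^ 2 = (2 ^ n) ^ (κ.val + 1) := by
  induction κ using Fin.induction with
  | zero => simp [sg_sq]
  | succ κ ih =>
    simp only [vec_succ, mul_pow, sg_sq, one_mul, sum_had_sq, ih, Fin.val_succ, Fin.val_castSucc]
    ring

theorem abs_forr_le_one (x : Fin (m + 1) × Cube n → Bool) : |forr x| ≤ 1 := by
  have hpos := pow_pos (rt_pos n) (m + 2)
  rw [forr, abs_div, abs_of_pos hpos, div_le_one hpos]
  refine abs_le_of_sq_le_sq ?_ hpos.le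
  have h := sq_sum_le_card_mul_sum_sq (s := univ)
    (f := vec (fun v => (sg (x v) : ℝ)) (Fin.last m))
  rw [sum_vec_sq] at h
  rw [← pow_mul, mul_comm, pow_mul, rt_sq]
  refine h.trans (le_of_eq ?_)
  simp [pow_succ]; ring

end had

end Crest.Agent.R350
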