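import Crest.Agent.R350.ZDefs
import Crest.Agent.R350.Gauss
import Crest.Agent.R350.Had

set_option autoImplicit false

namespace Crest.Agent.R350

open Finset

open MvPolynomial MeasureTheory

theorem measurableSet_good (m n : ℕ) : MeasurableSet {ω | Good m n ω} := by
  have : {ω | Good m n ω} = ⋂ κ : Fin m, ⋂ i : Cube n,
      ({ω : Sig m n → ℝ | |ω (κ, i)| ≤ 1 / 2} ∩ {ω | |eval ω (Vp m n κ i)| ≤ 1 / 2}) := by
    ext ω; simp [Good]
  rw [this]
  refine MeasurableSet.iInter fun κ => MeasurableSet.iInter fun i => MeasurableSet.inter ?_ ?_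
  · exact measurableSet_le (measurable_pi_apply (κ, i)).abs measurable_const
  · exact measurableSet_le (measurable_eval _).abs measurable_const

theorem abs_Zp_le (m n : ℕ) (hm : 1 ≤ m) (t : ℝ) (ht : |t| ≤ 1) (ω : Sig m n → ℝ)
    (hω : Good m n ω) (v : Fin (m + 1) × Cube n) : |eval ω (Zp m n t v)| ≤ 1 / 2 := by
  obtain ⟨κ, j⟩ := v
  have hB : ∀ κ : Fin (m + 1), |eval ω (Bp m n κ j)| ≤ 1 := by
    intro κ
    refine Fin.lastCases ?_ (fun κ => ?_) κ
    · simp
    · rw [Bp_castSucc, eval_X]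
      exact (hω κ j).1.trans (by norm_num)
  unfold Zp
  rw [map_mul, abs_mul]
  refine Fin.cases ?_ (fun κ => ?_) κ
  · have h0 : (0 : Fin (m + 1)) = Fin.castSucc (⟨0, hm⟩ : Fin m) := by
      ext; simp
    have h1 : |eval ω (Bp m n 0 j)| ≤ 1 / 2 := by
      rw [h0, Bp_castSucc, eval_X]
      exact (hω _ j).1
    simp only [Ap_zero, eval_C]
    calc |t| * |eval ω (Bp m n 0 j)| ≤ 1 * (1 / 2) :=
          mul_le_mul ht h1 (abs_nonneg _) zero_le_one
      _ = 1 / 2 := one_mul _
  · simp only [Ap_succ]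
    calc |eval ω (Vp m n κ j)| * |eval ω (Bp m n κ.succ j)| ≤ (1 / 2) * 1 :=
          mul_le_mul (hω κ j).2 (hB _) (abs_nonneg _) (by norm_num)
      _ = 1 / 2 := mul_one _

lemma one_le_prod_max {ι : Type} [Fintype ι] (f : ι → ℝ) : 1 ≤ ∏ a, max 1 (f a) :=
  Finset.one_le_prod (fun _ _ => le_max_left _ _)

lemma one_le_Pm (m n : ℕ) (t : ℝ) (ω : Sig m n → ℝ) : 1 ≤ Pm m n t ω :=
  one_le_prod_max _

lemma max_one_mul_le (a b : ℝ) : max 1 |a * b| ≤ max 1 |a| * max 1 |b| := by
  refine max_le ?_ ?_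
  · exact one_le_mul_of_one_le_of_one_le (le_max_left _ _) (le_max_left _ _)
  · rw [abs_mul]
    exact mul_le_mul (le_max_right _ _) (le_max_right _ _) (abs_nonneg _)
      (zero_le_one.trans (le_max_left _ _))

lemma Pm_le (m n : ℕ) (t : ℝ) (ht : |t| ≤ 1) (ω : Sig m n → ℝ) :
    Pm m n t ω ≤ (∏ a : Sig m n, max 1 (4 * |ω a|)) *
      ∏ a : Sig m n, max 1 (4 * |eval ω (Vp m n a.1 a.2)|) := by
  have h4 : ∀ x : ℝ, max 1 |x| ≤ max 1 (4 * |x|) := fun x =>
    max_le_max le_rfl (by linarith [abs_nonneg x])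
  have hA : ∏ v : Fin (m + 1) × Cube n, max 1 |eval ω (Ap m n t v.1 v.2)| ≤
      ∏ a : Sig m n, max 1 (4 * |eval ω (Vp m n a.1 a.2)|) := by
    rw [Fintype.prod_prod_type, Fintype.prod_prod_type, Fin.prod_univ_succ]
    simp only [Ap_zero, eval_C, Ap_succ, max_eq_left ht, prod_const_one, one_mul]
    exact prod_le_prod (fun _ _ => prod_nonneg fun _ _ => zero_le_one.trans (le_max_left _ _))
      fun _ _ => prod_le_prod (fun _ _ => zero_le_one.trans (le_max_left _ _)) fun _ _ => h4 _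
  have hB : ∏ v : Fin (m + 1) × Cube n, max 1 |eval ω (Bp m n v.1 v.2)| ≤
      ∏ a : Sig m n, max 1 (4 * |ω a|) := by
    rw [Fintype.prod_prod_type, Fintype.prod_prod_type, Fin.prod_univ_castSucc]
    simp only [Bp_last, map_one, abs_one, max_self, prod_const_one, mul_one, Bp_castSucc, eval_X]
    exact prod_le_prod (fun _ _ => prod_nonneg fun _ _ => zero_le_one.trans (le_max_left _ _))
      fun _ _ => prod_le_prod (fun _ _ => zero_le_one.trans (le_max_left _ _)) fun _ _ => h4 _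
  calc Pm m n t ω ≤ ∏ v : Fin (m + 1) × Cube n,
        (max 1 |eval ω (Ap m n t v.1 v.2)| * max 1 |eval ω (Bp m n v.1 v.2)|) := by
        unfold Pm
        refine prod_le_prod (fun _ _ => zero_le_one.trans (le_max_left _ _)) fun v _ => ?_
        unfold Zp
        rw [map_mul]
        exact max_one_mul_le _ _
    _ = (∏ v : Fin (m + 1) × Cube n, max 1 |eval ω (Ap m n t v.1 v.2)|) *
        ∏ v : Fin (m + 1) × Cube n, max 1 |eval ω (Bp m n v.1 v.2)| := prod_mul_distrib
    _ ≤ (∏ a : Sig m n, max 1 (4 * |eval ω (Vp m n a.1 a.2)|)) *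
        ∏ a : Sig m n, max 1 (4 * |ω a|) :=
        mul_le_mul hA hB (zero_le_one.trans (one_le_prod_max _))
          (zero_le_one.trans (one_le_prod_max _))
    _ = _ := mul_comm _ _

lemma two_le_prod_max {ι : Type} [Fintype ι] [DecidableEq ι] (f : ι → ℝ) (a : ι) (ha : 2 ≤ f a) :
    2 ≤ ∏ a, max 1 (f a) := by
  rw [← mul_prod_erase univ _ (mem_univ a)]
  have h1 : 1 ≤ ∏ b ∈ univ.erase a, max 1 (f b) :=
    Finset.one_le_prod (fun _ _ => le_max_left _ _)
  have h2 : 2 ≤ max 1 (f a) := ha.trans (le_max_right _ _)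
  nlinarith

lemma sq_prod_max_le {ι : Type} [Fintype ι] (p : ℕ) (hp : 1 ≤ p) (y : ι → ℝ) :
    (∏ a, max 1 (4 * |y a|)) ^ 2 ≤ ∏ a, (1 + 16 ^ p * y a ^ (2 * p)) := by
  rw [← prod_pow]
  refine prod_le_prod (fun _ _ => by positivity) fun a _ => ?_
  have e : (16 : ℝ) ^ p * y a ^ (2 * p) = ((4 * |y a|) ^ 2) ^ p := by
    rw [pow_mul, ← mul_pow, mul_pow 4, sq_abs]; norm_num
  rw [e]
  have h0 : 0 ≤ ((4 * |y a|) ^ 2) ^ p := by positivity
  rcases le_total (4 * |y a|) 1 with h | h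
  · rw [max_eq_left h]; linarith
  · rw [max_eq_right h]
    have h1 : 1 ≤ (4 * |y a|) ^ 2 := one_le_pow₀ h
    have h2 : (4 * |y a|) ^ 2 ≤ ((4 * |y a|) ^ 2) ^ p := le_self_pow₀ h1 (by omega)
    linarith

/-- The orthogonal matrix that maps the `U` to the `V`. -/
noncomputable def rotO (m n : ℕ) (a c : Sig m n) : ℝ :=
  if a.1 = c.1 then had c.2 a.2 / rt n else 0

lemma rotO_orth (m n : ℕ) (a b : Sig m n) :
    ∑ c, rotO m n a c * rotO m n b c = if a = b then 1 else 0 := by
  obtain ⟨κ, j⟩ := a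
  obtain ⟨κ', j'⟩ := b
  rw [Fintype.sum_prod_type]
  simp only [rotO]
  rw [Finset.sum_eq_single κ]
  · by_cases h : κ' = κ
    · subst h
      simp only [if_true, Prod.mk.injEq, true_and]
      have e : ∀ i : Cube n, (had i j : ℝ) / rt n * (had i j' / rt n) =
          had j i * had j' i / 2 ^ n := by
        intro i
        rw [had_comm i j, had_comm i j', div_mul_div_comm, ← sq, rt_sq]
      simp only [e]
      rw [← sum_div, had_orth]
      split_ifs
      · exact div_self (by positivity)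
      · exact zero_div _
    · have h' : ¬κ = κ' := fun e => h e.symm
      simp [h, h']
  · intro κ'' _ h
    have h' : ¬κ = κ'' := fun e => h e.symm
    simp [h']
  · simp

lemma rotO_X (m n : ℕ) (a : Sig m n) :
    ∑ c, rotO m n a c • (X c : MvPolynomial (Sig m n) ℝ) = Vp m n a.1 a.2 := by
  rw [Fintype.sum_prod_type, Finset.sum_eq_single a.1]
  · simp [rotO, Vp]
  · intro κ _ h
    have h' : ¬a.1 = κ := fun e => h e.symm
    simp [rotO, h']
  · simp

/-- The dominating polynomial in the `U`. -/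
noncomputable def FU (m n p : ℕ) : MvPolynomial (Sig m n) ℝ :=
  ∏ a : Sig m n, (1 + ((16 : ℝ) ^ p) • (X a : MvPolynomial (Sig m n) ℝ) ^ (2 * p))

/-- The dominating polynomial in the `V`. -/
noncomputable def FV (m n p : ℕ) : MvPolynomial (Sig m n) ℝ :=
  aeval (fun a => ∑ c, rotO m n a c • (X c : MvPolynomial (Sig m n) ℝ)) (FU m n p)

lemma eval_FU (m n p : ℕ) (ω : Sig m n → ℝ) :
    eval ω (FU m n p) = ∏ a, (1 + 16 ^ p * ω a ^ (2 * p)) := by
  simp [FU, map_prod]

lemma eval_FV (m n p : ℕ) (ω : Sig m n → ℝ) :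
    eval ω (FV m n p) = ∏ a : Sig m n, (1 + 16 ^ p * eval ω (Vp m n a.1 a.2) ^ (2 * p)) := by
  simp only [FV, FU, rotO_X, map_prod, map_add, map_one, map_smul, map_pow, aeval_X, smul_eval]

lemma bad_le_poly (m n p : ℕ) (hp : 1 ≤ p) (t : ℝ) (ht : |t| ≤ 1) (ω : Sig m n → ℝ) :
    ind (¬Good m n ω) * Pm m n t ω ≤ eval ω (FU m n p + FV m n p - 2) := by
  have e : eval ω (FU m n p + FV m n p - 2) = eval ω (FU m n p) + eval ω (FV m n p) - 2 := by
    rw [map_sub, map_add, map_ofNat]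
  rw [e, eval_FU, eval_FV]
  have hU := sq_prod_max_le p hp ω
  have hV := sq_prod_max_le p hp fun a : Sig m n => eval ω (Vp m n a.1 a.2)
  have hP := Pm_le m n t ht ω
  have h1U := one_le_prod_max fun a : Sig m n => 4 * |ω a|
  have h1V := one_le_prod_max fun a : Sig m n => 4 * |eval ω (Vp m n a.1 a.2)|
  set PU := ∏ a : Sig m n, max 1 (4 * |ω a|) with hPU
  set PV := ∏ a : Sig m n, max 1 (4 * |eval ω (Vp m n a.1 a.2)|) with hPV
  by_cases hg : Good m n ω
  · rw [ind_of_not (not_not.2 hg), zero_mul]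
    nlinarith
  · rw [ind_of hg, one_mul]
    have h2 : 2 ≤ PU * PV := by
      unfold Good at hg
      simp only [not_forall, not_and_or, not_le] at hg
      obtain ⟨κ, i, h | h⟩ := hg
      · have : 2 ≤ PU := two_le_prod_max (fun a : Sig m n => 4 * |ω a|) (κ, i) (by
          show 2 ≤ 4 * |ω (κ, i)|
          linarith)
        nlinarith
      · have : 2 ≤ PV := two_le_prod_max (fun a : Sig m n => 4 * |eval ω (Vp m n a.1 a.2)|)
          (κ, i) (by
            show 2 ≤ 4 * |eval ω (Vp m n κ i)|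
            linarith)
        nlinarith
    nlinarith [sq_nonneg (PU - PV)]

lemma measurable_ind {Ω : Type*} [MeasurableSpace Ω] {P : Ω → Prop}
    (hP : MeasurableSet {ω | P ω}) : Measurable fun ω => ind (P ω) := by
  classical
  simp only [ind_eq_ite]
  exact Measurable.ite hP measurable_const measurable_const

lemma measurable_Pm (m n : ℕ) (t : ℝ) : Measurable (Pm m n t) := by
  unfold Pm
  exact Finset.measurable_prod _ fun v _ => measurable_const.max (measurable_eval _).abs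

lemma bad_nonneg (m n : ℕ) (t : ℝ) (ω : Sig m n → ℝ) : 0 ≤ ind (¬Good m n ω) * Pm m n t ω :=
  mul_nonneg (ind_nonneg _) (zero_le_one.trans (one_le_Pm m n t ω))

theorem integrable_bad (m n : ℕ) (δ : NNReal) (t : ℝ) (ht : |t| ≤ 1) :
    Integrable (fun ω => ind (¬Good m n ω) * Pm m n t ω) (gam (Sig m n) δ) := by
  refine (integrable_eval δ (FU m n 1 + FV m n 1 - 2)).mono' ?_ (ae_of_all _ fun ω => ?_)
  · exact ((measurable_ind (measurableSet_good m n).compl).mul
      (measurable_Pm m n t)).aestronglyMeasurable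
  · rw [Real.norm_eq_abs, abs_of_nonneg (bad_nonneg m n t ω)]
    exact bad_le_poly m n 1 le_rfl t ht ω

/-- The contribution of the event that some Gaussian coordinate is large. -/
theorem integral_bad_le (m n p : ℕ) (hp : 1 ≤ p) (δ : NNReal) (t : ℝ) (ht : |t| ≤ 1) (η : ℝ)
    (hη : (m : ℝ) * 2 ^ n * (16 ^ p * ((2 * p).factorial * (δ : ℝ) ^ p)) ≤ η) (hη₁ : η ≤ 1) :
    ∫ ω, ind (¬Good m n ω) * Pm m n t ω ∂(gam (Sig m n) δ) ≤ 4 * η := by
  have h0 : 0 ≤ η := le_trans (by positivity) hη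
  have hU : GE δ (FU m n p) ≤ 1 + 2 * η := by
    have h1 := GE_prod_moment (σ := Sig m n) δ p (16 ^ p) (by positivity)
    have hc : (Fintype.card (Sig m n) : ℝ) = m * 2 ^ n := by
      simp
    rw [hc] at h1
    have h2 : |Real.exp η - 1| ≤ 2 * |η| :=
      Real.abs_exp_sub_one_le (by rw [abs_of_nonneg h0]; exact hη₁)
    rw [abs_of_nonneg h0] at h2
    have h3 := (abs_le.1 h2).2
    have h4 := Real.exp_le_exp.2 hη
    unfold FU
    linarith
  have hV : GE δ (FV m n p) = GE δ (FU m n p) := GE_rot δ _ (rotO_orth m n) _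
  have h2 : GE δ (2 : MvPolynomial (Sig m n) ℝ) = 2 := by
    rw [← one_add_one_eq_two, map_add, GE_one, one_add_one_eq_two]
  calc ∫ ω, ind (¬Good m n ω) * Pm m n t ω ∂(gam (Sig m n) δ)
      ≤ GE δ (FU m n p + FV m n p - 2) :=
        integral_mono (integrable_bad m n δ t ht) (integrable_eval δ _)
          fun ω => bad_le_poly m n p hp t ht ω
    _ = GE δ (FU m n p) + GE δ (FV m n p) - 2 := by rw [map_sub, map_add, h2]
    _ ≤ 4 * η := by linarith

/-- A polynomial bounded by `M` on the good event and by `c · Pm` everywhere. -/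
theorem abs_GE_le (m n : ℕ) (δ : NNReal) (t : ℝ) (ht : |t| ≤ 1) (f : MvPolynomial (Sig m n) ℝ)
    (M c : ℝ) (hM : 0 ≤ M) (h₁ : ∀ ω, Good m n ω → |eval ω f| ≤ M)
    (h₂ : ∀ ω, |eval ω f| ≤ c * Pm m n t ω) :
    |GE δ f| ≤ M + c * ∫ ω, ind (¬Good m n ω) * Pm m n t ω ∂(gam (Sig m n) δ) := by
  have hi := integrable_bad m n δ t ht
  calc |GE δ f| ≤ ∫ ω, |eval ω f| ∂(gam (Sig m n) δ) := by
        rw [GE_apply]; exact abs_integral_le_integral_abs
    _ ≤ ∫ ω, (M + c * (ind (¬Good m n ω) * Pm m n t ω)) ∂(gam (Sig m n) δ) := by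
        refine integral_mono (integrable_eval δ f).abs
          ((integrable_const M).add (hi.const_mul c)) fun ω => ?_
        by_cases hg : Good m n ω
        · simp only [ind_of_not (not_not.2 hg), zero_mul, mul_zero, add_zero]
          exact h₁ ω hg
        · simp only [ind_of hg, one_mul]
          linarith [h₂ ω]
    _ = _ := by
        rw [integral_add (integrable_const M) (hi.const_mul c), integral_const_mul]
        simp

end Crest.Agent.R350
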