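import Crest.Agent.R350.Growth
import Crest.Agent.R350.Chain
import Crest.Agent.R350.Trunc

set_option autoImplicit false

namespace Crest.Agent.R350

open Finset

open MvPolynomial MeasureTheory

/-- The truncated Gaussian point. -/
noncomputable def Zt (m n : ℕ) (t : ℝ) (ω : Sig m n → ℝ) (v : Fin (m + 1) × Cube n) : ℝ :=
  ind (Good m n ω) * eval ω (Zp m n t v)

lemma Zt_good {m n : ℕ} (t : ℝ) {ω : Sig m n → ℝ} (h : Good m n ω) :
    Zt m n t ω = fun v => eval ω (Zp m n t v) := by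
  funext v; simp [Zt, ind_of h]

lemma Zt_bad {m n : ℕ} (t : ℝ) {ω : Sig m n → ℝ} (h : ¬Good m n ω) :
    Zt m n t ω = fun _ => 0 := by
  funext v; simp [Zt, ind_of_not h]

lemma abs_Zt_le {m n : ℕ} (hm : 1 ≤ m) {t : ℝ} (ht : |t| ≤ 1) (ω : Sig m n → ℝ)
    (v : Fin (m + 1) × Cube n) : |Zt m n t ω v| ≤ 1 := by
  by_cases h : Good m n ω
  · rw [Zt_good t h]
    exact (abs_Zp_le m n hm t ht ω h v).trans (by norm_num)
  · rw [Zt_bad t h]; simp

lemma measurable_rnd_Zt (m n : ℕ) (t : ℝ) (x : Fin (m + 1) × Cube n → Bool) :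
    Measurable fun ω => rnd (Zt m n t ω) x := by
  unfold rnd Zt
  refine Finset.measurable_prod _ fun v _ => ?_
  exact (measurable_const.add (measurable_const.mul
    ((measurable_ind (measurableSet_good m n)).mul (measurable_eval _)))).div_const _

lemma rnd_le_one {V : Type} [Fintype V] [DecidableEq V] (z : V → ℝ) (hz : ∀ v, |z v| ≤ 1)
    (x : V → Bool) : rnd z x ≤ 1 := by
  rw [← sum_rnd z]
  exact single_le_sum (f := fun x => rnd z x) (fun y _ => rnd_nonneg z hz y) (mem_univ x)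

lemma integrable_rnd_Zt {m n : ℕ} (hm : 1 ≤ m) (δ : NNReal) {t : ℝ} (ht : |t| ≤ 1)
    (x : Fin (m + 1) × Cube n → Bool) :
    Integrable (fun ω => rnd (Zt m n t ω) x) (gam (Sig m n) δ) := by
  refine (integrable_const (1 : ℝ)).mono' (measurable_rnd_Zt m n t x).aestronglyMeasurable
    (ae_of_all _ fun ω => ?_)
  rw [Real.norm_eq_abs, abs_of_nonneg (rnd_nonneg _ (abs_Zt_le hm ht ω) x)]
  exact rnd_le_one _ (abs_Zt_le hm ht ω) x

/-- The rounded law of the truncated Gaussian point. -/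
noncomputable def Dlaw (m n : ℕ) (δ : NNReal) (t : ℝ) (x : Fin (m + 1) × Cube n → Bool) : ℝ :=
  ∫ ω, rnd (Zt m n t ω) x ∂(gam (Sig m n) δ)

lemma isW_Dlaw {m : ℕ} (hm : 1 ≤ m) (n : ℕ) (δ : NNReal) {t : ℝ} (ht : |t| ≤ 1) :
    IsW (Dlaw m n δ t) := by
  refine ⟨fun x => integral_nonneg fun ω => rnd_nonneg _ (abs_Zt_le hm ht ω) x, ?_⟩
  unfold Dlaw
  rw [← integral_finsetSum _ fun x _ => integrable_rnd_Zt hm δ ht x]
  simp only [sum_rnd]
  simp

lemma integrable_dext_Zt {m n : ℕ} (hm : 1 ≤ m) (δ : NNReal) {t : ℝ} (ht : |t| ≤ 1)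
    (g : (Fin (m + 1) × Cube n → Bool) → ℝ) :
    Integrable (fun ω => dext g ∅ (Zt m n t ω)) (gam (Sig m n) δ) := by
  simp only [← Ex_rnd, Ex]
  exact integrable_finsetSum _ fun x _ => (integrable_rnd_Zt hm δ ht x).mul_const _

lemma Ex_Dlaw {m n : ℕ} (hm : 1 ≤ m) (δ : NNReal) {t : ℝ} (ht : |t| ≤ 1)
    (g : (Fin (m + 1) × Cube n → Bool) → ℝ) :
    Ex (Dlaw m n δ t) g = ∫ ω, dext g ∅ (Zt m n t ω) ∂(gam (Sig m n) δ) := by
  simp only [← Ex_rnd, Ex, Dlaw]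
  rw [integral_finsetSum _ fun x _ => (integrable_rnd_Zt hm δ ht x).mul_const _]
  exact sum_congr rfl fun x _ => (integral_mul_const _ _).symm

/-- The truncation error. -/
noncomputable def tau (m n : ℕ) (δ : NNReal) (t : ℝ) : ℝ :=
  ∫ ω, ind (¬Good m n ω) * Pm m n t ω ∂(gam (Sig m n) δ)

lemma tau_nonneg (m n : ℕ) (δ : NNReal) (t : ℝ) : 0 ≤ tau m n δ t :=
  integral_nonneg fun ω => bad_nonneg m n t ω

lemma abs_Ex_sub_le {m n : ℕ} (hm : 1 ≤ m) (δ : NNReal) {t : ℝ} (ht : |t| ≤ 1)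
    (g : (Fin (m + 1) × Cube n → Bool) → ℝ) (hg : ∀ x, |g x| ≤ 1) :
    |Ex (Dlaw m n δ t) g - GE δ (dext g ∅ (Zp m n t))| ≤ 2 * tau m n δ t := by
  rw [Ex_Dlaw hm δ ht, GE_apply,
    ← integral_sub (integrable_dext_Zt hm δ ht g) (integrable_eval δ _), tau,
    ← integral_const_mul]
  refine abs_integral_le_integral_abs.trans (integral_mono
    ((integrable_dext_Zt hm δ ht g).sub (integrable_eval δ _)).abs
    ((integrable_bad m n δ t ht).const_mul 2) fun ω => ?_)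
  simp only [eval_dext]
  by_cases h : Good m n ω
  · rw [Zt_good t h, sub_self, abs_zero]
    exact mul_nonneg zero_le_two (bad_nonneg m n t ω)
  · rw [Zt_bad t h, ind_of h, one_mul]
    have h1 := abs_dext_le g hg ∅ (fun _ : Fin (m + 1) × Cube n => (0 : ℝ))
    simp only [abs_zero, zero_le_one, max_eq_left, prod_const_one] at h1
    have h2 : |dext g ∅ fun v => eval ω (Zp m n t v)| ≤ Pm m n t ω := abs_dext_le g hg ∅ _
    have h3 := one_le_Pm m n t ω
    have h4 := abs_sub (dext g ∅ fun _ : Fin (m + 1) × Cube n => (0 : ℝ))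
      (dext g ∅ fun v => eval ω (Zp m n t v))
    linarith

lemma GE_forr (m n : ℕ) (δ : NNReal) (t : ℝ) :
    GE δ (dext (fun x => forr x) ∅ (Zp m n t)) = t * (δ : ℝ) ^ m := by
  have h := chain_mean m n δ t
  rw [GE_apply] at h ⊢
  simp only [eval_dext, dext_forr, ← map_forrI (eval _) (Zp m n t)]
  rw [integral_div, h, mul_div_assoc, div_self (pow_pos (rt_pos n) _).ne', mul_one]

lemma abs_chainSign {m n : ℕ} (i : Fin (m + 1) → Cube n) : |chainSign i| = 1 := by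
  unfold chainSign
  rw [abs_prod]
  exact prod_eq_one fun κ _ => abs_had _ _

lemma abs_chain_le {m n : ℕ} (δ : NNReal) {t : ℝ} (ht : |t| ≤ 1)
    (g : (Fin (m + 1) × Cube n → Bool) → ℝ) (hg : ∀ x, |g x| ≤ 1) (M : ℝ) (hM : 0 ≤ M)
    (hgr : ∀ ω : Sig m n → ℝ, Good m n ω → |∑ i : Fin (m + 1) → Cube n,
      chainSign i * dext g (graph i) (fun v => eval ω (Zp m n t v))| ≤ M) :
    |GE δ (∑ i : Fin (m + 1) → Cube n, chainSign i • dext g (graph i) (Zp m n t))| ≤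
      M + (2 ^ n) ^ (m + 1) * tau m n δ t := by
  have e : ∀ ω : Sig m n → ℝ,
      eval ω (∑ i : Fin (m + 1) → Cube n, chainSign i • dext g (graph i) (Zp m n t)) =
        ∑ i : Fin (m + 1) → Cube n,
          chainSign i * dext g (graph i) (fun v => eval ω (Zp m n t v)) := by
    intro ω
    simp only [map_sum, smul_eval, eval_dext]
  refine abs_GE_le m n δ t ht _ M _ hM (fun ω hω => ?_) fun ω => ?_
  · rw [e]; exact hgr ω hω
  · rw [e]
    refine (abs_sum_le_sum_abs _ _).trans ?_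
    have h1 : ∀ i ∈ (univ : Finset (Fin (m + 1) → Cube n)),
        |chainSign i * dext g (graph i) (fun v => eval ω (Zp m n t v))| ≤ Pm m n t ω := by
      intro i _
      rw [abs_mul, abs_chainSign, one_mul]
      exact abs_dext_le g hg _ _
    refine (sum_le_card_nsmul _ _ _ h1).trans (le_of_eq ?_)
    simp

lemma eta_bound (m a u : ℕ) (hu : 16 * m * 16 ^ (a * (m + 2) + m + 1) *
      (2 * (a * (m + 2) + m + 1)).factorial ≤ 2 ^ u) :
    (m : ℝ) * 2 ^ (a * u) * (16 ^ (a * (m + 2) + m + 1) *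
        ((2 * (a * (m + 2) + m + 1)).factorial * (1 / 2 ^ u : ℝ) ^ (a * (m + 2) + m + 1))) ≤
      1 / 16 * (1 / (2 ^ (a * u)) ^ (m + 1)) * (1 / 2 ^ u) ^ m := by
  have hu' : (16 : ℝ) * m * 16 ^ (a * (m + 2) + m + 1) *
      (2 * (a * (m + 2) + m + 1)).factorial ≤ 2 ^ u := by exact_mod_cast hu
  generalize (2 * (a * (m + 2) + m + 1)).factorial = F at hu' ⊢
  generalize (16 : ℝ) ^ (a * (m + 2) + m + 1) = G at hu' ⊢
  have e1 : (2 : ℝ) ^ (a * u) = (2 ^ u) ^ a := by rw [← pow_mul, mul_comm]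
  rw [e1]
  have hy : (0 : ℝ) < 2 ^ u := by positivity
  generalize (2 : ℝ) ^ u = y at hu' hy ⊢
  have e2 : (1 / y) ^ (a * (m + 2) + m + 1) =
      1 / (y ^ a * y) * ((1 / (y ^ a) ^ (m + 1)) * (1 / y) ^ m) := by
    have : a * (m + 2) + m + 1 = a + 1 + a * (m + 1) + m := by ring
    rw [this, pow_add, pow_add, pow_add, pow_mul]
    simp only [one_div, inv_pow, mul_inv, pow_one]
    ring
  rw [e2]
  have hQ : 0 ≤ (1 / (y ^ a) ^ (m + 1)) * (1 / y) ^ m := by positivity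
  rw [mul_assoc (1 / 16)]
  generalize (1 / (y ^ a) ^ (m + 1)) * (1 / y) ^ m = Q at hQ ⊢
  have e3 : (m : ℝ) * y ^ a * (G * (F * (1 / (y ^ a * y) * Q))) = (m * G * F / y) * Q := by
    field_simp
  rw [e3]
  refine mul_le_mul_of_nonneg_right ?_ hQ
  rw [div_le_iff₀ hy]
  linarith

/-- The hard pair of laws for `(m+1)`-fold Forrelation. -/
theorem core (m a : ℕ) (hm : 1 ≤ m) : ∃ u₀ : ℕ, ∀ u : ℕ, u₀ ≤ u →
    ∃ D : Bool → (Fin (m + 1) × Cube (a * u) → Bool) → ℝ, (∀ b, IsW (D b)) ∧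
      (∀ b, (1 / 2 : ℝ) * (1 / 2 ^ u) ^ m ≤ Ex (D b) fun x => sg b * forr x) ∧
      ∀ d : ℕ, 1 ≤ d → ∀ g : (Fin (m + 1) × Cube (a * u) → Bool) → ℝ, DT d g → (∀ x, |g x| ≤ 1) →
        |Ex (D false) g - Ex (D true) g| ≤ 10 * 2 ^ u * Real.sqrt d ^ (m + 1) / rt (a * u) ^ m := by
  obtain ⟨u₁, hu₁⟩ := growth (m + 1) a
  refine ⟨max u₁ (16 * m * 16 ^ (a * (m + 2) + m + 1) * (2 * (a * (m + 2) + m + 1)).factorial),
    fun u hu => ?_⟩
  have hgr := hu₁ u ((le_max_left _ _).trans hu) (Cube (a * u)) (by simp)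
  have hu₂ : 16 * m * 16 ^ (a * (m + 2) + m + 1) * (2 * (a * (m + 2) + m + 1)).factorial ≤ 2 ^ u :=
    ((le_max_right _ _).trans hu).trans (Nat.lt_two_pow_self).le
  have hη := eta_bound m a u hu₂
  set n := a * u with hn
  let δ : NNReal := 1 / 2 ^ u
  have hδ : (δ : ℝ) = 1 / 2 ^ u := by simp [δ]
  have hδ0 : (0 : ℝ) ≤ 1 / 2 ^ u := by positivity
  have hδ1 : (1 / 2 ^ u : ℝ) ≤ 1 := by
    rw [div_le_one (by positivity)]; exact one_le_pow₀ one_le_two
  have hc1 : (1 : ℝ) ≤ (2 ^ n) ^ (m + 1) := one_le_pow₀ (one_le_pow₀ one_le_two)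
  have hc0 : (0 : ℝ) < (2 ^ n) ^ (m + 1) := by positivity
  have hci : (1 : ℝ) / (2 ^ n) ^ (m + 1) ≤ 1 := by rw [div_le_one hc0]; exact hc1
  have hdm1 : (1 / 2 ^ u : ℝ) ^ m ≤ 1 := pow_le_one₀ hδ0 hδ1
  have hdm0 : (0 : ℝ) ≤ (1 / 2 ^ u : ℝ) ^ m := by positivity
  have hτ : ∀ t : ℝ, |t| ≤ 1 →
      tau m n δ t ≤ 1 / 4 * (1 / (2 ^ n) ^ (m + 1)) * (1 / 2 ^ u) ^ m := by
    intro t ht
    have h := integral_bad_le m n (a * (m + 2) + m + 1) (by omega) δ t ht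
      (1 / 16 * (1 / (2 ^ n) ^ (m + 1)) * (1 / 2 ^ u) ^ m) (by rw [hδ]; exact hη) (by
        have : (1 : ℝ) / (2 ^ n) ^ (m + 1) * (1 / 2 ^ u) ^ m ≤ 1 :=
          mul_le_one₀ hci hdm0 hdm1
        linarith)
    unfold tau
    linarith
  have hτ1 : ∀ t : ℝ, |t| ≤ 1 → tau m n δ t ≤ 1 / 4 * (1 / 2 ^ u) ^ m := by
    intro t ht
    refine (hτ t ht).trans ?_
    have : (1 : ℝ) / (2 ^ n) ^ (m + 1) * (1 / 2 ^ u) ^ m ≤ (1 / 2 ^ u) ^ m :=
      mul_le_of_le_one_left hdm0 hci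
    linarith
  have hτ2 : ∀ t : ℝ, |t| ≤ 1 → (2 ^ n) ^ (m + 1) * tau m n δ t ≤ 1 := by
    intro t ht
    refine (mul_le_mul_of_nonneg_left (hτ t ht) hc0.le).trans ?_
    have : ((2 : ℝ) ^ n) ^ (m + 1) * (1 / 4 * (1 / (2 ^ n) ^ (m + 1)) * (1 / 2 ^ u) ^ m) =
        1 / 4 * (1 / 2 ^ u) ^ m := by
      field_simp
    rw [this]
    linarith
  have hsg : ∀ b, |(sg b : ℝ)| ≤ 1 := fun b => (abs_sg b).le
  refine ⟨fun b => Dlaw m n δ (sg b), fun b => isW_Dlaw hm n δ (hsg b), fun b => ?_,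
    fun d hd g hDT hg => ?_⟩
  · have hp := isProb_Ex (isW_Dlaw hm n δ (hsg b))
    have h1 := abs_Ex_sub_le (n := n) hm δ (hsg b) (fun x => forr x) abs_forr_le_one
    rw [GE_forr, hδ] at h1
    have h2 := hτ1 _ (hsg b)
    rw [hp.const_mul]
    have h3 := abs_le.1 h1
    cases b
    · simp only [sg_false, one_mul] at h2 h3 ⊢
      linarith [h3.1]
    · simp only [sg_true, neg_mul, one_mul] at h2 h3 ⊢
      linarith [h3.2]
  · have hrt1 : 1 ≤ rt n := by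
      unfold rt
      exact Real.one_le_sqrt.2 (one_le_pow₀ one_le_two)
    have hr0 : 0 < rt n ^ m := pow_pos (rt_pos n) m
    have hrc : rt n ^ m ≤ (2 ^ n) ^ (m + 1) := by
      rw [← rt_sq, ← pow_mul]
      exact pow_le_pow_right₀ hrt1 (by omega)
    have hB1 : (1 : ℝ) ≤ 2 ^ u * Real.sqrt d ^ (m + 1) :=
      one_le_mul_of_one_le_of_one_le (one_le_pow₀ one_le_two)
        (one_le_pow₀ (Real.one_le_sqrt.2 (by exact_mod_cast hd)))
    set B : ℝ := 2 ^ u * Real.sqrt d ^ (m + 1) with hB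
    have hder : ∀ t ∈ Set.Icc (-1 : ℝ) 1, ‖((δ : ℝ) / rt n) ^ m *
        GE δ (∑ i : Fin (m + 1) → Cube n, chainSign i • dext g (graph i) (Zp m n t))‖ ≤
        3 * B / rt n ^ m := by
      intro t ht
      have ht' : |t| ≤ 1 := abs_le.2 ht
      have h1 := abs_chain_le δ ht' g hg (2 * B) (by linarith) fun ω hω => by
        have := hgr d hd g hDT hg _ (abs_Zp_le m n hm t ht' ω hω) chainSign
          fun i => (abs_chainSign i).le
        rw [hB, ← mul_assoc]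
        exact this
      have h2 := hτ2 t ht'
      rw [Real.norm_eq_abs, abs_mul, abs_of_nonneg (by have := rt_pos n; positivity), div_pow, hδ,
        div_mul_eq_mul_div]
      refine div_le_div_of_nonneg_right ?_ hr0.le
      calc _ ≤ 1 * (3 * B) := mul_le_mul hdm1 (by linarith) (abs_nonneg _) zero_le_one
        _ = 3 * B := one_mul _
    have hmv := Convex.norm_image_sub_le_of_norm_hasDerivWithin_le
      (fun t _ => (chain_deriv m n δ g t).hasDerivWithinAt) hder (convex_Icc (-1) 1)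
      (x := -1) (y := 1) (by norm_num) (by norm_num)
    have e2 : ‖(1 : ℝ) - -1‖ = 2 := by norm_num
    rw [e2, Real.norm_eq_abs] at hmv
    have h1 := abs_Ex_sub_le (n := n) hm δ (hsg false) g hg
    have h2 := abs_Ex_sub_le (n := n) hm δ (hsg true) g hg
    have hτ3 : ∀ t : ℝ, |t| ≤ 1 → tau m n δ t ≤ B / rt n ^ m := by
      intro t ht
      rw [le_div_iff₀ hr0]
      have h3 := hτ2 t ht
      have h4 := mul_le_mul_of_nonneg_left hrc (tau_nonneg m n δ t)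
      linarith
    have h3 := hτ3 _ (hsg false)
    have h4 := hτ3 _ (hsg true)
    simp only [sg_false, sg_true] at h1 h2 h3 h4 ⊢
    have e3 : 10 * 2 ^ u * Real.sqrt d ^ (m + 1) / rt n ^ m = 10 * (B / rt n ^ m) := by
      rw [hB]; ring
    have e4 : 3 * B / rt n ^ m = 3 * (B / rt n ^ m) := by ring
    rw [e3]
    rw [e4] at hmv
    have h5 := abs_le.1 h1
    have h6 := abs_le.1 h2
    have h7 := abs_le.1 hmv
    rw [abs_le]
    constructor <;> linarith [h5.1, h5.2, h6.1, h6.2, h7.1, h7.2]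

end Crest.Agent.R350
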