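import Mathlib

/-!
Definitions for row 350 (randomized versus quantum query complexity, power four).
-/

set_option autoImplicit false

namespace Crest.Agent.R350

open Finset

/-- The sign `(-1)^b` of a bit. -/
def sg {R : Type*} [Ring R] (b : Bool) : R := if b then -1 else 1

@[simp] lemma sg_true {R : Type*} [Ring R] : (sg true : R) = -1 := rfl
@[simp] lemma sg_false {R : Type*} [Ring R] : (sg false : R) = 1 := rfl

lemma sg_mul_self {R : Type*} [Ring R] (b : Bool) : (sg b : R) * sg b = 1 := by
  cases b <;> simp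

lemma sg_sq {R : Type*} [Ring R] (b : Bool) : (sg b : R) ^ 2 = 1 := by
  rw [sq, sg_mul_self]

lemma abs_sg {R : Type*} [Ring R] [LinearOrder R] [IsStrictOrderedRing R] (b : Bool) :
    |(sg b : R)| = 1 := by
  cases b <;> simp

lemma map_sg {R S F : Type*} [Ring R] [Ring S] [FunLike F R S] [RingHomClass F R S] (f : F)
    (b : Bool) : f (sg b) = sg b := by
  cases b <;> simp

@[simp] lemma intCast_sg {R : Type*} [Ring R] (b : Bool) : ((sg b : ℤ) : R) = sg b := by
  cases b <;> simp

/-- Real indicator of a proposition. -/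
noncomputable def ind (p : Prop) : ℝ := by
  classical exact if p then 1 else 0

lemma ind_of {p : Prop} (h : p) : ind p = 1 := by simp [ind, h]
lemma ind_of_not {p : Prop} (h : ¬p) : ind p = 0 := by simp [ind, h]
lemma ind_eq_ite (p : Prop) [Decidable p] : ind p = if p then 1 else 0 := by
  by_cases h : p <;> simp [ind, h]
lemma ind_nonneg (p : Prop) : 0 ≤ ind p := by
  by_cases h : p <;> simp [ind, h]
lemma ind_le_one (p : Prop) : ind p ≤ 1 := by
  by_cases h : p <;> simp [ind, h]
lemma ind_mono {p q : Prop} (h : p → q) : ind p ≤ ind q := by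
  by_cases hp : p
  · rw [ind_of hp, ind_of (h hp)]
  · rw [ind_of_not hp]; exact ind_nonneg q
lemma ind_not (p : Prop) : ind (¬p) = 1 - ind p := by
  by_cases h : p <;> simp [ind, h]
lemma ind_congr {p q : Prop} (h : p ↔ q) : ind p = ind q := by
  rw [propext h]

/-! ### Forrelation -/

/-- Bit strings of length `n`. -/
abbrev Cube (n : ℕ) : Type := Fin n → Bool

/-- The unnormalised Hadamard matrix. -/
def had {R : Type*} [CommRing R] {n : ℕ} (i j : Cube n) : R := ∏ a, sg (i a && j a)

/-- `vec z κ = D_κ H D_{κ-1} ⋯ H D_0 1`, with `D_κ` the diagonal matrix of block `κ` of `z` and `H`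
the unnormalised Hadamard matrix. -/
def vec {R : Type*} [CommRing R] {n m : ℕ} (z : Fin (m + 1) × Cube n → R) :
    Fin (m + 1) → Cube n → R :=
  Fin.induction (motive := fun _ => Cube n → R) (fun j => z (0, j))
    (fun κ prev j => z (κ.succ, j) * ∑ i, had i j * prev i)

@[simp] lemma vec_zero {R : Type*} [CommRing R] {n m : ℕ} (z : Fin (m + 1) × Cube n → R)
    (j : Cube n) : vec z 0 j = z (0, j) := rfl

@[simp] lemma vec_succ {R : Type*} [CommRing R] {n m : ℕ} (z : Fin (m + 1) × Cube n → R)
    (κ : Fin m) (j : Cube n) :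
    vec z κ.succ j = z (κ.succ, j) * ∑ i, had i j * vec z κ.castSucc i := by
  simp [vec]

/-- Unnormalised `(m+1)`-fold Forrelation. -/
def forrI {R : Type*} [CommRing R] {n m : ℕ} (z : Fin (m + 1) × Cube n → R) : R :=
  ∑ j, vec z (Fin.last m) j

/-- `√(2^n)`. -/
noncomputable def rt (n : ℕ) : ℝ := Real.sqrt (2 ^ n)

lemma rt_pos (n : ℕ) : 0 < rt n := Real.sqrt_pos.2 (by positivity)
lemma rt_sq (n : ℕ) : rt n ^ 2 = 2 ^ n := Real.sq_sqrt (by positivity)

/-- Normalised `(m+1)`-fold Forrelation of a bit string. -/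
noncomputable def forr {n m : ℕ} (x : Fin (m + 1) × Cube n → Bool) : ℝ :=
  forrI (fun v => (sg (x v) : ℝ)) / rt n ^ (m + 2)

/-! ### Decision trees, semantically -/

/-- `DT d f`: the function `f` is computed by a decision tree of depth at most `d`. -/
inductive DT {I α : Type} : ℕ → ((I → Bool) → α) → Prop
  | const (d : ℕ) (a : α) : DT d (fun _ => a)
  | query (d : ℕ) (i : I) (f g : (I → Bool) → α) :
      DT d f → DT d g → DT (d + 1) (fun x => if x i then g x else f x)

/-! ### Finite probability -/

/-- A probability vector. -/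
def IsW {Ω : Type} [Fintype Ω] (w : Ω → ℝ) : Prop := (∀ ω, 0 ≤ w ω) ∧ ∑ ω, w ω = 1

/-- Expectation under a weight vector. -/
def Ex {Ω : Type} [Fintype Ω] (w : Ω → ℝ) (g : Ω → ℝ) : ℝ := ∑ ω, w ω * g ω

/-- Product weights. -/
def piW {K Ω : Type} [Fintype K] (w : K → Ω → ℝ) : (K → Ω) → ℝ := fun ω => ∏ κ, w κ (ω κ)

/-- Product weights on blocks of bits. -/
def piD {K W : Type} [Fintype K] (w : K → (W → Bool) → ℝ) : (K × W → Bool) → ℝ :=
  fun x => ∏ κ, w κ (fun v => x (κ, v))

/-- A functional that is the expectation under a finitely supported probability law. -/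
def IsProb {A : Type} (p : (A → ℝ) → ℝ) : Prop :=
  ∃ (Ω : Type) (_ : Fintype Ω) (w : Ω → ℝ) (val : Ω → A),
    IsW w ∧ ∀ g, p g = ∑ ω, w ω * g (val ω)

/-! ### Multilinear extensions -/

/-- The partial derivative in the variables `S` of the multilinear extension of `g` (bits read as
signs), evaluated at the point `z` of an `ℝ`-algebra. `S = ∅` gives the extension itself. -/
noncomputable def dext {V R : Type} [Fintype V] [DecidableEq V] [CommRing R] [Algebra ℝ R]
    (g : (V → Bool) → ℝ) (S : Finset V) (z : V → R) : R :=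
  ∑ x : V → Bool, g x • ∏ v, (1 / 2 : ℝ) • (if v ∈ S then sg (x v) else 1 + sg (x v) * z v)

/-- The set of variables `(κ, i κ)`. -/
def graph {k : ℕ} {ι : Type} [DecidableEq ι] (i : Fin k → ι) : Finset (Fin k × ι) :=
  Finset.univ.image fun κ => (κ, i κ)

/-! ### Quantum query algorithms with a phase oracle and real amplitudes -/

/-- A phase query: basis state `e` is multiplied by the sign of the bit `φ e` (if any). -/
def phase {I E : Type} [DecidableEq E] (φ : E → Option I) (x : I → Bool) : Matrix E E ℝ :=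
  Matrix.diagonal fun e => (φ e).elim 1 fun i => sg (x i)

/-- `Impl q V`: the family of matrices `V x` is implemented with `q` phase queries to `x`. -/
inductive Impl {I E : Type} [Fintype E] [DecidableEq E] :
    ℕ → ((I → Bool) → Matrix E E ℝ) → Prop
  | const (U : Matrix E E ℝ) : U.transpose * U = 1 → Impl 0 (fun _ => U)
  | step (q : ℕ) (V : (I → Bool) → Matrix E E ℝ) (φ : E → Option I) (U : Matrix E E ℝ) :
      Impl q V → U.transpose * U = 1 → Impl (q + 1) (fun x => U * phase φ x * V x)

/-- `Samp q P`: a `q`-query quantum algorithm outputs on input `x` a sample in `A` whose law has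
the expectation functional `P x`. -/
def Samp {I A : Type} (q : ℕ) (P : (I → Bool) → (A → ℝ) → ℝ) : Prop :=
  ∃ (E : Type) (_ : Fintype E) (_ : DecidableEq E) (e₀ : E) (V : (I → Bool) → Matrix E E ℝ)
    (lab : E → A), Impl q V ∧ ∀ x g, P x g = ∑ e, V x e e₀ ^ 2 * g (lab e)

end Crest.Agent.R350
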