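import Crest.Agent.R350.Basic
import Crest.Prelude.Def_QueryComplexity

set_option autoImplicit false

namespace Crest.Agent.R350

open Finset

open Crest.MathPhysics.Query

/-- Decision trees over an arbitrary type of variables. -/
inductive Tr (I : Type) : Type
  | ans (b : Bool) : Tr I
  | rd (i : I) (t₀ t₁ : Tr I) : Tr I

namespace Tr

/-- The answer of a tree. -/
def eval {I : Type} (x : I → Bool) : Tr I → Bool
  | ans b => b
  | rd i t₀ t₁ => if x i then t₁.eval x else t₀.eval x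

/-- The depth of a tree. -/
def depth {I : Type} : Tr I → ℕ
  | ans _ => 0
  | rd _ t₀ t₁ => max t₀.depth t₁.depth + 1

/-- Renaming the variables of an official tree. -/
def ofD {I : Type} {n : ℕ} (e : Fin n → I) : DTree n → Tr I
  | .answer b => ans b
  | .read i t₀ t₁ => rd (e i) (ofD e t₀) (ofD e t₁)

lemma eval_ofD {I : Type} {n : ℕ} (e : Fin n → I) (x : I → Bool) (T : DTree n) :
    (ofD e T).eval x = T.eval fun i => x (e i) := by
  induction T with
  | answer b => rfl
  | read i t₀ t₁ ih₀ ih₁ => simp [ofD, eval, DTree.eval, ih₀, ih₁]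

lemma depth_ofD {I : Type} {n : ℕ} (e : Fin n → I) (T : DTree n) : (ofD e T).depth = T.depth := by
  induction T with
  | answer b => rfl
  | read i t₀ t₁ ih₀ ih₁ => simp [ofD, depth, DTree.depth, ih₀, ih₁]

variable {M J : Type} [DecidableEq M]

/-- The number of reads inside item `j`. -/
def cnt (j : M) (x : M × J → Bool) : Tr (M × J) → ℕ
  | ans _ => 0
  | rd i t₀ t₁ => (if i.1 = j then 1 else 0) + if x i then cnt j x t₁ else cnt j x t₀

/-- The first `s` reads inside item `j`. -/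
def qs (j : M) (x : M × J → Bool) : Tr (M × J) → ℕ → List J
  | ans _, _ => []
  | rd i t₀ t₁, 0 => if i.1 = j then [] else if x i then qs j x t₁ 0 else qs j x t₀ 0
  | rd i t₀ t₁, s + 1 =>
      if i.1 = j then i.2 :: if x i then qs j x t₁ s else qs j x t₀ s
      else if x i then qs j x t₁ (s + 1) else qs j x t₀ (s + 1)

lemma qs_ne {j : M} {i : M × J} (h : i.1 ≠ j) (x : M × J → Bool) (t₀ t₁ : Tr (M × J)) (s : ℕ) :
    qs j x (rd i t₀ t₁) s = if x i then qs j x t₁ s else qs j x t₀ s := by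
  cases s <;> simp [qs, h]

lemma sum_cnt_le [Fintype M] (x : M × J → Bool) (T : Tr (M × J)) :
    ∑ j, cnt j x T ≤ T.depth := by
  induction T with
  | ans b => simp [cnt]
  | rd i t₀ t₁ ih₀ ih₁ =>
    simp only [cnt, sum_add_distrib, depth]
    have h1 : ∑ j : M, (if i.1 = j then 1 else 0) = 1 := by simp
    rw [h1]
    by_cases h : x i = true
    · simp only [h, if_true]; omega
    · simp only [h]; simp only [Bool.false_eq_true, if_false]; omega

lemma length_qs_le (j : M) (x : M × J → Bool) (T : Tr (M × J)) :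
    ∀ s, (qs j x T s).length ≤ s := by
  induction T with
  | ans b => intro s; simp [qs]
  | rd i t₀ t₁ ih₀ ih₁ =>
    intro s
    by_cases h : i.1 = j
    · cases s with
      | zero => simp [qs, h]
      | succ s =>
        simp only [qs, h, if_true, List.length_cons]
        split_ifs
        · exact Nat.succ_le_succ (ih₁ s)
        · exact Nat.succ_le_succ (ih₀ s)
    · rw [qs_ne h]
      split_ifs
      · exact ih₁ s
      · exact ih₀ s

lemma agree (j : M) (B : J → Prop) (x x' : M × J → Bool)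
    (hx : ∀ i, ¬(i.1 = j ∧ B i.2) → x i = x' i) (T : Tr (M × J)) :
    ∀ s, (∀ v ∈ qs j x T s, ¬B v) →
      qs j x T s = qs j x' T s ∧ (cnt j x T ≤ s → T.eval x = T.eval x') := by
  induction T with
  | ans b => intro s _; simp [qs, eval]
  | rd i t₀ t₁ ih₀ ih₁ =>
    intro s hs
    by_cases h : i.1 = j
    · cases s with
      | zero => simp [qs, h, cnt]
      | succ s =>
        simp only [qs, h, if_true, List.mem_cons, forall_eq_or_imp] at hs
        have hi : x i = x' i := hx i fun hh => hs.1 hh.2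
        simp only [qs, h, if_true, cnt, eval, ← hi]
        by_cases hxi : x i = true
        · simp only [hxi, if_true] at hs ⊢
          obtain ⟨h1, h2⟩ := ih₁ s hs.2
          exact ⟨by rw [h1], fun hc => h2 (by omega)⟩
        · simp only [hxi] at hs ⊢
          simp only [Bool.false_eq_true, if_false] at hs ⊢
          obtain ⟨h1, h2⟩ := ih₀ s hs.2
          exact ⟨by rw [h1], fun hc => h2 (by omega)⟩
    · have hi : x i = x' i := hx i fun hh => h hh.1
      rw [qs_ne h] at hs
      rw [qs_ne h, qs_ne h]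
      simp only [cnt, eval, ← hi, h, if_false, zero_add]
      by_cases hxi : x i = true
      · simp only [hxi, if_true] at hs ⊢
        exact ih₁ s hs
      · simp only [hxi] at hs ⊢
        simp only [Bool.false_eq_true, if_false] at hs ⊢
        exact ih₀ s hs

/-- Replacing item `j`. -/
def upd (x : M × J → Bool) (j : M) (u : J → Bool) : M × J → Bool :=
  fun i => if i.1 = j then u i.2 else x i

lemma dt_qs (j : M) (x : M × J → Bool) (T : Tr (M × J)) :
    ∀ s, DT s (fun u : J → Bool => qs j (upd x j u) T s) := by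
  induction T with
  | ans b => intro s; exact (DT.const s []).congr fun u => by simp [qs]
  | rd i t₀ t₁ ih₀ ih₁ =>
    intro s
    by_cases h : i.1 = j
    · cases s with
      | zero => exact (DT.const 0 []).congr fun u => by simp [qs, h]
      | succ s =>
        refine ((DT.query s i.2 _ _ (ih₀ s) (ih₁ s)).map fun l => i.2 :: l).congr fun u => ?_
        simp [qs, h, upd]
    · by_cases hxi : x i = true
      · exact (ih₁ s).congr fun u => by rw [qs_ne h]; simp [upd, h, hxi]
      · exact (ih₀ s).congr fun u => by rw [qs_ne h]; simp [upd, h, hxi]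

end Tr

lemma sum_ind_mem_le {K J : Type} [Fintype K] (R : K → J → Prop)
    (hR : ∀ v k k', R k v → R k' v → k = k') (Q : List J) :
    ∑ k, ind (∃ v ∈ Q, R k v) ≤ Q.length := by
  classical
  induction Q with
  | nil => simp [ind]
  | cons a Q ih =>
    have h1 : ∑ k, ind (R k a) ≤ 1 := by
      by_cases h : ∃ k, R k a
      · obtain ⟨k₀, hk₀⟩ := h
        rw [Finset.sum_eq_single k₀]
        · exact ind_le_one _
        · intro k _ hk
          exact ind_of_not fun h => hk (hR a k k₀ h hk₀)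
        · simp
      · rw [sum_eq_zero fun k _ => ind_of_not fun hk => h ⟨k, hk⟩]; norm_num
    have h2 : ∀ k, ind (∃ v ∈ a :: Q, R k v) ≤ ind (R k a) + ind (∃ v ∈ Q, R k v) := by
      intro k
      by_cases h : ∃ v ∈ a :: Q, R k v
      · rw [ind_of h]
        obtain ⟨v, hv, hRv⟩ := h
        rcases List.mem_cons.1 hv with rfl | hv
        · rw [ind_of hRv]; linarith [ind_nonneg (∃ v ∈ Q, R k v)]
        · rw [ind_of (p := ∃ v ∈ Q, R k v) ⟨v, hv, hRv⟩]; linarith [ind_nonneg (R k a)]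
      · rw [ind_of_not h]; exact add_nonneg (ind_nonneg _) (ind_nonneg _)
    calc _ ≤ ∑ k, (ind (R k a) + ind (∃ v ∈ Q, R k v)) := sum_le_sum fun k _ => h2 k
      _ ≤ 1 + Q.length := by rw [sum_add_distrib]; linarith
      _ = _ := by simp [add_comm]

lemma Ex_unif {K : Type} [Fintype K] (f : K → ℝ) :
    Ex (fun _ : K => ((Fintype.card K : ℝ))⁻¹) f = (∑ k, f k) / Fintype.card K := by
  unfold Ex
  rw [← mul_sum, div_eq_inv_mul]

section item

variable {L Z Λ C : Type} [Fintype L] [DecidableEq L] [Nonempty L] [Fintype Z] [DecidableEq Z]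
  [Fintype Λ] [DecidableEq Λ] [Nonempty Λ]

/-- The bits of a losing item. -/
def item (C : Type) (a : L × Λ × (Z → Bool)) : L ⊕ Z ⊕ (Λ × C) → Bool :=
  Sum.elim (fun l => decide (l ≠ a.1)) (Sum.elim a.2.2 fun _ => false)

/-- The bits of an item with a full column and blank cells. -/
def item₀ (L Λ C : Type) (z : Z → Bool) : L ⊕ Z ⊕ (Λ × C) → Bool :=
  Sum.elim (fun _ => true) (Sum.elim z fun _ => false)

/-- The sensitive block of an item. -/
def Bset (C : Type) (a : L × Λ × (Z → Bool)) (v : L ⊕ Z ⊕ (Λ × C)) : Prop :=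
  v = .inl a.1 ∨ ∃ c, v = .inr (.inr (a.2.1, c))

/-- The law of an item. -/
noncomputable def wItem (L : Type) [Fintype L] (D : Λ → (Z → Bool) → ℝ)
    (a : L × Λ × (Z → Bool)) : ℝ :=
  ((Fintype.card L : ℝ))⁻¹ * (((Fintype.card Λ : ℝ))⁻¹ * D a.2.1 a.2.2)

omit [DecidableEq L] [Nonempty L] [DecidableEq Λ] [Nonempty Λ] in
lemma Ex_wItem (D : Λ → (Z → Bool) → ℝ) (g : L × Λ × (Z → Bool) → ℝ) :
    Ex (wItem L D) g = Ex (fun _ : L => ((Fintype.card L : ℝ))⁻¹) fun π =>
      Ex (fun _ : Λ => ((Fintype.card Λ : ℝ))⁻¹) fun ℓ => Ex (D ℓ) fun z => g (π, ℓ, z) := by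
  simp only [Ex, wItem, Fintype.sum_prod_type, mul_sum, mul_assoc]

omit [DecidableEq L] [DecidableEq Λ] in
lemma isW_wItem {D : Λ → (Z → Bool) → ℝ} (hD : ∀ ℓ, IsW (D ℓ)) : IsW (wItem L D) := by
  refine ⟨fun a => ?_, ?_⟩
  · have := (hD a.2.1).1 a.2.2
    unfold wItem; positivity
  · have h := Ex_wItem (L := L) D fun _ => 1
    simp only [fun ℓ => (isProb_Ex (hD ℓ)).const 1, (isProb_Ex (isW_unif Λ)).const 1,
      (isProb_Ex (isW_unif L)).const 1] at h
    simpa [Ex] using h

omit [DecidableEq Λ] in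
lemma single_item {M : Type} [DecidableEq M] {D : Λ → (Z → Bool) → ℝ} (hD : ∀ ℓ, IsW (D ℓ))
    {D₀ : (Z → Bool) → ℝ} (hD₀ : IsW D₀) (s : ℕ) (ε : ℝ)
    (hind : ∀ ℓ (g : (Z → Bool) → ℝ), DT s g → (∀ z, |g z| ≤ 1) → Ex (D ℓ) g ≤ Ex D₀ g + ε)
    (x : M × (L ⊕ Z ⊕ (Λ × C)) → Bool) (j : M) (T : Tr (M × (L ⊕ Z ⊕ (Λ × C)))) :
    Ex (wItem L D) (fun a => ind (∃ v ∈ Tr.qs j (Tr.upd x j (item C a)) T s, Bset C a v))
      ≤ s / Fintype.card L + s / Fintype.card Λ + ε := by
  set Q : (Z → Bool) → List (L ⊕ Z ⊕ (Λ × C)) :=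
    fun z => Tr.qs j (Tr.upd x j (item₀ L Λ C z)) T s with hQ
  have hL := isProb_Ex (isW_unif L)
  have hΛ := isProb_Ex (isW_unif Λ)
  have hLpos : (0 : ℝ) < Fintype.card L := by exact_mod_cast Fintype.card_pos
  have hΛpos : (0 : ℝ) < Fintype.card Λ := by exact_mod_cast Fintype.card_pos
  have hlen : ∀ z, ((Q z).length : ℝ) ≤ s := fun z => by exact_mod_cast Tr.length_qs_le j _ T s
  have h1 : ∀ a : L × Λ × (Z → Bool),
      ind (∃ v ∈ Tr.qs j (Tr.upd x j (item C a)) T s, Bset C a v)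
        ≤ ind (∃ v ∈ Q a.2.2, v = .inl a.1) + ind (∃ v ∈ Q a.2.2, ∃ c, v = .inr (.inr (a.2.1, c))) := by
    intro a
    by_cases hπ : ∃ v ∈ Q a.2.2, v = .inl a.1
    · rw [ind_of hπ]
      linarith [ind_le_one (∃ v ∈ Tr.qs j (Tr.upd x j (item C a)) T s, Bset C a v),
        ind_nonneg (∃ v ∈ Q a.2.2, ∃ c, v = .inr (.inr (a.2.1, c)))]
    · rw [ind_of_not hπ, zero_add]
      have h2 := (Tr.agree j (fun v => v = .inl a.1) (Tr.upd x j (item₀ L Λ C a.2.2))
        (Tr.upd x j (item C a)) (by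
          rintro ⟨i, v⟩ hi
          unfold Tr.upd
          split_ifs with h
          · rcases v with l | w | c
            · have : l ≠ a.1 := fun hl => hi ⟨h, by rw [hl]⟩
              simp [item, item₀, this]
            · rfl
            · rfl
          · rfl) T s (fun v hv h => hπ ⟨v, hv, h⟩)).1
      refine ind_mono ?_
      rintro ⟨v, hv, hB⟩
      rw [← h2] at hv
      rcases hB with hB | hB
      · exact absurd ⟨v, hv, hB⟩ hπ
      · exact ⟨v, hv, hB⟩
  refine ((isProb_Ex (isW_wItem hD)).mono h1).trans ?_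
  rw [(isProb_Ex (isW_wItem hD)).add, Ex_wItem, Ex_wItem, add_assoc]
  refine add_le_add ?_ ?_
  · rw [hL.swap hΛ]
    refine hΛ.le_const fun ℓ => ?_
    rw [hL.swap (isProb_Ex (hD ℓ))]
    refine (isProb_Ex (hD ℓ)).le_const fun z => ?_
    rw [Ex_unif]
    refine div_le_div_of_nonneg_right ?_ hLpos.le
    exact (sum_ind_mem_le (fun (π : L) (v : L ⊕ Z ⊕ (Λ × C)) => v = .inl π)
      (fun v k k' h h' => Sum.inl_injective (h.symm.trans h')) (Q z)).trans (hlen z)
  · refine hL.le_const fun π => ?_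
    have h3 : ∀ ℓ, Ex (D ℓ) (fun z => ind (∃ v ∈ Q z, ∃ c, v = .inr (.inr (ℓ, c))))
        ≤ Ex D₀ (fun z => ind (∃ v ∈ Q z, ∃ c, v = .inr (.inr (ℓ, c)))) + ε := by
      intro ℓ
      refine hind ℓ _ ?_ fun z => by rw [abs_of_nonneg (ind_nonneg _)]; exact ind_le_one _
      have := ((Tr.dt_qs j x T s).comp (J := Z)
        (Sum.elim (fun _ => .inr true) (Sum.elim .inl fun _ => .inr false))).map
          fun l => ind (∃ v ∈ l, ∃ c, v = .inr (.inr (ℓ, c)))
      refine this.congr fun z => ?_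
      have : (fun i : L ⊕ Z ⊕ (Λ × C) => Sum.elim z id
          (Sum.elim (fun _ => (.inr true : Z ⊕ Bool)) (Sum.elim .inl fun _ => .inr false) i))
          = item₀ L Λ C z := by
        funext i
        rcases i with l | w | c <;> rfl
      rw [this]
    refine (hΛ.mono h3).trans ?_
    rw [hΛ.add, hΛ.const, hΛ.swap (isProb_Ex hD₀)]
    refine add_le_add ((isProb_Ex hD₀).le_const fun z => ?_) le_rfl
    rw [Ex_unif]
    refine div_le_div_of_nonneg_right ?_ hΛpos.le
    refine (sum_ind_mem_le (fun (ℓ : Λ) (v : L ⊕ Z ⊕ (Λ × C)) => ∃ c, v = .inr (.inr (ℓ, c)))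
      ?_ (Q z)).trans (hlen z)
    rintro v k k' ⟨c, h⟩ ⟨c', h'⟩
    have := h.symm.trans h'
    simp only [Sum.inr.injEq, Prod.mk.injEq] at this
    exact this.1

end item

/-- Direct-sum lower bound. Items `M`; an item has a column `L`, a puzzle `Z` and cells `Λ × C`. -/
theorem direct_sum {M L Z Λ C : Type} [Fintype M] [DecidableEq M] [Nonempty M]
    [Fintype L] [DecidableEq L] [Nonempty L] [Fintype Z] [DecidableEq Z]
    [Fintype Λ] [DecidableEq Λ] [Nonempty Λ] [Fintype C] [DecidableEq C]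
    (F : (M × (L ⊕ Z ⊕ (Λ × C)) → Bool) → Bool)
    (D : Λ → (Z → Bool) → ℝ) (hD : ∀ ℓ, IsW (D ℓ)) (D₀ : (Z → Bool) → ℝ) (hD₀ : IsW D₀)
    (s : ℕ) (hs : 1 ≤ s) (ε : ℝ)
    (hind : ∀ ℓ (g : (Z → Bool) → ℝ), DT s g → (∀ z, |g z| ≤ 1) → Ex (D ℓ) g ≤ Ex D₀ g + ε)
    (Prom : Λ → (Z → Bool) → Prop) (hProm : ∀ ℓ, 9 / 10 ≤ Ex (D ℓ) fun z => ind (Prom ℓ z))
    (hF₀ : ∀ x : M × (L ⊕ Z ⊕ (Λ × C)) → Bool, (∀ a, ∃ l, x (a, .inl l) = false) → F x = false)
    (hF₁ : ∀ (x : M × (L ⊕ Z ⊕ (Λ × C)) → Bool) (j : M) (ℓ : Λ),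
      (∀ a, a ≠ j → ∃ l, x (a, .inl l) = false) → (∀ l, x (j, .inl l) = true) →
      Prom ℓ (fun w => x (j, .inr (.inl w))) →
      ∃ x', F x' = true ∧ ∀ v, (∀ c, v ≠ (j, .inr (.inr (ℓ, c)))) → x' v = x v)
    {n : ℕ} (e : Fin n ≃ M × (L ⊕ Z ⊕ (Λ × C))) (r : ℕ)
    (hr : RandomizedComputes (fun y : Fin n → Bool => F fun i => y (e.symm i)) r) :
    (3 / 10 : ℝ) ≤ r / (Fintype.card M * s) + s / Fintype.card L + s / Fintype.card Λ + ε := by
  obtain ⟨k, p, T₀, hp₀, hp₁, hdep, hcor⟩ := hr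
  set T : Fin k → Tr (M × (L ⊕ Z ⊕ (Λ × C))) := fun τ => Tr.ofD e (T₀ τ) with hT
  have hp : IsProb (Ex p) := isProb_Ex ⟨hp₀, hp₁⟩
  have hcor' : ∀ x, 2 / 3 ≤ Ex p fun τ => ind ((T τ).eval x = F x) := by
    intro x
    have := hcor fun i => x (e i)
    simp only [Equiv.apply_symm_apply] at this
    refine this.trans (le_of_eq ?_)
    unfold Ex
    refine sum_congr rfl fun τ _ => ?_
    rw [hT]
    simp only [Tr.eval_ofD, ind_eq_ite]
    split_ifs <;> simp
  have hw₁ := isW_wItem (L := L) hD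
  have hw : IsW (piW fun _ : M => wItem L D) := isW_piW fun _ => hw₁
  have hP := isProb_Ex hw
  set X : (M → L × Λ × (Z → Bool)) → M × (L ⊕ Z ⊕ (Λ × C)) → Bool :=
    fun ω i => item C (ω i.1) i.2 with hX
  have hXupd : ∀ ω j a, X (Function.update ω j a) = Tr.upd (X ω) j (item C a) := by
    intro ω j a
    funext i
    simp only [hX, Tr.upd]
    split_ifs with h
    · rw [h, Function.update_self]
    · rw [Function.update_of_ne h]
  have hspos : (0 : ℝ) < s := by exact_mod_cast hs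
  -- pointwise step
  have step₁ : ∀ ω j, 1 / 3 * ind (Prom (ω j).2.1 (ω j).2.2) ≤
      Ex p fun τ => (Tr.cnt j (X ω) (T τ) : ℝ) / s
        + ind (∃ v ∈ Tr.qs j (X ω) (T τ) s, Bset C (ω j) v) := by
    intro ω j
    by_cases hpr : Prom (ω j).2.1 (ω j).2.2
    swap
    · rw [ind_of_not hpr, mul_zero]
      exact hp.nonneg fun τ => add_nonneg (by positivity) (ind_nonneg _)
    rw [ind_of hpr, mul_one]
    have hF : F (X ω) = false := hF₀ _ fun a => ⟨(ω a).1, by simp [hX, item]⟩
    obtain ⟨x', hx', hx''⟩ := hF₁ (Tr.upd (X ω) j (item₀ L Λ C (ω j).2.2)) j (ω j).2.1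
      (fun a ha => ⟨(ω a).1, by simp [Tr.upd, ha, hX, item]⟩)
      (fun l => by simp [Tr.upd, item₀]) (by simpa [Tr.upd, item₀] using hpr)
    have hag : ∀ i, ¬(i.1 = j ∧ Bset C (ω j) i.2) → X ω i = x' i := by
      rintro ⟨a, v⟩ hi
      rw [hx'' _ (by
        rintro c hc
        simp only [Prod.mk.injEq] at hc
        exact hi ⟨hc.1, Or.inr ⟨c, hc.2⟩⟩)]
      unfold Tr.upd
      split_ifs with h
      · simp only at h
        subst h
        rcases v with l | w | c
        · have : l ≠ (ω a).1 := fun hl => hi ⟨rfl, Or.inl (by rw [hl])⟩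
          simp [hX, item, item₀, this]
        · rfl
        · rfl
      · rfl
    have h1 := hcor' (X ω)
    have h2 := hcor' x'
    rw [hF] at h1
    rw [hx'] at h2
    have h3 := hp.mono
      (f := fun τ => ind ((T τ).eval (X ω) = false) + ind ((T τ).eval x' = true) - 1)
      (g := fun τ => (Tr.cnt j (X ω) (T τ) : ℝ) / s
        + ind (∃ v ∈ Tr.qs j (X ω) (T τ) s, Bset C (ω j) v)) (fun τ => by
        have a1 := ind_le_one ((T τ).eval (X ω) = false)
        have a2 := ind_le_one ((T τ).eval x' = true)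
        have a3 : (0 : ℝ) ≤ (Tr.cnt j (X ω) (T τ) : ℝ) / s := by positivity
        by_cases hhit : ∃ v ∈ Tr.qs j (X ω) (T τ) s, Bset C (ω j) v
        · rw [ind_of hhit]; linarith
        · rw [ind_of_not hhit]
          by_cases hc : Tr.cnt j (X ω) (T τ) ≤ s
          · have := (Tr.agree j (Bset C (ω j)) (X ω) x' hag (T τ) s
              fun v hv h => hhit ⟨v, hv, h⟩).2 hc
            rw [this]
            cases (T τ).eval x' <;> simp [ind] <;> positivity
          · have : (1 : ℝ) ≤ (Tr.cnt j (X ω) (T τ) : ℝ) / s := by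
              rw [le_div_iff₀ hspos, one_mul]
              exact_mod_cast (not_le.1 hc).le
            linarith)
    rw [hp.sub, hp.add, hp.const] at h3
    linarith
  -- average over the items
  have step₂ : ∀ j, (3 / 10 : ℝ) ≤
      (Ex p fun τ => Ex (piW fun _ : M => wItem L D) fun ω => (Tr.cnt j (X ω) (T τ) : ℝ) / s)
        + (s / Fintype.card L + s / Fintype.card Λ + ε) := by
    intro j
    have h1 := hP.mono fun ω => step₁ ω j
    rw [hP.const_mul, hP.swap hp] at h1
    have h2 : 9 / 10 ≤ Ex (piW fun _ : M => wItem L D)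
        fun ω => ind (Prom (ω j).2.1 (ω j).2.2) := by
      rw [Ex_piW_split (fun _ => hw₁) j]
      refine hP.const_le fun ω => ?_
      simp only [Function.update_self]
      rw [Ex_wItem]
      exact (isProb_Ex (isW_unif L)).const_le fun π =>
        (isProb_Ex (isW_unif Λ)).const_le fun ℓ => hProm ℓ
    have h3 := hp.mono
      (f := fun τ => Ex (piW fun _ : M => wItem L D) fun ω => (Tr.cnt j (X ω) (T τ) : ℝ) / s
        + ind (∃ v ∈ Tr.qs j (X ω) (T τ) s, Bset C (ω j) v))
      (g := fun τ => (Ex (piW fun _ : M => wItem L D) fun ω => (Tr.cnt j (X ω) (T τ) : ℝ) / s)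
        + (s / Fintype.card L + s / Fintype.card Λ + ε)) (fun τ => by
        rw [hP.add]
        refine add_le_add le_rfl ?_
        rw [Ex_piW_split (fun _ => hw₁) j]
        refine hP.le_const fun ω => ?_
        simp only [Function.update_self, hXupd]
        exact single_item hD hD₀ s ε hind (X ω) j (T τ))
    rw [hp.add, hp.const] at h3
    linarith
  have hM : (0 : ℝ) < Fintype.card M := by exact_mod_cast Fintype.card_pos
  have h1 := sum_le_sum fun j (_ : j ∈ (univ : Finset M)) => step₂ j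
  rw [sum_add_distrib, sum_const, sum_const, card_univ, nsmul_eq_mul, nsmul_eq_mul,
    ← hp.sum] at h1
  have h2 : (Ex p fun τ => ∑ j, Ex (piW fun _ : M => wItem L D)
      fun ω => (Tr.cnt j (X ω) (T τ) : ℝ) / s) ≤ r / s := by
    refine hp.le_const fun τ => ?_
    rw [← hP.sum]
    refine hP.le_const fun ω => ?_
    rw [← sum_div]
    refine div_le_div_of_nonneg_right ?_ hspos.le
    have := (Tr.sum_cnt_le (X ω) (T τ)).trans ((Tr.depth_ofD e (T₀ τ)).le.trans (hdep τ))
    exact_mod_cast this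
  have h3 : (r : ℝ) / s = Fintype.card M * (r / (Fintype.card M * s)) := by field_simp
  have h4 : (Fintype.card M : ℝ) * (3 / 10) ≤ Fintype.card M *
      (r / (Fintype.card M * s) + s / Fintype.card L + s / Fintype.card Λ + ε) := by
    linarith
  exact le_of_mul_le_mul_left h4 hM

end Crest.Agent.R350
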