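import Crest.Agent.R350.Basic

set_option autoImplicit false

namespace Crest.Agent.R350

open Finset

lemma Ex_piW_coord {K Ω : Type} [Fintype K] [DecidableEq K] [Fintype Ω] {w : K → Ω → ℝ}
    (hw : ∀ κ, IsW (w κ)) (κ : K) (h : Ω → ℝ) : Ex (piW w) (fun ω => h (ω κ)) = Ex (w κ) h := by
  rw [Ex_piW_split hw κ]
  simp only [Function.update_self]
  exact (isProb_Ex (isW_piW hw)).const _

/-- Chebyshev's inequality for a sum of independent bounded terms. -/
theorem cheb {K Ω : Type} [Fintype K] [DecidableEq K] [Fintype Ω] (w : K → Ω → ℝ)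
    (hw : ∀ κ, IsW (w κ)) (f : K → Ω → ℝ) (hf : ∀ κ ω, |f κ ω| ≤ 1) (S : Finset K)
    (μ lam : ℝ) (hlam : 0 < lam) (hμ : μ ≤ ∑ κ ∈ S, Ex (w κ) (f κ)) :
    Ex (piW w) (fun ω => ind (∑ κ ∈ S, f κ (ω κ) ≤ μ - lam)) ≤ S.card / lam ^ 2 := by
  have hp := isProb_Ex (isW_piW hw)
  let c : K → Ω → ℝ := fun κ a => f κ a - Ex (w κ) (f κ)
  have hc0 : ∀ κ, Ex (w κ) (c κ) = 0 := fun κ => by
    have h := isProb_Ex (hw κ)
    simp only [c]
    rw [h.sub, h.const, sub_self]
  have hrow : ∀ κ ∈ S, ∑ κ' ∈ S, Ex (piW w) (fun ω => c κ (ω κ) * c κ' (ω κ')) ≤ 1 := by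
    intro κ hκ
    rw [sum_eq_single_of_mem κ hκ fun κ' _ hne => ?_]
    · have h := isProb_Ex (hw κ)
      rw [Ex_piW_coord hw κ fun a => c κ a * c κ a]
      have e : ∀ a, c κ a * c κ a = f κ a * f κ a - (2 * Ex (w κ) (f κ)) * f κ a +
          Ex (w κ) (f κ) ^ 2 := fun a => by simp only [c]; ring
      simp only [e]
      rw [h.add, h.sub, h.const_mul, h.const]
      have := h.le_const (f := fun a => f κ a * f κ a) (c := 1) fun a =>
        abs_le_one_iff_mul_self_le_one.1 (hf κ a)
      change _ - 2 * Ex (w κ) (f κ) * Ex (w κ) (f κ) + _ ≤ _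
      nlinarith [sq_nonneg (Ex (w κ) (f κ))]
    · rw [Ex_piW_split hw κ]
      simp only [Function.update_self, Function.update_of_ne hne, (isProb_Ex (hw κ)).mul_const]
      exact (congrArg _ (funext fun ω => by rw [show Ex (w κ) _ = 0 from hc0 κ, zero_mul])).trans
        (hp.const 0)
  have h2 : Ex (piW w) (fun ω => (∑ κ ∈ S, c κ (ω κ)) ^ 2) ≤ S.card := by
    simp only [sq, sum_mul_sum, hp.sum]
    simpa using sum_le_card_nsmul _ _ _ hrow
  refine (hp.mono (g := fun ω => (∑ κ ∈ S, c κ (ω κ)) ^ 2 * (lam ^ 2)⁻¹) fun ω => ?_).trans ?_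
  · by_cases h : ∑ κ ∈ S, f κ (ω κ) ≤ μ - lam
    · rw [ind_of h, ← div_eq_mul_inv, one_le_div (by positivity), ← neg_sq (∑ κ ∈ S, c κ (ω κ))]
      refine pow_le_pow_left₀ hlam.le ?_ 2
      simp only [c, sum_sub_distrib]
      linarith
    · rw [ind_of_not h]; positivity
  · rw [hp.mul_const, div_eq_mul_inv]
    exact mul_le_mul_of_nonneg_right h2 (by positivity)

/-- Splitting off one coordinate, against a law that differs in this coordinate only. -/
lemma Ex_piW_split' {K Ω : Type} [Fintype K] [DecidableEq K] [Fintype Ω] {u u' : K → Ω → ℝ}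
    (κ : K) (hu' : IsW (u' κ)) (h : ∀ κ', κ' ≠ κ → u κ' = u' κ') (g : (K → Ω) → ℝ) :
    Ex (piW u) g = Ex (piW u') (fun ω => Ex (u κ) fun a => g (Function.update ω κ a)) := by
  have key : ∀ (ω : K → Ω) (a : Ω), piW u' ω * u κ a
      = piW u (Function.update ω κ a) * u' κ (ω κ) := by
    intro ω a
    unfold piW
    rw [← mul_prod_erase univ _ (mem_univ κ), ← mul_prod_erase univ _ (mem_univ κ)]
    have : ∏ x ∈ univ.erase κ, u x (Function.update ω κ a x) = ∏ x ∈ univ.erase κ, u' x (ω x) :=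
      prod_congr rfl fun x hx => by
        rw [Function.update_of_ne (ne_of_mem_erase hx), h x (ne_of_mem_erase hx)]
    rw [this, Function.update_self]; ring
  let e : (K → Ω) × Ω ≃ (K → Ω) × Ω :=
    { toFun := fun p => (Function.update p.1 κ p.2, p.1 κ)
      invFun := fun p => (Function.update p.1 κ p.2, p.1 κ)
      left_inv := fun p => by simp
      right_inv := fun p => by simp }
  calc Ex (piW u) g = ∑ p : (K → Ω) × Ω, piW u p.1 * u' κ p.2 * g p.1 := by
        rw [Fintype.sum_prod_type]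
        refine sum_congr rfl fun ω _ => ?_
        simp only
        rw [← sum_mul, ← mul_sum, hu'.2, mul_one]
    _ = ∑ p : (K → Ω) × Ω, piW u' p.1 * u κ p.2 * g (Function.update p.1 κ p.2) := by
        refine (Fintype.sum_equiv e _ _ fun p => ?_).symm
        simp only [e, Equiv.coe_fn_mk]
        rw [key]
    _ = _ := by
        rw [Fintype.sum_prod_type]
        refine sum_congr rfl fun ω _ => ?_
        simp only [Ex, mul_sum, mul_assoc]

/-- Hybrid argument for product laws against decision trees. -/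
theorem hybrid {K W : Type} [Fintype K] [DecidableEq K] [Fintype W] [DecidableEq W]
    (w w' : K → (W → Bool) → ℝ) (hw : ∀ κ, IsW (w κ)) (hw' : ∀ κ, IsW (w' κ)) (s : ℕ) (ε : ℝ)
    (h : ∀ κ (g : (W → Bool) → ℝ), DT s g → (∀ x, |g x| ≤ 1) → |Ex (w κ) g - Ex (w' κ) g| ≤ ε)
    (g : (K × W → Bool) → ℝ) (hg : DT s g) (hg1 : ∀ x, |g x| ≤ 1) :
    |Ex (piD w) g - Ex (piD w') g| ≤ Fintype.card K * ε := by
  let u : Finset K → K → (W → Bool) → ℝ := fun S κ => if κ ∈ S then w' κ else w κ
  have hu : ∀ S κ, IsW (u S κ) := fun S κ => by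
    simp only [u]; split_ifs
    · exact hw' κ
    · exact hw κ
  have key : ∀ S : Finset K, |Ex (piD w) g - Ex (piD (u S)) g| ≤ S.card * ε := by
    intro S
    induction S using Finset.induction_on with
    | empty => simp [u]
    | insert κ S hκ ih =>
      have step : |Ex (piD (u S)) g - Ex (piD (u (insert κ S))) g| ≤ ε := by
        have hp := isProb_Ex (isW_piW (hu S))
        rw [Ex_piD, Ex_piD, Ex_piW_split (hu S) κ,
          Ex_piW_split' (u := u (insert κ S)) κ (hu S κ) (fun κ' h' => by simp [u, h']), ← hp.sub]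
        have hb : ∀ ω : K → W → Bool,
            |(Ex (u S κ) fun a => g fun p => Function.update ω κ a p.1 p.2) -
              Ex (u (insert κ S) κ) fun a => g fun p => Function.update ω κ a p.1 p.2| ≤ ε := by
          intro ω
          simp only [u, hκ, mem_insert_self, if_true, if_false]
          refine h κ _ ((hg.comp fun p => if p.1 = κ then Sum.inl p.2 else Sum.inr (ω p.1 p.2)).congr
            fun a => congrArg g (funext fun p => ?_)) fun _ => hg1 _
          by_cases hp : p.1 = κ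
          · simp [hp]
          · simp [hp]
        exact abs_le.2 ⟨hp.const_le fun ω => (abs_le.1 (hb ω)).1,
          hp.le_const fun ω => (abs_le.1 (hb ω)).2⟩
      rw [card_insert_of_notMem hκ]
      push_cast
      have := abs_sub_le (Ex (piD w) g) (Ex (piD (u S)) g) (Ex (piD (u (insert κ S))) g)
      linarith
  simpa [u] using key univ

end Crest.Agent.R350
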