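import Crest.Agent.R350.Impl
import Crest.Agent.R350.Had
import Crest.Agent.R350.Prob

set_option autoImplicit false

namespace Crest.Agent.R350

open Finset

namespace HTest

/-- The normalised Hadamard matrix. -/
noncomputable def Hn (n : ℕ) : Matrix (Cube n) (Cube n) ℝ := Matrix.of fun j i => had i j / rt n

lemma Hn_orth (n : ℕ) : (Hn n).transpose * Hn n = 1 := by
  ext i i'
  have h1 := had_orth (R := ℝ) i i'
  have h2 := rt_sq n
  have h3 := (rt_pos n).ne'
  have h4 : ∀ j : Cube n, had i j / rt n * (had i' j / rt n)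
      = (had i j * had i' j : ℝ) / rt n ^ 2 := by
    intro j; field_simp
  simp only [Hn, Matrix.mul_apply, Matrix.transpose_apply, Matrix.of_apply, h4]
  rw [← sum_div, h1, h2, Matrix.one_apply]
  split_ifs
  · exact div_self (by positivity)
  · simp

lemma exists_impl {I : Type} (n m : ℕ) (emb : Fin (m + 1) × Cube n → I) (κ : Fin (m + 1)) :
    ∃ W : (I → Bool) → Matrix (Cube n) (Cube n) ℝ, Impl (κ.val + 1) W ∧
      ∀ x j, (W x).mulVec (fun _ => 1) j =
        vec (fun v => (sg (x (emb v)) : ℝ)) κ j / rt n ^ κ.val := by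
  induction κ using Fin.induction with
  | zero =>
    refine ⟨_, Impl.phase fun i => some (emb (0, i)), fun x j => ?_⟩
    simp [phase, Matrix.mulVec_diagonal]
  | succ κ ih =>
    obtain ⟨W, hW, h⟩ := ih
    refine ⟨_, ((Impl.phase fun i => some (emb (κ.succ, i))).mul
      (hW.mul_left (Hn_orth n))).mono (by simp; omega), fun x j => ?_⟩
    have h3 := (rt_pos n).ne'
    rw [← Matrix.mulVec_mulVec, ← Matrix.mulVec_mulVec, phase, Matrix.mulVec_diagonal, vec_succ]
    have h5 : (Hn n).mulVec ((W x).mulVec fun _ => 1) j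
        = (∑ i, had i j * vec (fun v => (sg (x (emb v)) : ℝ)) κ.castSucc i)
          / rt n ^ (κ.val + 1) := by
      rw [Matrix.mulVec, dotProduct, sum_div]
      refine sum_congr rfl fun i _ => ?_
      rw [h]
      simp only [Hn, Matrix.of_apply, Fin.val_castSucc]
      field_simp
      ring
    rw [h5]
    simp only [Option.elim, Fin.val_succ]
    ring

lemma isW_test (t : ℝ) (ht : |t| ≤ 1) : IsW (fun b : Bool => (1 + sg b * t) / 2) := by
  have := abs_le.1 ht
  refine ⟨fun b => ?_, ?_⟩
  · cases b <;> simp <;> linarith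
  · simp; ring

lemma Ex_test (t a : ℝ) : Ex (fun b : Bool => (1 + sg b * t) / 2) (fun b => a * sg b) = a * t := by
  simp [Ex]; ring

end HTest

open HTest

/-- The Hadamard test for Forrelation. -/
theorem hadamard_test {I : Type} (n m : ℕ) (emb : Fin (m + 1) × Cube n → I) :
    Samp (m + 1) (fun (x : I → Bool) (g : Bool → ℝ) =>
      Ex (fun b : Bool => (1 + sg b * forr (fun v => x (emb v))) / 2) g) := by
  obtain ⟨W, hW, h⟩ := exists_impl n m emb (Fin.last m)
  simp only [Fin.val_last] at hW h
  set c : ℝ := Real.sqrt (1 / 2) with hc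
  have hcc : c * c = 1 / 2 := Real.mul_self_sqrt (by norm_num)
  let H : Matrix Bool Bool ℝ := Matrix.of fun a b => c * sg (a && b)
  have hH : H.transpose * H = 1 := by
    ext a b
    cases a <;> cases b <;> simp [H, Matrix.mul_apply] <;> linarith
  let HC : Matrix (Bool × Cube n) (Bool × Cube n) ℝ :=
    (implBlk fun _ : Cube n => H).submatrix (Equiv.prodComm _ _) (Equiv.prodComm _ _)
  have hHC : HC.transpose * HC = 1 := by
    simp only [HC]
    rw [Matrix.transpose_submatrix, Matrix.submatrix_mul_equiv, implBlk_transpose, implBlk_mul]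
    simp only [hH]
    rw [implBlk_one, Matrix.submatrix_one_equiv]
  let V : Bool → (I → Bool) → Matrix (Cube n) (Cube n) ℝ := fun b x => if b then W x else 1
  have hV : ∀ b, Impl (m + 1) (V b) := by
    intro b
    cases b
    · exact (Impl.const 1 (by simp)).mono (Nat.zero_le _)
    · exact hW
  have hr := rt_pos n
  have hr2 := rt_sq n
  have hcard : (Fintype.card (Cube n) : ℝ) = 2 ^ n := by simp
  have hψ : ∑ _e : Bool × Cube n, (c / rt n) ^ 2 = 1 := by
    rw [sum_const, card_univ, Fintype.card_prod, nsmul_eq_mul, Nat.cast_mul, hcard, div_pow, hr2,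
      sq, hcc, Fintype.card_bool]
    push_cast
    field_simp
  refine (Samp.of_vec ((Impl.blk hV).mul_left hHC) (fun _ => c / rt n) hψ Prod.fst).congr
    fun x g => ?_
  have h1 : ∀ (b : Bool) (i : Cube n), (implBlk fun a => V a x).mulVec (fun _ => c / rt n) (b, i)
      = c / rt n * (V b x).mulVec (fun _ => 1) i := by
    intro b i
    simp only [Matrix.mulVec, dotProduct, implBlk_apply, Fintype.sum_prod_type, mul_sum]
    rw [sum_eq_single b]
    · simp only [if_true]
      exact sum_congr rfl fun j _ => by ring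
    · intro b' _ hb
      simp [hb.symm]
    · simp
  have h2 : ∀ (b : Bool) (i : Cube n), (HC * implBlk fun a => V a x).mulVec (fun _ => c / rt n) (b, i)
      = (1 / 2) / rt n *
        (1 + sg b * (vec (fun v => (sg (x (emb v)) : ℝ)) (Fin.last m) i / rt n ^ m)) := by
    intro b i
    rw [← Matrix.mulVec_mulVec, Matrix.mulVec, dotProduct, Fintype.sum_prod_type]
    simp only [h1]
    have h3 : ∀ b' : Bool, ∑ j : Cube n, HC (b, i) (b', j) * (c / rt n * (V b' x).mulVec (fun _ => 1) j)
        = c * sg (b && b') * (c / rt n * (V b' x).mulVec (fun _ => 1) i) := by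
      intro b'
      rw [sum_eq_single i]
      · simp [HC, H, implBlk_apply]
      · intro j _ hj
        simp [HC, implBlk_apply, hj.symm]
      · simp
    simp only [h3]
    rw [Fintype.sum_bool, ← h, ← hcc]
    simp only [V, if_true, Bool.false_eq_true, if_false, Matrix.one_mulVec, Bool.and_true,
      Bool.and_false, sg_false]
    ring
  rw [Fintype.sum_prod_type, Ex]
  refine sum_congr rfl fun b _ => ?_
  simp only [h2]
  rw [← sum_mul]
  congr 1
  have h4 := sum_vec_sq (fun v => x (emb v)) (Fin.last m)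
  simp only [Fin.val_last] at h4
  have h5 : ∀ i : Cube n, ((1 / 2) / rt n *
        (1 + sg b * (vec (fun v => (sg (x (emb v)) : ℝ)) (Fin.last m) i / rt n ^ m))) ^ 2
      = 1 / (4 * rt n ^ 2) + sg b / (2 * rt n ^ (m + 2))
          * vec (fun v => (sg (x (emb v)) : ℝ)) (Fin.last m) i
        + 1 / (4 * (rt n ^ 2) ^ (m + 1))
          * vec (fun v => (sg (x (emb v)) : ℝ)) (Fin.last m) i ^ 2 := by
    intro i
    cases b <;> simp only [sg_true, sg_false] <;> field_simp <;> ring
  simp only [h5]
  rw [sum_add_distrib, sum_add_distrib, ← mul_sum, ← mul_sum, h4, sum_const, card_univ,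
    nsmul_eq_mul, hcard, hr2]
  unfold forr forrI
  field_simp
  ring

/-- Computing an address by majority votes of Hadamard tests. -/
theorem addr_sampler {I : Type} (c T n m : ℕ) (hT : 1 ≤ T)
    (emb : Fin c × Fin T → Fin (m + 1) × Cube n → I) :
    ∃ P : (I → Bool) → (Cube c → ℝ) → ℝ, Samp (c * T * (m + 1)) P ∧
      ∀ (x : I → Bool) (ℓ : Cube c) (θ : ℝ), 0 < θ →
        (∀ s, T * θ / 2 ≤ sg (ℓ s) * ∑ τ, forr (fun v => x (emb (s, τ) v))) →
        1 - 4 * c / (T * θ ^ 2) ≤ P x (fun ℓ' => ind (ℓ' = ℓ)) := by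
  let w : Fin c × Fin T → (I → Bool) → Bool → ℝ :=
    fun κ x b => (1 + sg b * forr (fun v => x (emb κ v))) / 2
  have h1 := (Samp.pi w fun κ => hadamard_test n m (emb κ)).map
    (fun (β : Fin c × Fin T → Bool) (s : Fin c) => decide (∑ τ, (sg (β (s, τ)) : ℝ) < 0))
  simp only [Fintype.card_prod, Fintype.card_fin] at h1
  refine ⟨_, h1, fun x ℓ θ hθ hs => ?_⟩
  have hw : ∀ κ, IsW (w κ x) := fun κ => isW_test _ (abs_forr_le_one _)
  have hP := isProb_Ex (isW_piW hw)
  have hT' : (0 : ℝ) < T := by exact_mod_cast hT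
  have hsum : ∀ (s : Fin c) (F : Fin c × Fin T → ℝ),
      ∑ κ ∈ ({s} ×ˢ univ : Finset (Fin c × Fin T)), F κ = ∑ τ, F (s, τ) := by
    intro s F
    rw [sum_product, sum_singleton]
  have hbad : ∀ s : Fin c, Ex (piW fun κ => w κ x)
      (fun β => ind (∑ τ, (sg (ℓ s) : ℝ) * sg (β (s, τ)) ≤ 0)) ≤ 4 / (T * θ ^ 2) := by
    intro s
    have h2 := cheb (fun κ => w κ x) hw (fun _ b => sg (ℓ s) * sg b)
      (fun _ b => by rw [abs_mul, abs_sg, abs_sg, mul_one]) ({s} ×ˢ univ) (T * θ / 2) (T * θ / 2)
      (by positivity) (by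
        rw [hsum]
        simp only [w, Ex_test]
        rw [← mul_sum]
        exact hs s)
    simp only [hsum, sub_self] at h2
    refine h2.trans (le_of_eq ?_)
    simp only [card_product, card_singleton, card_univ, Fintype.card_fin, one_mul]
    field_simp
    ring
  have hpt : ∀ β : Fin c × Fin T → Bool,
      1 - ∑ s, ind (∑ τ, (sg (ℓ s) : ℝ) * sg (β (s, τ)) ≤ 0)
        ≤ ind ((fun s => decide (∑ τ, (sg (β (s, τ)) : ℝ) < 0)) = ℓ) := by
    intro β
    have h0 : ∀ s ∈ (univ : Finset (Fin c)),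
        0 ≤ ind (∑ τ, (sg (ℓ s) : ℝ) * sg (β (s, τ)) ≤ 0) := fun s _ => ind_nonneg _
    by_cases hb : ∃ s, ∑ τ, (sg (ℓ s) : ℝ) * sg (β (s, τ)) ≤ 0
    · obtain ⟨s, hs⟩ := hb
      have h3 := single_le_sum h0 (mem_univ s)
      rw [ind_of hs] at h3
      have := ind_nonneg ((fun s => decide (∑ τ, (sg (β (s, τ)) : ℝ) < 0)) = ℓ)
      linarith
    · push Not at hb
      rw [ind_of (p := _ = ℓ)]
      · have := sum_nonneg h0
        linarith
      · funext s
        have h3 := hb s
        rw [← mul_sum] at h3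
        cases hl : ℓ s
        · rw [hl] at h3
          simp only [sg_false, one_mul] at h3
          simp [h3.le]
        · rw [hl] at h3
          simp only [sg_true] at h3
          simp only [decide_eq_true_eq]
          linarith
  refine le_trans ?_ (hP.mono hpt)
  rw [hP.sub, hP.const, hP.sum]
  have h4 := sum_le_sum fun s (_ : s ∈ (univ : Finset (Fin c))) => hbad s
  rw [sum_const, card_univ, Fintype.card_fin, nsmul_eq_mul] at h4
  have h5 : (c : ℝ) * (4 / (T * θ ^ 2)) = 4 * c / (T * θ ^ 2) := by ring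
  linarith

end Crest.Agent.R350
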