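import Crest.Agent.R350.Amp

set_option autoImplicit false

namespace Crest.Agent.R350

open Finset

namespace Tourn

variable {I M Y : Type}

/-- `z` survives the pivot `y`. -/
def surv (it : Y → M) (bt : Y → M → Bool) (z y : Y) : Prop :=
  it z = it y ∨ (bt y (it z) = false ∧ bt z (it y) = true)

/-- `z` survives all pivots of the list. -/
def survL (it : Y → M) (bt : Y → M → Bool) (z : Y) (l : List Y) : Prop :=
  ∀ y ∈ l, surv it bt z y

lemma survL_cons (it : Y → M) (bt : Y → M → Bool) (z y : Y) (l : List Y) :
    survL it bt z (y :: l) ↔ survL it bt z l ∧ surv it bt z y := by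
  simp [survL, and_comm]

lemma ind_and (p q : Prop) : ind (p ∧ q) = ind p * ind q := by
  by_cases hp : p <;> by_cases hq : q <;> simp [ind, hp, hq]

lemma dt_surv {c₁ : ℕ} (it : Y → M) {beat : (I → Bool) → Y → M → Bool}
    (hbeat : ∀ y a, DT c₁ (fun x => beat x y a)) (z y : Y) :
    DT (2 * c₁) (fun x => surv it (beat x) z y) := by
  rw [two_mul]
  exact (hbeat y (it z)).map₂ (hbeat z (it y)) (fun b b' => it z = it y ∨ (b = false ∧ b' = true))

lemma dt_survL {c₁ : ℕ} (it : Y → M) {beat : (I → Bool) → Y → M → Bool}
    (hbeat : ∀ y a, DT c₁ (fun x => beat x y a)) (z : Y) (l : List Y) :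
    DT (l.length * (2 * c₁)) (fun x => survL it (beat x) z l) := by
  induction l with
  | nil => exact (DT.const _ True).congr fun x => by simp [survL]
  | cons y l ih =>
    rw [List.length_cons, Nat.succ_mul]
    exact (ih.map₂ (dt_surv it hbeat z y) And).congr fun x => propext (survL_cons ..).symm

/-- One round: amplify the survivors. -/
lemma round {q₀ c₁ : ℕ} (it : Y → M) {P : (I → Bool) → (Y → ℝ) → ℝ} (hP : Samp q₀ P)
    {beat : (I → Bool) → Y → M → Bool} (hbeat : ∀ y a, DT c₁ (fun x => beat x y a)) {T : ℕ}
    (hT : 1 ≤ T) (l : List Y) :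
    ∃ P' : (I → Bool) → (Y → ℝ) → ℝ, Samp (2 * T * (q₀ + l.length * (2 * c₁))) P' ∧
      ∀ x, ∃ α β : ℝ, 0 ≤ α ∧ 0 ≤ β ∧
        (∀ g, P' x g = α * P x (fun z => ind (survL it (beat x) z l) * g z) +
          β * P x (fun z => ind (¬survL it (beat x) z l) * g z)) ∧
        (1 ≤ (T : ℝ) ^ 2 * P x (fun z => ind (survL it (beat x) z l)) →
          1 / 8 ≤ α * P x (fun z => ind (survL it (beat x) z l))) := by
  have h1 := hP.bind (fun z => Samp.ofDT ((dt_survL it hbeat z l).map fun p => (z, p)))
  obtain ⟨P', h2, h3⟩ := h1.amp (fun a : Y × Prop => a.2) T hT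
  refine ⟨_, h2.map Prod.fst, fun x => ?_⟩
  obtain ⟨α, β, hα, hβ, h4, h5⟩ := h3 x
  exact ⟨α, β, hα, hβ, fun g => h4 _, h5⟩

lemma surv_add_le (it : Y → M) (bt : Y → M → Bool) (z y : Y) :
    ind (surv it bt z y) + ind (surv it bt y z) ≤ 1 + ind (it z = it y) := by
  by_cases h : it z = it y
  · rw [ind_of h]; linarith [ind_le_one (surv it bt z y), ind_le_one (surv it bt y z)]
  · rw [ind_of_not h]
    by_cases h1 : surv it bt z y
    · have h2 : ¬surv it bt y z := by
        rintro (h2 | h2)
        · exact h h2.symm
        · rcases h1 with h1 | h1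
          · exact h h1
          · rw [h1.1] at h2; exact absurd h2.2 (by simp)
      rw [ind_of h1, ind_of_not h2]
    · rw [ind_of_not h1]; linarith [ind_le_one (surv it bt y z)]

/-- A random survivor other than the champion eliminates a quarter of the survivors. -/
lemma double_sum {p : (Y → ℝ) → ℝ} (hp : IsProb p) (it : Y → M) (bt : Y → M → Bool) {G : Y → Prop}
    {ch : Y} (hch : G ch) (hit : ∀ a, p (fun y => ind (it y = a)) ≤ 2 * p (fun y => ind (y = ch))) :
    p (fun y => ind (G y) * (ind (¬y = ch) * p (fun z => ind (G z ∧ surv it bt z y)))) ≤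
      3 / 4 * p (fun z => ind (G z)) ^ 2 := by
  set u : Y → ℝ := fun y => ind (G y) * ind (¬y = ch) with hu
  set w := p (fun y => ind (y = ch)) with hw
  set W' := p u with hW'
  have hu0 : ∀ y, 0 ≤ u y := fun y => mul_nonneg (ind_nonneg _) (ind_nonneg _)
  have hu1 : ∀ y, u y ≤ 1 := fun y => mul_le_one₀ (ind_le_one _) (ind_nonneg _) (ind_le_one _)
  have hG : ∀ z, ind (G z) = u z + ind (z = ch) := fun z => by
    by_cases h : z = ch
    · subst h; simp [hu, hch, ind]
    · simp [hu, ind, h]
  have hW : p (fun z => ind (G z)) = W' + w := by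
    simp only [hG]; exact hp.add _ _
  set D := p (fun y => p (fun z => u y * u z * ind (surv it bt z y))) with hD
  have hD' : D = p (fun y => p (fun z => u y * u z * ind (surv it bt y z))) := by
    rw [hD, hp.swap hp]
    simp only [mul_comm (u _) (u _)]
  have h2D : 2 * D ≤ W' * W' + W' * (2 * w) := by
    calc 2 * D = p (fun y => p (fun z => u y * u z * ind (surv it bt z y)) +
          p (fun z => u y * u z * ind (surv it bt y z))) := by rw [hp.add, ← hD, ← hD']; ring
      _ ≤ p (fun y => u y * W' + u y * (2 * w)) := by
          refine hp.mono fun y => ?_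
          rw [← hp.add]
          calc _ ≤ p (fun z => u y * u z + u y * ind (it z = it y)) := by
                refine hp.mono fun z => ?_
                have h1 := surv_add_le it bt z y
                have h2 := mul_nonneg (hu0 y) (hu0 z)
                have h3 := mul_le_mul_of_nonneg_left h1 h2
                have h4 := mul_nonneg (mul_nonneg (hu0 y) (sub_nonneg.2 (hu1 z)))
                  (ind_nonneg (it z = it y))
                nlinarith
            _ = u y * W' + u y * p (fun z => ind (it z = it y)) := by
                rw [hp.add, hp.const_mul, hp.const_mul]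
            _ ≤ _ := by
                have := mul_le_mul_of_nonneg_left (hit (it y)) (hu0 y)
                linarith
      _ = _ := by rw [hp.add, hp.mul_const, hp.mul_const]
  have hmain : p (fun y => ind (G y) * (ind (¬y = ch) * p (fun z => ind (G z ∧ surv it bt z y))))
      ≤ D + W' * w := by
    rw [hD, hW', ← hp.mul_const, ← hp.add]
    refine hp.mono fun y => ?_
    rw [← mul_assoc, ← hp.const_mul, hw, ← hp.const_mul, ← hp.add]
    refine hp.mono fun z => ?_
    rw [ind_and, hG z]
    have h4 := mul_nonneg (mul_nonneg (hu0 y) (ind_nonneg (z = ch)))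
      (sub_nonneg.2 (ind_le_one (surv it bt z y)))
    change u y * _ ≤ _
    nlinarith
  rw [hW]
  nlinarith [sq_nonneg (W' - w), sq_nonneg w]

end Tourn

open Tourn in
/-- Finding the champion of a tournament by repeated amplitude amplification. -/
theorem tournament {I M Y : Type} (it : Y → M) (q₀ c₁ qv T R : ℕ) (N ε : ℝ) (hN : 0 < N)
    (P : (I → Bool) → (Y → ℝ) → ℝ) (hP : Samp q₀ P)
    (hit : ∀ x a, P x (fun y => ind (it y = a)) ≤ 1 / N)
    (beat : (I → Bool) → Y → M → Bool) (hbeat : ∀ y a, DT c₁ (fun x => beat x y a))
    (valid : (I → Bool) → Y → Prop)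
    (hval₁ : ∀ x y, valid x y → ∀ a, a ≠ it y → beat x y a = true)
    (hval₂ : ∀ x y, valid x y → ∀ y', beat x y' (it y) = false)
    (hval₃ : ∀ x y, valid x y → 1 / (2 * N) ≤ P x (fun y' => ind (y' = y)))
    (Ver : Y → (I → Bool) → (Bool → ℝ) → ℝ) (hVer : ∀ y, Samp qv (Ver y))
    (hV₁ : ∀ x y, valid x y → Ver y x (fun b => ind (b = true)) = 1)
    (hV₀ : ∀ x y, ¬valid x y → Ver y x (fun b => ind (b = true)) ≤ ε)
    (hT₁ : 1 ≤ T) (hT : 2 * N ≤ (T : ℝ) ^ 2) (hR : (31 / 32 : ℝ) ^ R * (2 * N) ≤ 1 / 3)
    (hε : R * ε ≤ 1 / 3) (F : (I → Bool) → Bool) (hF : ∀ x, F x = true ↔ ∃ y, valid x y) :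
    ∃ P' : (I → Bool) → (Bool → ℝ) → ℝ, Samp (R * (2 * T * (q₀ + R * (2 * c₁)) + qv)) P' ∧
      ∀ x, 2 / 3 ≤ P' x fun b => ind (b = F x) := by
  have hsurv : ∀ x ch, valid x ch → ∀ l, survL it (beat x) ch l := by
    intro x ch hch l y _
    by_cases h : it ch = it y
    · exact Or.inl h
    · exact Or.inr ⟨hval₂ x ch hch y, hval₁ x ch hch _ (Ne.symm h)⟩
  have hWlow : ∀ x ch, valid x ch → ∀ l,
      1 ≤ P x (fun z => ind (survL it (beat x) z l)) * (2 * N) := by
    intro x ch hch l
    have h1 : P x (fun y' => ind (y' = ch)) ≤ P x (fun z => ind (survL it (beat x) z l)) :=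
      (hP.isProb x).mono fun z => ind_mono fun h => h ▸ hsurv x ch hch l
    exact (div_le_iff₀ (by positivity)).1 ((hval₃ x ch hch).trans h1)
  have key : ∀ (r : ℕ) (l : List Y), l.length + r ≤ R →
      ∃ A : (I → Bool) → (Bool → ℝ) → ℝ, Samp (r * (2 * T * (q₀ + R * (2 * c₁)) + qv)) A ∧
        ∀ x, ((¬∃ y, valid x y) → A x (fun b => ind (b = true)) ≤ r * ε) ∧
          ((∃ y, valid x y) → A x (fun b => ind (¬b = true)) ≤
            (31 / 32) ^ r * (P x (fun z => ind (survL it (beat x) z l)) * (2 * N))) := by
    intro r
    induction r with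
    | zero =>
      intro l _
      refine ⟨_, (Samp.pure false).mono (Nat.zero_le _), fun x => ⟨fun _ => ?_, ?_⟩⟩
      · simp [ind]
      · rintro ⟨ch, hch⟩
        simpa [ind_of] using hWlow x ch hch l
    | succ r ih =>
      intro l hl
      choose A hA hA' using fun y => ih (y :: l) (by rw [List.length_cons]; omega)
      obtain ⟨Rd, hRd, hRd'⟩ := round it hP hbeat hT₁ l
      have h1 := hRd.bind (fun y => (hVer y).bind
        (q' := r * (2 * T * (q₀ + R * (2 * c₁)) + qv))
        (P' := fun (b : Bool) x (g : Bool → ℝ) => if b then g true else A y x g) (fun b => by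
          cases b
          · simpa using hA y
          · simpa using (Samp.pure true).mono (Nat.zero_le _)))
      refine ⟨_, h1.mono ?_, fun x => ⟨fun hno => ?_, ?_⟩⟩
      · have h2 : l.length * (2 * c₁) ≤ R * (2 * c₁) := Nat.mul_le_mul_right _ (by omega)
        have h3 : 2 * T * (q₀ + l.length * (2 * c₁)) ≤ 2 * T * (q₀ + R * (2 * c₁)) :=
          Nat.mul_le_mul_left _ (by omega)
        rw [Nat.succ_mul r]
        omega
      · refine (hRd.isProb x).le_const fun y => ?_
        have hv := (hVer y).isProb x
        have h2 := hV₀ x y (fun h => hno ⟨y, h⟩)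
        have h3 : 0 ≤ ε := (hv.nonneg fun b => ind_nonneg _).trans h2
        have h4 := (hA' y x).1 hno
        calc _ ≤ Ver y x (fun b => ind (b = true) + r * ε) := by
              refine hv.mono fun b => ?_
              cases b
              · simpa [ind] using h4
              · simp only [if_true]
                have : (0 : ℝ) ≤ r * ε := by positivity
                linarith
          _ ≤ _ := by rw [hv.add, hv.const]; push_cast; linarith
      · rintro ⟨ch, hch⟩
        have hp := hP.isProb x
        obtain ⟨α, β, hα, hβ, hg, hα8⟩ := hRd' x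
        set W := P x (fun z => ind (survL it (beat x) z l)) with hW
        have hW1 := hWlow x ch hch l
        rw [← hW] at hW1
        have hW0 : 0 ≤ W := hp.nonneg fun _ => ind_nonneg _
        have hα8' : 1 / 8 ≤ α * W := hα8 (by nlinarith)
        have hsum : α * W + β * (1 - W) = 1 := by
          have h2 := hg (fun _ => 1)
          rw [(hRd.isProb x).const] at h2
          simp only [mul_one] at h2
          rw [hp.ind_not] at h2
          exact h2.symm
        set h : Y → ℝ := fun y => ind (¬y = ch) *
          P x (fun z => ind (survL it (beat x) z l ∧ surv it (beat x) z y)) with hh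
        have hstep : Rd x h ≤ 31 / 32 * W := by
          have h2 : P x (fun y => ind (survL it (beat x) y l) * h y) ≤ 3 / 4 * W ^ 2 :=
            double_sum hp it (beat x) (hsurv x ch hch l) (fun a => by
              have h3 := hval₃ x ch hch
              have h4 : 1 / N = 2 * (1 / (2 * N)) := by field_simp
              linarith [hit x a])
          have h3 : P x (fun y => ind (¬survL it (beat x) y l) * h y) ≤ (1 - W) * W := by
            rw [hW, ← hp.ind_not, ← hp.mul_const]
            refine hp.mono fun y => mul_le_mul_of_nonneg_left ?_ (ind_nonneg _)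
            calc h y ≤ 1 * P x (fun z => ind (survL it (beat x) z l ∧ surv it (beat x) z y)) :=
                  mul_le_mul_of_nonneg_right (ind_le_one _) (hp.nonneg fun _ => ind_nonneg _)
              _ ≤ _ := by rw [one_mul]; exact hp.mono fun z => ind_mono And.left
          rw [hg]
          have h4 := mul_le_mul_of_nonneg_left h2 hα
          have h5 := mul_le_mul_of_nonneg_left h3 hβ
          have h6 : β * ((1 - W) * W) = (1 - α * W) * W := by
            rw [← mul_assoc, show β * (1 - W) = 1 - α * W by linarith]
          nlinarith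
        have hc : (0 : ℝ) ≤ (31 / 32) ^ r * (2 * N) := by positivity
        calc _ ≤ Rd x (fun y => ((31 / 32) ^ r * (2 * N)) * h y) := by
              refine (hRd.isProb x).mono fun y => ?_
              have hv := (hVer y).isProb x
              have h2 := (hA' y x).2 ⟨ch, hch⟩
              simp only [survL_cons] at h2
              have h3 : Ver y x (fun b => if b then ind (¬true = true)
                  else A y x (fun b => ind (¬b = true))) =
                  A y x (fun b => ind (¬b = true)) * (1 - Ver y x (fun b => ind (b = true))) := by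
                rw [← hv.ind_not, ← hv.const_mul]
                congr 1; funext b
                cases b <;> simp [ind]
              rw [h3]
              by_cases hy : y = ch
              · subst hy
                rw [hV₁ x y hch]
                simp [hh, ind]
              · have h4 : 0 ≤ A y x (fun b => ind (¬b = true)) :=
                  ((hA y).isProb x).nonneg fun _ => ind_nonneg _
                have h5 : 0 ≤ Ver y x (fun b => ind (b = true)) := hv.nonneg fun _ => ind_nonneg _
                simp only [hh, ind_of hy]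
                nlinarith
          _ ≤ _ := by
              rw [(hRd.isProb x).const_mul]
              have := mul_le_mul_of_nonneg_left hstep hc
              rw [pow_succ]
              linarith
  obtain ⟨A, hA, hA'⟩ := key R [] (by simp)
  refine ⟨A, hA, fun x => ?_⟩
  have hp := hA.isProb x
  by_cases h : ∃ y, valid x y
  · have h1 := (hA' x).2 h
    have h2 : P x (fun z => ind (survL it (beat x) z [])) = 1 := by
      simp only [survL, List.not_mem_nil, false_imp_iff, implies_true, ind_of trivial]
      exact (hP.isProb x).const 1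
    rw [h2, hp.ind_not, one_mul] at h1
    rw [(hF x).2 h]
    linarith
  · have h1 := (hA' x).1 h
    have h2 : F x = false := by
      cases h3 : F x
      · rfl
      · exact absurd ((hF x).1 h3) h
    have h3 := hp.ind_not (fun b => b = true)
    simp only [Bool.not_eq_true] at h3
    rw [h2, h3]
    linarith

end Crest.Agent.R350
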