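import Crest.Agent.R350.Trans
import Crest.Agent.R350.Tourn
import Crest.Agent.R350.HTest
import Crest.Agent.R350.Bridge
import Crest.Agent.R350.Direct

/-!
The total function, its quantum upper bound and its randomized lower bound (with parameters).
-/

set_option autoImplicit false

namespace Crest.Agent.R350

open Finset Crest.MathPhysics.Query

/-- Copies of Forrelation inside an item: `T` for each address bit. -/
abbrev Cpy (n T : ℕ) : Type := Fin n × Fin T
/-- Puzzle variables of an item. -/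
abbrev Puz (n m T : ℕ) : Type := Cpy n T × (Fin (m + 1) × Cube n)
/-- Bits of a cell: pointers and transcripts. -/
abbrev Cell (n m T b : ℕ) : Type := (Cube n × Fin n) ⊕ ((Cpy n T × Gate n m) × Fin b)
/-- All variables. -/
abbrev Var (n m T b : ℕ) : Type := Cube n × (Cube n ⊕ Puz n m T ⊕ (Cube n × Cell n m T b))
/-- Local checks. -/
abbrev Chk (n m T : ℕ) : Type := Cube n ⊕ Cube n ⊕ (Cpy n T × Gate n m) ⊕ Fin n

variable {n m T b : ℕ}

/-- The pointer of cell `y` into column `a` hits a zero. -/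
def beat (x : Var n m T b → Bool) (y : Cube n × Cube n) (a : Cube n) : Bool :=
  !x (a, .inl fun t => x (y.1, .inr (.inr (y.2, .inl (a, t)))))

/-- The number stored in cell `y` for a gate of a copy. -/
noncomputable def num (y : Cube n × Cube n) (cp : Cpy n T) (g : Gate n m)
    (x : Var n m T b → Bool) : ℤ :=
  dec b fun t => x (y.1, .inr (.inr (y.2, .inr ((cp, g), t))))

/-- The promise for the address `ℓ`. -/
def Prom (θ : ℝ) (ℓ : Cube n) (z : Puz n m T → Bool) : Prop :=
  ∀ s, T * θ / 2 ≤ sg (ℓ s) * ∑ τ, forr (fun v => z ((s, τ), v))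

open Classical in
/-- The local checks of the candidate `y`. -/
noncomputable def chk (θ : ℝ) (y : Cube n × Cube n) : Chk n m T → (Var n m T b → Bool) → Bool
  | .inl l => fun x => x (y.1, .inl l)
  | .inr (.inl a) => fun x => decide (a = y.1) || beat x y a
  | .inr (.inr (.inl (cp, g))) => fun x =>
      decide (num y cp g x = rule (fun g => num y cp g x) (fun v => x (y.1, .inr (.inl (cp, v)))) g)
  | .inr (.inr (.inr s)) => fun x =>
      decide (T * θ / 2 * rt n ^ (m + 2) ≤
        sg (y.2 s) * ∑ τ, (num y (s, τ) (outGate n m) x : ℝ))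

/-- Valid candidates. -/
def valid (θ : ℝ) (x : Var n m T b → Bool) (y : Cube n × Cube n) : Prop :=
  ∀ κ : Chk n m T, chk θ y κ x = true

open Classical in
/-- The total function. -/
noncomputable def FF (n m T b : ℕ) (θ : ℝ) (x : Var n m T b → Bool) : Bool :=
  decide (∃ y, valid θ x y)

lemma FF_iff (θ : ℝ) (x : Var n m T b → Bool) : FF n m T b θ x = true ↔ ∃ y, valid θ x y := by
  simp [FF]

lemma dt_beat (y : Cube n × Cube n) (a : Cube n) :
    DT (n + 1) (fun x : Var n m T b → Bool => beat x y a) := by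
  have h1 := DT.tuple (I := Var n m T b) (fun t : Fin n => (y.1, .inr (.inr (y.2, .inl (a, t)))))
  rw [Fintype.card_fin] at h1
  exact h1.bind (g := fun l x => !x (a, .inl l)) fun l => (DT.read _).map fun c => !c

lemma dt_num (y : Cube n × Cube n) (cp : Cpy n T) (g : Gate n m) :
    DT b (num (b := b) y cp g) := by
  have h1 := DT.tuple (I := Var n m T b)
    (fun t : Fin b => (y.1, .inr (.inr (y.2, .inr ((cp, g), t)))))
  rw [Fintype.card_fin] at h1
  exact h1.map (dec b)

lemma dt_chk (θ : ℝ) (y : Cube n × Cube n) (κ : Chk n m T) :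
    DT (n + 2 + 3 * b + T * b) (chk (b := b) θ y κ) := by
  classical
  rcases κ with l | a | ⟨cp, g⟩ | s
  · exact (DT.read _).mono (by omega)
  · exact ((dt_beat y a).map fun c => decide (a = y.1) || c).mono (by omega)
  · exact ((dt_num y cp g).map₂ (dt_rule (num y cp) (dt_num y cp)
      (fun v => ((y.1, .inr (.inl (cp, v))) : Var n m T b)) g) fun u w => decide (u = w)).mono
      (by omega)
  · have h1 := DT.pi (fun τ : Fin T => num (b := b) y (s, τ) (outGate n m))
      fun τ => dt_num y (s, τ) _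
    rw [Fintype.card_fin] at h1
    exact (h1.map fun w : Fin T → ℤ => decide (T * θ / 2 * rt n ^ (m + 2) ≤
        sg (y.2 s) * ∑ τ, (w τ : ℝ))).mono (by omega)

lemma valid.col {θ : ℝ} {x : Var n m T b → Bool} {y : Cube n × Cube n} (h : valid θ x y)
    (l : Cube n) : x (y.1, .inl l) = true := h (.inl l)

lemma valid.beat {θ : ℝ} {x : Var n m T b → Bool} {y : Cube n × Cube n} (h : valid θ x y)
    (a : Cube n) (ha : a ≠ y.1) : beat x y a = true := by
  simpa [chk, ha] using h (.inr (.inl a))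

lemma valid.prom {θ : ℝ} {x : Var n m T b → Bool} {y : Cube n × Cube n} (h : valid θ x y) :
    Prom θ y.2 (fun w => x (y.1, .inr (.inl w))) := by
  intro s
  have h1 : ∀ cp g, num y cp g x = tval (fun v => x (y.1, .inr (.inl (cp, v)))) g := fun cp =>
    eq_tval _ (fun g => num y cp g x) fun g => by simpa [chk] using h (.inr (.inr (.inl (cp, g))))
  have h2 := h (.inr (.inr (.inr s)))
  simp only [chk, decide_eq_true_eq, h1, tval_out] at h2
  rw [← sum_mul, ← mul_assoc] at h2
  exact le_of_mul_le_mul_right h2 (pow_pos (rt_pos n) _)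

lemma FF_zero (θ : ℝ) (x : Var n m T b → Bool) (hx : ∀ a, ∃ l, x (a, .inl l) = false) :
    FF n m T b θ x = false := by
  rw [← Bool.not_eq_true, FF_iff]
  rintro ⟨y, hy⟩
  obtain ⟨l, hl⟩ := hx y.1
  rw [hy.col l] at hl
  exact absurd hl (by simp)

lemma FF_one (hb : n * (m + 1) + 2 ≤ b) (θ : ℝ) (x : Var n m T b → Bool) (j ℓ : Cube n)
    (h₁ : ∀ a, a ≠ j → ∃ l, x (a, .inl l) = false) (h₂ : ∀ l, x (j, .inl l) = true)
    (h₃ : Prom θ ℓ (fun w => x (j, .inr (.inl w)))) :
    ∃ x', FF n m T b θ x' = true ∧ ∀ v, (∀ c, v ≠ (j, .inr (.inr (ℓ, c)))) → x' v = x v := by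
  classical
  have h₁' : ∀ a, ∃ l, a ≠ j → x (a, .inl l) = false := fun a => by
    by_cases ha : a = j
    · exact ⟨a, fun h => absurd ha h⟩
    · obtain ⟨l, hl⟩ := h₁ a ha
      exact ⟨l, fun _ => hl⟩
  choose ptr hptr using h₁'
  have h₄ : ∀ p : Cpy n T × Gate n m, ∃ β,
      dec b β = tval (fun v => x (j, .inr (.inl (p.1, v)))) p.2 := fun p =>
    exists_dec b _ hb _ (abs_tval_le _ _)
  choose enc henc using h₄
  let cell : Cell n m T b → Bool := Sum.elim (fun p => ptr p.1 p.2) (fun p => enc p.1 p.2)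
  let x' : Var n m T b → Bool := fun v =>
    Sum.elim (fun _ => x v) (Sum.elim (fun _ => x v)
      (fun p => if v.1 = j ∧ p.1 = ℓ then cell p.2 else x v)) v.2
  have e₁ : ∀ a l, x' (a, .inl l) = x (a, .inl l) := fun _ _ => rfl
  have e₂ : ∀ a w, x' (a, .inr (.inl w)) = x (a, .inr (.inl w)) := fun _ _ => rfl
  have e₃ : ∀ c, x' (j, .inr (.inr (ℓ, c))) = cell c := fun c => by simp [x']
  have e₄ : ∀ cp g, num (j, ℓ) cp g x' = tval (fun v => x (j, .inr (.inl (cp, v)))) g := by
    intro cp g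
    simp only [num, e₃, cell, Sum.elim_inr]
    exact henc (cp, g)
  refine ⟨x', (FF_iff θ x').2 ⟨(j, ℓ), ?_⟩, ?_⟩
  · rintro (l | a | ⟨cp, g⟩ | s)
    · exact h₂ l
    · by_cases ha : a = j
      · simp [chk, ha]
      · simp only [chk, beat, e₁, e₃, cell, Sum.elim_inl, Bool.or_eq_true, decide_eq_true_eq]
        right
        rw [hptr a ha]; rfl
    · simp only [chk, decide_eq_true_eq, e₄, e₂]
      exact tval_rule _ _
    · simp only [chk, decide_eq_true_eq, e₄, tval_out]
      rw [← sum_mul, ← mul_assoc]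
      exact mul_le_mul_of_nonneg_right (h₃ s) (pow_pos (rt_pos n) _).le
  · rintro ⟨a, l | w | ⟨ℓ', c⟩⟩ hv
    · rfl
    · rfl
    · simp only [x', Sum.elim_inr]
      rw [if_neg]
      rintro ⟨rfl, rfl⟩
      exact hv c rfl

lemma card_cube (n : ℕ) : Fintype.card (Cube n) = 2 ^ n := by simp

/-- The quantum upper bound. -/
theorem quantum_upper (n m T b Tg Tv R ρ : ℕ) (θ : ℝ) (hθ : 0 < θ) (hT : 1 ≤ T)
    (h8 : 8 * n ≤ T * θ ^ 2) (hTg : 2 * 2 ^ n ≤ Tg ^ 2)
    (hTv : Fintype.card (Chk n m T) ≤ Tv ^ 2) (hR : (31 / 32 : ℝ) ^ R * (2 * 2 ^ n) ≤ 1 / 3)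
    (hρ : R * (7 / 8 : ℝ) ^ ρ ≤ 1 / 3) {n' : ℕ} (e : Fin n' ≃ Var n m T b) :
    QuantumComputes (fun y : Fin n' → Bool => FF n m T b θ fun i => y (e.symm i))
      (R * (2 * Tg * (n * T * (m + 1) + R * (2 * (n + 1)))
        + ρ * (2 * Tv * (n + 2 + 3 * b + T * b)))) := by
  classical
  have hA := fun a : Cube n => addr_sampler (I := Var n m T b) n T n m hT
    fun cp v => (a, .inr (.inl (cp, v)))
  choose PA hPA hPA' using hA
  have hV := fun y : Cube n × Cube n =>
    verify (n + 2 + 3 * b + T * b) Tv ρ (chk (b := b) (T := T) (m := m) θ y) (dt_chk θ y) hTv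
  choose Ver hVer hVer' using hV
  have hu := isW_unif (Cube n)
  have hP := (Samp.const (I := Var n m T b) hu).bind fun a => (hPA a).map fun ℓ => (a, ℓ)
  rw [zero_add] at hP
  have hN : (0 : ℝ) < 2 ^ n := by positivity
  have hTg₁ : 1 ≤ Tg := by
    rcases Nat.eq_zero_or_pos Tg with rfl | h
    · have : 0 < 2 * 2 ^ n := by positivity
      omega
    · exact h
  have key : ∀ (x : Var n m T b → Bool) (a : Cube n) (G : Cube n × Cube n → Prop),
      (∀ y, G y → y.1 = a) →
      Ex (fun _ : Cube n => ((Fintype.card (Cube n) : ℝ))⁻¹)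
        (fun a' => PA a' x fun ℓ => ind (G (a', ℓ))) = 1 / 2 ^ n * PA a x fun ℓ => ind (G (a, ℓ)) := by
    intro x a G hG
    unfold Ex
    rw [Finset.sum_eq_single a]
    · rw [card_cube]; simp
    · intro a' _ ha'
      have : (fun ℓ => ind (G (a', ℓ))) = fun _ => (0 : ℝ) :=
        funext fun ℓ => ind_of_not fun h => ha' (hG _ h)
      beta_reduce
      rw [this, ((hPA a').isProb x).const, mul_zero]
    · simp
  obtain ⟨P', hP', hP''⟩ := tournament (I := Var n m T b) (fun y : Cube n × Cube n => y.1)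
    (n * T * (m + 1)) (n + 1) _ Tg R (2 ^ n) ((7 / 8) ^ ρ) hN _ hP
    (fun x a => by
      rw [key x a (fun y => y.1 = a) fun _ h => h]
      have := ((hPA a).isProb x).le_const (f := fun ℓ => ind ((a, ℓ).1 = a)) fun _ => ind_le_one _
      exact mul_le_of_le_one_right (by positivity) this)
    beat dt_beat (valid θ) (fun x y hy a ha => hy.beat a ha)
    (fun x y hy y' => by simp [beat, hy.col])
    (fun x y hy => by
      rw [key x y.1 (fun y' => y' = y) fun _ h => by rw [h]]
      have h1 := hPA' y.1 x y.2 θ hθ hy.prom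
      have h2 : (fun ℓ => ind ((y.1, ℓ) = y)) = fun ℓ => ind (ℓ = y.2) :=
        funext fun ℓ => ind_congr ⟨fun h => by rw [← h], fun h => by rw [h]⟩
      rw [h2]
      have hTθ : (0 : ℝ) < T * θ ^ 2 := by
        have : (0 : ℝ) < T := by exact_mod_cast hT
        positivity
      have h3 : 4 * (n : ℝ) / (T * θ ^ 2) ≤ 1 / 2 := by
        rw [div_le_iff₀ hTθ]; linarith
      calc 1 / (2 * (2 : ℝ) ^ n) = 1 / 2 ^ n * (1 / 2) := by field_simp
        _ ≤ _ := mul_le_mul_of_nonneg_left (by linarith) (by positivity))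
    Ver hVer (fun x y hy => (hVer' y x).1 hy) (fun x y hy => (hVer' y x).2 hy) hTg₁
    (by exact_mod_cast hTg) hR hρ (FF n m T b θ) (FF_iff θ)
  exact hP'.quantumComputes e _ hP''

/-- The randomized lower bound. -/
theorem random_lower (n m T b s : ℕ) (θ ε : ℝ) (hθ : 0 < θ) (hT : 1 ≤ T) (hs : 1 ≤ s)
    (hb : n * (m + 1) + 2 ≤ b) (h40 : 40 * n ≤ T * θ ^ 2)
    (D : Bool → (Fin (m + 1) × Cube n → Bool) → ℝ) (hD : ∀ c, IsW (D c))
    (hmean : ∀ c, θ ≤ Ex (D c) fun x => sg c * forr x)
    (hind : ∀ g : (Fin (m + 1) × Cube n → Bool) → ℝ, DT s g → (∀ x, |g x| ≤ 1) →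
      |Ex (D false) g - Ex (D true) g| ≤ ε)
    {n' : ℕ} (e : Fin n' ≃ Var n m T b) (r : ℕ)
    (hr : RandomizedComputes (fun y : Fin n' → Bool => FF n m T b θ fun i => y (e.symm i)) r) :
    (3 / 10 : ℝ) ≤ r / (2 ^ n * s) + s / 2 ^ n + s / 2 ^ n + n * T * ε := by
  classical
  have hε : 0 ≤ ε := (abs_nonneg _).trans (hind (fun _ => 0) (.const _ _) (by simp))
  have hTθ : (0 : ℝ) < T * θ ^ 2 := by
    have : (0 : ℝ) < T := by exact_mod_cast hT
    positivity
  have hTpos : (0 : ℝ) < T := by exact_mod_cast hT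
  have := direct_sum (M := Cube n) (L := Cube n) (Z := Puz n m T) (Λ := Cube n)
    (C := Cell n m T b) (FF n m T b θ)
    (fun ℓ => piD fun cp : Cpy n T => D (ℓ cp.1)) (fun ℓ => isW_piD fun cp => hD _)
    (piD fun _ : Cpy n T => D false) (isW_piD fun _ => hD _) s hs (n * T * ε)
    (fun ℓ g hg hg1 => by
      have := hybrid (fun cp : Cpy n T => D (ℓ cp.1)) (fun _ => D false) (fun _ => hD _)
        (fun _ => hD _) s ε (fun cp g hg hg1 => by
          cases ℓ cp.1
          · simpa using hε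
          · rw [abs_sub_comm]; exact hind g hg hg1) g hg hg1
      simp only [Fintype.card_prod, Fintype.card_fin, Nat.cast_mul] at this
      linarith [(abs_le.1 this).2])
    (Prom θ)
    (fun ℓ => by
      have hw : IsW (piW fun cp : Cpy n T => D (ℓ cp.1)) := isW_piW fun _ => hD _
      rw [Ex_piD]
      have h1 : ∀ s : Fin n, Ex (piW fun cp : Cpy n T => D (ℓ cp.1))
          (fun ω => ind (sg (ℓ s) * ∑ τ, forr (ω (s, τ)) ≤ T * θ - T * θ / 2))
            ≤ 4 / (T * θ ^ 2) := by
        intro s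
        let emb : Fin T ↪ Cpy n T := ⟨fun τ => (s, τ), fun τ τ' h => (Prod.ext_iff.1 h).2⟩
        have := cheb (fun cp : Cpy n T => D (ℓ cp.1)) (fun _ => hD _)
          (fun cp z => sg (ℓ cp.1) * forr z)
          (fun cp z => by rw [abs_mul, abs_sg, one_mul]; exact abs_forr_le_one z)
          (univ.map emb) (T * θ) (T * θ / 2) (by positivity) (by
            rw [sum_map]
            calc (T : ℝ) * θ = ∑ _τ : Fin T, θ := by simp
              _ ≤ _ := sum_le_sum fun τ _ => hmean _)
        simp only [sum_map, emb, Function.Embedding.coeFn_mk, card_map, card_univ,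
          Fintype.card_fin, ← mul_sum] at this
        refine this.trans (le_of_eq ?_)
        field_simp
        norm_num
      have h2 := (isProb_Ex hw).mono
        (f := fun ω => 1 - ∑ s : Fin n,
          ind (sg (ℓ s) * ∑ τ, forr (ω (s, τ)) ≤ T * θ - T * θ / 2))
        (g := fun ω => ind (Prom θ ℓ fun p : Puz n m T => ω p.1 p.2)) (fun ω => by
          by_cases hp : Prom θ ℓ fun p : Puz n m T => ω p.1 p.2
          · rw [ind_of hp]
            have : 0 ≤ ∑ s : Fin n,
              ind (sg (ℓ s) * ∑ τ, forr (ω (s, τ)) ≤ T * θ - T * θ / 2) :=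
                sum_nonneg fun _ _ => ind_nonneg _
            linarith
          · rw [ind_of_not hp]
            obtain ⟨s, hs⟩ := not_forall.1 hp
            have h3 := single_le_sum (f := fun s : Fin n =>
              ind (sg (ℓ s) * ∑ τ, forr (ω (s, τ)) ≤ T * θ - T * θ / 2))
              (fun _ _ => ind_nonneg _) (mem_univ s)
            rw [ind_of (by push Not at hs; linarith [hs])] at h3
            linarith)
      rw [(isProb_Ex hw).sub, (isProb_Ex hw).const, (isProb_Ex hw).sum] at h2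
      have h3 := sum_le_sum fun s (_ : s ∈ (univ : Finset (Fin n))) => h1 s
      rw [sum_const, card_univ, Fintype.card_fin, nsmul_eq_mul] at h3
      have h4 : (n : ℝ) * (4 / (T * θ ^ 2)) ≤ 1 / 10 := by
        rw [← mul_div_assoc, div_le_iff₀ hTθ]; linarith
      linarith)
    (FF_zero θ) (FF_one hb θ) e r hr
  simpa only [card_cube, Nat.cast_pow, Nat.cast_ofNat] using this

end Crest.Agent.R350
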