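import Crest.Agent.R350.Basic

set_option autoImplicit false

namespace Crest.Agent.R350

open Finset

namespace Growth

/-- Second order Taylor remainder of a power. -/
lemma rem_le (a t : ℝ) (n : ℕ) :
    |(a + t) ^ (n + 2) - a ^ (n + 2) - (n + 2) * a ^ (n + 1) * t|
      ≤ ((n : ℝ) + 2) ^ 2 * t ^ 2 * (|a| + |t|) ^ n := by
  induction n with
  | zero =>
    have : (a + t) ^ (0 + 2) - a ^ (0 + 2) - (((0 : ℕ) : ℝ) + 2) * a ^ (0 + 1) * t = t ^ 2 := by
      push_cast; ring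
    rw [this, abs_of_nonneg (sq_nonneg t)]
    push_cast
    nlinarith [sq_nonneg t]
  | succ n ih =>
    have e : (a + t) ^ (n + 1 + 2) - a ^ (n + 1 + 2) - (((n + 1 : ℕ) : ℝ) + 2) * a ^ (n + 1 + 1) * t
        = (a + t) * ((a + t) ^ (n + 2) - a ^ (n + 2) - (n + 2) * a ^ (n + 1) * t)
          + (n + 2) * a ^ (n + 1) * t ^ 2 := by
      push_cast; ring
    rw [e]
    set M := |a| + |t| with hM
    have hM0 : 0 ≤ M := by positivity
    have h1 : |a + t| ≤ M := abs_add_le a t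
    have h2 : |a| ^ (n + 1) ≤ M ^ (n + 1) :=
      pow_le_pow_left₀ (abs_nonneg a) (by rw [hM]; linarith [abs_nonneg t]) _
    have hn : (0 : ℝ) ≤ n := Nat.cast_nonneg n
    calc _ ≤ |a + t| * |(a + t) ^ (n + 2) - a ^ (n + 2) - (n + 2) * a ^ (n + 1) * t|
          + ((n : ℝ) + 2) * |a| ^ (n + 1) * t ^ 2 := by
          refine (abs_add_le _ _).trans (le_of_eq ?_)
          rw [abs_mul, abs_mul, abs_mul, abs_pow, abs_of_nonneg (sq_nonneg t),
            abs_of_nonneg (by positivity : (0 : ℝ) ≤ n + 2)]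
      _ ≤ M * (((n : ℝ) + 2) ^ 2 * t ^ 2 * M ^ n) + ((n : ℝ) + 2) * M ^ (n + 1) * t ^ 2 := by
          gcongr
      _ = (((n : ℝ) + 2) ^ 2 + (n + 2)) * (t ^ 2 * M ^ (n + 1)) := by ring
      _ ≤ ((((n + 1 : ℕ) : ℝ) + 2) ^ 2) * (t ^ 2 * M ^ (n + 1)) := by
          gcongr
          push_cast
          nlinarith
      _ = _ := by ring

/-- The pointwise scalar inequality. -/
lemma scalar (q : ℕ) : ∃ K : ℝ, 0 < K ∧ ∀ d : ℝ, 1 ≤ d → ∀ a t : ℝ,
    (a + t) ^ (2 * q + 2) ≤ a ^ (2 * q + 2) + (2 * q + 2) * a ^ (2 * q + 1) * t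
      + a ^ (2 * q + 2) / d + K * d ^ (q + 1) * t ^ (2 * q + 2) := by
  set C : ℝ := (((2 * q : ℕ) : ℝ) + 2) ^ 2 with hC
  have hC1 : 1 ≤ C := by
    have : (0 : ℝ) ≤ ((2 * q : ℕ) : ℝ) := Nat.cast_nonneg _
    rw [hC]; nlinarith
  refine ⟨C * (4 * (C * 4 ^ q)) ^ q, by positivity, fun d hd a t => ?_⟩
  have h := rem_le a t (2 * q)
  rw [← hC] at h
  have h' := (le_abs_self _).trans h
  have hW : (|a| + |t|) ^ 2 ≤ 2 * (a ^ 2 + t ^ 2) := by
    nlinarith [sq_abs a, sq_abs t, sq_nonneg (|a| - |t|)]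
  have hW0 : 0 ≤ (|a| + |t|) ^ 2 := sq_nonneg _
  have h4 : (1 : ℝ) ≤ 4 ^ q := one_le_pow₀ (by norm_num)
  set D : ℝ := C * 4 ^ q * d with hD
  have hD1 : 1 ≤ D := by
    rw [hD]
    calc (1 : ℝ) = 1 * 1 * 1 := by ring
      _ ≤ _ := by gcongr
  have hA : 0 ≤ a ^ 2 := sq_nonneg a
  have hT : 0 ≤ t ^ 2 := sq_nonneg t
  have ea : a ^ (2 * q + 2) = (a ^ 2) ^ q * a ^ 2 := by ring
  have et : t ^ (2 * q + 2) = (t ^ 2) ^ q * t ^ 2 := by ring
  have key : C * t ^ 2 * (|a| + |t|) ^ (2 * q) ≤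
      a ^ (2 * q + 2) / d + C * (4 * (C * 4 ^ q)) ^ q * d ^ (q + 1) * t ^ (2 * q + 2) := by
    rw [pow_mul]
    rcases le_total (t ^ 2 * D) (a ^ 2) with hc | hc
    · have h1 : (|a| + |t|) ^ 2 ≤ 4 * a ^ 2 := by nlinarith
      have h2 : ((|a| + |t|) ^ 2) ^ q ≤ (4 * a ^ 2) ^ q := pow_le_pow_left₀ hW0 h1 q
      have h3 : C * t ^ 2 * ((|a| + |t|) ^ 2) ^ q ≤ a ^ (2 * q + 2) / d := by
        rw [le_div_iff₀ (by linarith), ea]
        calc C * t ^ 2 * ((|a| + |t|) ^ 2) ^ q * d ≤ C * t ^ 2 * (4 * a ^ 2) ^ q * d := by gcongr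
          _ = (a ^ 2) ^ q * (t ^ 2 * D) := by rw [hD, mul_pow]; ring
          _ ≤ _ := by gcongr
      have h5 : 0 ≤ C * (4 * (C * 4 ^ q)) ^ q * d ^ (q + 1) * t ^ (2 * q + 2) := by
        rw [et]; positivity
      linarith
    · have h1 : (|a| + |t|) ^ 2 ≤ 4 * D * t ^ 2 := by nlinarith
      have h2 : ((|a| + |t|) ^ 2) ^ q ≤ (4 * D * t ^ 2) ^ q := pow_le_pow_left₀ hW0 h1 q
      have h3 : C * t ^ 2 * ((|a| + |t|) ^ 2) ^ q ≤
          C * (4 * (C * 4 ^ q)) ^ q * d ^ (q + 1) * t ^ (2 * q + 2) := by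
        calc C * t ^ 2 * ((|a| + |t|) ^ 2) ^ q ≤ C * t ^ 2 * (4 * D * t ^ 2) ^ q := by gcongr
          _ = C * (4 * (C * 4 ^ q)) ^ q * (d ^ q * 1) * t ^ (2 * q + 2) := by
              rw [et, hD]; simp only [mul_pow]; ring
          _ ≤ C * (4 * (C * 4 ^ q)) ^ q * (d ^ q * d) * t ^ (2 * q + 2) := by
              rw [et]; gcongr
          _ = _ := by ring
      have h5 : 0 ≤ a ^ (2 * q + 2) / d := by rw [ea]; positivity
      linarith
  push_cast at h'
  linarith

/-- The two point inequality. -/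
lemma two_point (q : ℕ) : ∃ K : ℝ, 0 < K ∧ ∀ d : ℝ, 1 ≤ d → ∀ w y : Bool → ℝ, IsW w →
    Ex w y = 0 → (∀ b, |y b| ≤ 2) → ∀ a t : ℝ,
    Ex w (fun b => (a + y b * t) ^ (2 * q + 2)) ≤
      (1 + 1 / d) * a ^ (2 * q + 2) + K * d ^ (q + 1) * t ^ (2 * q + 2) := by
  obtain ⟨K, hK, h⟩ := scalar q
  refine ⟨K * 4 ^ (q + 1), by positivity, fun d hd w y hw hy hy2 a t => ?_⟩
  have hP := isProb_Ex hw
  have hb : ∀ b, (a + y b * t) ^ (2 * q + 2) ≤
      ((1 + 1 / d) * a ^ (2 * q + 2) + K * 4 ^ (q + 1) * d ^ (q + 1) * t ^ (2 * q + 2))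
        + ((2 * q + 2) * a ^ (2 * q + 1) * t) * y b := by
    intro b
    have h1 := h d hd a (y b * t)
    have h2 : (y b * t) ^ (2 * q + 2) ≤ 4 ^ (q + 1) * t ^ (2 * q + 2) := by
      have h3 : y b ^ 2 ≤ 4 := by
        have := hy2 b
        nlinarith [sq_abs (y b), abs_nonneg (y b)]
      have h4 : (y b ^ 2) ^ (q + 1) ≤ 4 ^ (q + 1) := pow_le_pow_left₀ (sq_nonneg _) h3 _
      calc (y b * t) ^ (2 * q + 2) = (y b ^ 2) ^ (q + 1) * (t ^ 2) ^ (q + 1) := by ring
        _ ≤ 4 ^ (q + 1) * (t ^ 2) ^ (q + 1) := by gcongr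
        _ = _ := by ring
    have h5 : K * d ^ (q + 1) * (y b * t) ^ (2 * q + 2) ≤
        K * d ^ (q + 1) * (4 ^ (q + 1) * t ^ (2 * q + 2)) := by gcongr
    have h6 : a ^ (2 * q + 2) / d = 1 / d * a ^ (2 * q + 2) := by ring
    nlinarith
  refine (hP.mono hb).trans (le_of_eq ?_)
  rw [hP.add, hP.const, hP.const_mul]
  have : Ex w (fun b => y b) = 0 := hy
  rw [hy]; ring

variable {V : Type} [Fintype V] [DecidableEq V]

lemma sum_split (v : V) (F : Finset V → ℝ) :
    ∑ S, F S = ∑ S, if v ∈ S then 0 else (F S + F (insert v S)) := by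
  have h1 : (univ : Finset (Finset V)) = powerset (insert v (univ.erase v)) := by
    rw [insert_erase (mem_univ v), powerset_univ]
  have h2 : ∀ G : Finset V → ℝ, ∑ S ∈ powerset (univ.erase v), G S
      = ∑ S, if v ∈ S then 0 else G S := by
    intro G
    have : powerset (univ.erase v) = univ.filter fun S : Finset V => ¬ v ∈ S := by
      ext S
      simp [subset_erase]
    rw [this, sum_filter]
    exact sum_congr rfl fun S _ => by split_ifs <;> simp_all
  rw [← h2, sum_add_distrib, ← sum_powerset_insert (notMem_erase v univ), ← h1]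

/-- A multilinear polynomial. -/
def Pol (c : Finset V → ℝ) (Y : V → ℝ) : ℝ := ∑ S, c S * ∏ v ∈ S, Y v

/-- Substitution of a value for a variable. -/
def subst (c : Finset V → ℝ) (v : V) (t : ℝ) (S : Finset V) : ℝ :=
  if v ∈ S then 0 else c S + t * c (insert v S)

lemma Pol_update (c : Finset V → ℝ) (Y : V → ℝ) (v : V) (t : ℝ) :
    Pol c (Function.update Y v t) = Pol (subst c v t) Y := by
  unfold Pol
  rw [sum_split v]
  refine sum_congr rfl fun S _ => ?_
  unfold subst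
  split_ifs with h
  · simp
  · have : ∏ u ∈ S, Function.update Y v t u = ∏ u ∈ S, Y u :=
      prod_congr rfl fun u hu => Function.update_of_ne (by rintro rfl; exact h hu) _ _
    rw [prod_insert h, this, Function.update_self]
    ring

/-- The potential. -/
def Psi (L : ℝ) (n : ℕ) (c : Finset V → ℝ) : ℝ := ∑ S, L ^ S.card * c S ^ n

lemma Psi_step {q : ℕ} {L θ : ℝ} (hL : 0 ≤ L) (hθ : 1 ≤ θ) {w y : Bool → ℝ} (hw : IsW w)
    (h : ∀ a t : ℝ, Ex w (fun b => (a + y b * t) ^ (2 * q + 2)) ≤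
      θ * a ^ (2 * q + 2) + L * t ^ (2 * q + 2)) (c : Finset V → ℝ) (v : V) :
    Ex w (fun b => Psi L (2 * q + 2) (subst c v (y b))) ≤ θ * Psi L (2 * q + 2) c := by
  have hP := isProb_Ex hw
  unfold Psi
  rw [hP.sum, sum_split v (fun S => L ^ S.card * c S ^ (2 * q + 2)), mul_sum]
  refine sum_le_sum fun S _ => ?_
  rw [hP.const_mul]
  unfold subst
  split_ifs with hv
  · simp only [ne_eq, Nat.add_eq_zero_iff, OfNat.ofNat_ne_zero, and_false, not_false_eq_true,
      zero_pow, mul_zero]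
    rw [hP.const]; simp
  · rw [card_insert_of_notMem hv]
    have h1 := h (c S) (c (insert v S))
    have h2 : 0 ≤ c (insert v S) ^ (2 * q + 2) := by
      rw [show 2 * q + 2 = 2 * (q + 1) by ring, pow_mul]; positivity
    have h3 : 0 ≤ L ^ S.card := by positivity
    calc _ ≤ L ^ S.card * (θ * c S ^ (2 * q + 2) + L * c (insert v S) ^ (2 * q + 2)) := by gcongr
      _ = θ * (L ^ S.card * c S ^ (2 * q + 2))
            + 1 * (L ^ (S.card + 1) * c (insert v S) ^ (2 * q + 2)) := by ring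
      _ ≤ θ * (L ^ S.card * c S ^ (2 * q + 2))
            + θ * (L ^ (S.card + 1) * c (insert v S) ^ (2 * q + 2)) := by gcongr
      _ = _ := by ring

omit [DecidableEq V] in
lemma Psi_nonneg {q : ℕ} {L : ℝ} (hL : 0 ≤ L) (c : Finset V → ℝ) : 0 ≤ Psi L (2 * q + 2) c :=
  sum_nonneg fun S _ => by
    rw [show 2 * q + 2 = 2 * (q + 1) by ring, pow_mul]; positivity

omit [DecidableEq V] in
lemma le_Psi {q : ℕ} {L : ℝ} (hL : 0 ≤ L) (c : Finset V → ℝ) :
    c ∅ ^ (2 * q + 2) ≤ Psi L (2 * q + 2) c := by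
  have := single_le_sum (f := fun S : Finset V => L ^ S.card * c S ^ (2 * q + 2))
    (s := univ) (fun S _ => by
      rw [show 2 * q + 2 = 2 * (q + 1) by ring, pow_mul]; positivity) (mem_univ ∅)
  simpa [Psi] using this

lemma Ex_Pol {w y : V → Bool → ℝ} (hw : ∀ v, IsW (w v)) (hy : ∀ v, Ex (w v) (y v) = 0)
    (c : Finset V → ℝ) : Ex (piW w) (fun x => Pol c fun v => y v (x v)) = c ∅ := by
  have hP := isProb_Ex (isW_piW hw)
  unfold Pol
  rw [hP.sum, sum_eq_single ∅]
  · simp only [prod_empty, mul_one]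
    exact hP.const _
  · intro S _ hS
    rw [hP.const_mul]
    obtain ⟨v, hv⟩ := nonempty_iff_ne_empty.2 hS
    have h1 := Ex_piW_prod w (fun u b => if u ∈ S then y u b else 1)
    have h2 : (fun x : V → Bool => ∏ u ∈ S, y u (x u))
        = fun x => ∏ u, if u ∈ S then y u (x u) else 1 := by
      funext x
      rw [prod_ite_mem, univ_inter]
    rw [h2, h1, prod_eq_zero (mem_univ v), mul_zero]
    simp only [hv, if_true]
    exact hy v
  · simp

lemma abs_le_add (a lam : ℝ) (hl : 0 < lam) (q : ℕ) :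
    |a| ≤ lam + a ^ (2 * q + 2) / lam ^ (2 * q + 1) := by
  have e : a ^ (2 * q + 2) = |a| ^ (2 * q + 1) * |a| := by
    rw [← pow_succ, ← abs_pow, abs_of_nonneg]
    rw [show 2 * q + 1 + 1 = 2 * (q + 1) by ring, pow_mul]; positivity
  rw [e]
  rcases le_total |a| lam with h | h
  · have : 0 ≤ |a| ^ (2 * q + 1) * |a| / lam ^ (2 * q + 1) := by positivity
    linarith
  · have : |a| ≤ |a| ^ (2 * q + 1) * |a| / lam ^ (2 * q + 1) := by
      rw [le_div_iff₀ (by positivity), mul_comm]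
      gcongr
    linarith

omit [Fintype V] in
lemma DT_update {α : Type} {d : ℕ} {f : (V → Bool) → α} (hf : DT d f) (v : V) (b : Bool) :
    DT d (fun x => f (Function.update x v b)) := by
  refine (hf.comp fun u => if u = v then Sum.inr b else Sum.inl u).congr fun x => ?_
  congr 1
  funext u
  by_cases h : u = v
  · subst h; simp
  · simp [h]

lemma abs_Ex_le {Ω : Type} [Fintype Ω] {w : Ω → ℝ} (hw : IsW w) {f g : Ω → ℝ}
    (h : ∀ ω, |f ω| ≤ g ω) : |Ex w f| ≤ Ex w g := by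
  have hP := isProb_Ex hw
  rw [abs_le]
  refine ⟨?_, hP.mono fun ω => (le_abs_self _).trans (h ω)⟩
  have h1 := hP.mono (f := fun ω => (-1) * g ω) (g := f) fun ω => by
    have := (abs_le.1 (h ω)).1
    linarith
  rw [hP.const_mul] at h1
  linarith

lemma main {q : ℕ} {L θ lam : ℝ} (hL : 0 ≤ L) (hθ : 1 ≤ θ) (hl : 0 < lam)
    {w y : V → Bool → ℝ} (hw : ∀ v, IsW (w v)) (hy : ∀ v, Ex (w v) (y v) = 0)
    (h : ∀ v, ∀ a t : ℝ, Ex (w v) (fun b => (a + y v b * t) ^ (2 * q + 2)) ≤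
      θ * a ^ (2 * q + 2) + L * t ^ (2 * q + 2)) (d : ℕ) :
    ∀ g : (V → Bool) → ℝ, DT d g → (∀ x, |g x| ≤ 1) → ∀ c : Finset V → ℝ,
      |Ex (piW w) (fun x => g x * Pol c fun v => y v (x v))| ≤
        lam + θ ^ d * Psi L (2 * q + 2) c / lam ^ (2 * q + 1) := by
  have hP := isProb_Ex (isW_piW hw)
  have hconst : ∀ (d : ℕ) (a : ℝ), |a| ≤ 1 → ∀ c : Finset V → ℝ,
      |Ex (piW w) (fun x => a * Pol c fun v => y v (x v))| ≤
        lam + θ ^ d * Psi L (2 * q + 2) c / lam ^ (2 * q + 1) := by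
    intro d a ha c
    rw [hP.const_mul, Ex_Pol hw hy, abs_mul]
    have h1 := abs_le_add (c ∅) lam hl q
    have h2 := le_Psi (q := q) hL c
    have h3 := Psi_nonneg (q := q) hL c
    have h4 : (1 : ℝ) ≤ θ ^ d := one_le_pow₀ hθ
    calc |a| * |c ∅| ≤ 1 * |c ∅| := by gcongr
      _ ≤ lam + c ∅ ^ (2 * q + 2) / lam ^ (2 * q + 1) := by rw [one_mul]; exact h1
      _ ≤ lam + 1 * Psi L (2 * q + 2) c / lam ^ (2 * q + 1) := by rw [one_mul]; gcongr
      _ ≤ _ := by gcongr
  induction d with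
  | zero =>
    intro g hg hb c
    cases hg with
    | const _ a => exact hconst 0 a (hb fun _ => false) c
  | succ d ih =>
    intro g hg hb c
    cases hg with
    | const _ a => exact hconst _ a (hb fun _ => false) c
    | query _ v f₀ f₁ h₀ h₁ =>
      have hPv := isProb_Ex (hw v)
      rw [Ex_piW_split hw v, hP.swap hPv]
      have hstep : ∀ b : Bool,
          |Ex (piW w) (fun x => (if Function.update x v b v = true then f₁ (Function.update x v b)
              else f₀ (Function.update x v b)) * Pol c fun u => y u (Function.update x v b u))| ≤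
            lam + θ ^ d / lam ^ (2 * q + 1) * Psi L (2 * q + 2) (subst c v (y v b)) := by
        intro b
        have hDT : DT d (fun x => if Function.update x v b v = true then
            f₁ (Function.update x v b) else f₀ (Function.update x v b)) := by
          cases b
          · exact (DT_update h₀ v false).congr fun x => by simp
          · exact (DT_update h₁ v true).congr fun x => by simp
        have h1 := ih _ hDT (fun x => hb (Function.update x v b)) (subst c v (y v b))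
        have h2 : ∀ x : V → Bool, (Pol c fun u => y u (Function.update x v b u))
            = Pol (subst c v (y v b)) fun u => y u (x u) := by
          intro x
          rw [← Pol_update]
          congr 1
          funext u
          by_cases hu : u = v
          · subst hu; simp
          · simp [hu]
        simp only [h2]
        refine h1.trans (le_of_eq ?_)
        ring
      refine (abs_Ex_le (hw v) hstep).trans ?_
      rw [hPv.add, hPv.const, hPv.const_mul]
      have h3 := Psi_step hL hθ (hw v) (h v) c v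
      calc _ ≤ lam + θ ^ d / lam ^ (2 * q + 1) * (θ * Psi L (2 * q + 2) c) := by gcongr
        _ = _ := by ring

lemma graph_injective {k : ℕ} {ι : Type} [DecidableEq ι] :
    Function.Injective (graph : (Fin k → ι) → Finset (Fin k × ι)) := by
  intro i j h
  funext κ
  have h1 : (κ, i κ) ∈ graph j := by
    rw [← h]; exact mem_image.2 ⟨κ, mem_univ _, rfl⟩
  obtain ⟨κ', -, h2⟩ := mem_image.1 h1
  obtain ⟨rfl, h3⟩ := Prod.mk.inj h2
  exact h3.symm

lemma card_graph {k : ℕ} {ι : Type} [DecidableEq ι] (i : Fin k → ι) : (graph i).card = k := by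
  unfold graph
  rw [card_image_of_injective _ fun κ κ' h => (Prod.mk.inj h).1]
  simp

end Growth

open Growth

/-- Level-`k` Fourier growth of decision trees at a point of the half cube (moment form). -/
theorem growth_moment (k p : ℕ) (hp : 1 ≤ p) : ∃ K : ℝ, 0 < K ∧
    ∀ (V : Type) [Fintype V] [DecidableEq V] (d : ℕ), 1 ≤ d → ∀ g : (V → Bool) → ℝ, DT d g →
      (∀ x, |g x| ≤ 1) → ∀ z : V → ℝ, (∀ v, |z v| ≤ 1 / 2) → ∀ c : Finset V → ℝ,
      (∀ S, c S ≠ 0 → S.card = k) → ∀ lam : ℝ, 0 < lam →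
      |∑ S, c S * dext g S z| ≤
        lam + K * (d : ℝ) ^ (p * k) * (∑ S, c S ^ (2 * p)) / lam ^ (2 * p - 1) := by
  obtain ⟨q, rfl⟩ : ∃ q, p = q + 1 := ⟨p - 1, by omega⟩
  obtain ⟨K, hK, h2⟩ := two_point q
  refine ⟨Real.exp 1 * K ^ k, by positivity, ?_⟩
  intro V _ _ d hd g hg hb z hz c hc lam hl
  have hd' : (1 : ℝ) ≤ d := by exact_mod_cast hd
  let w : V → Bool → ℝ := fun v b => (1 + sg b * z v) / 2
  let y : V → Bool → ℝ := fun v b => sg b / (1 + sg b * z v)
  have hpos : ∀ v b, (1 / 2 : ℝ) ≤ 1 + sg b * z v := by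
    intro v b
    have := abs_le.1 (hz v)
    cases b <;> simp <;> linarith
  have hwy : ∀ v b, w v b * y v b = sg b / 2 := by
    intro v b
    have := hpos v b
    have h0 : (1 + sg b * z v) ≠ 0 := by linarith
    simp only [w, y]
    field_simp
  have hw : ∀ v, IsW (w v) := by
    intro v
    refine ⟨fun b => ?_, ?_⟩
    · have := hpos v b
      simp only [w]; linarith
    · simp [w]; ring
  have hy : ∀ v, Ex (w v) (y v) = 0 := by
    intro v
    simp only [Ex, hwy]
    simp; ring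
  have hy2 : ∀ v b, |y v b| ≤ 2 := by
    intro v b
    have := hpos v b
    simp only [y]
    rw [abs_div, abs_sg, abs_of_pos (by linarith), div_le_iff₀ (by linarith)]
    linarith
  have hθ : (1 : ℝ) ≤ 1 + 1 / d := by
    have : (0 : ℝ) ≤ 1 / d := by positivity
    linarith
  have hmain := main (q := q) (L := K * (d : ℝ) ^ (q + 1)) (θ := 1 + 1 / d) (lam := lam)
    (by positivity) hθ hl hw hy (fun v => h2 d hd' (w v) (y v) (hw v) (hy v) (hy2 v)) d g hg hb c
  have e1 : ∑ S, c S * dext g S z = Ex (piW w) (fun x => g x * Pol c fun v => y v (x v)) := by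
    simp only [dext, Ex, Pol, mul_sum]
    rw [sum_comm]
    refine sum_congr rfl fun x _ => sum_congr rfl fun S _ => ?_
    have : (∏ v, (1 / 2 : ℝ) • (if v ∈ S then sg (x v) else 1 + sg (x v) * z v))
        = piW w x * ∏ v ∈ S, y v (x v) := by
      rw [← univ_inter S, ← prod_ite_mem, univ_inter]
      unfold piW
      rw [← prod_mul_distrib]
      refine prod_congr rfl fun v _ => ?_
      split_ifs
      · rw [hwy, smul_eq_mul]; ring
      · simp only [w, smul_eq_mul]; ring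
    rw [this, smul_eq_mul]
    ring
  have e2 : Psi (K * (d : ℝ) ^ (q + 1)) (2 * q + 2) c
      = (K * (d : ℝ) ^ (q + 1)) ^ k * ∑ S, c S ^ (2 * (q + 1)) := by
    unfold Psi
    rw [mul_sum]
    refine sum_congr rfl fun S _ => ?_
    by_cases h : c S = 0
    · simp [h]
    · rw [hc S h]; rfl
  have e3 : (1 + 1 / (d : ℝ)) ^ d ≤ Real.exp 1 := by
    have h1 : 1 + 1 / (d : ℝ) ≤ Real.exp (1 / d) := by
      have := Real.add_one_le_exp (1 / (d : ℝ))
      linarith
    calc _ ≤ Real.exp (1 / d) ^ d := pow_le_pow_left₀ (by positivity) h1 d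
      _ = Real.exp 1 := by
          rw [← Real.exp_nat_mul]
          congr 1
          field_simp
  rw [e1]
  refine hmain.trans ?_
  rw [e2, show 2 * (q + 1) - 1 = 2 * q + 1 by omega]
  have h0 : 0 ≤ ∑ S, c S ^ (2 * (q + 1)) := sum_nonneg fun S _ => by
    rw [pow_mul]; positivity
  calc _ ≤ lam + Real.exp 1 * ((K * (d : ℝ) ^ (q + 1)) ^ k * ∑ S, c S ^ (2 * (q + 1)))
        / lam ^ (2 * q + 1) := by gcongr
    _ = _ := by rw [mul_pow, ← pow_mul]; ring

/-- Level-`k` Fourier growth of decision trees at a point of the half cube. -/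
theorem growth (k a : ℕ) : ∃ u₀ : ℕ, ∀ u : ℕ, u₀ ≤ u →
    ∀ (ι : Type) [Fintype ι] [DecidableEq ι], Fintype.card ι ≤ 2 ^ (a * u) →
    ∀ d : ℕ, 1 ≤ d → ∀ g : (Fin k × ι → Bool) → ℝ, DT d g → (∀ x, |g x| ≤ 1) →
    ∀ z : Fin k × ι → ℝ, (∀ v, |z v| ≤ 1 / 2) → ∀ c : (Fin k → ι) → ℝ, (∀ i, |c i| ≤ 1) →
      |∑ i, c i * dext g (graph i) z| ≤ 2 * 2 ^ u * Real.sqrt d ^ k := by
  obtain ⟨K, hK, h⟩ := growth_moment k (a * k + 1) (by omega)
  obtain ⟨u₀, hu₀⟩ := pow_unbounded_of_one_lt K (by norm_num : (1 : ℝ) < 2)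
  refine ⟨u₀, fun u hu ι _ _ hι d hd g hg hb z hz c hc => ?_⟩
  have hd' : (1 : ℝ) ≤ d := by exact_mod_cast hd
  set p := a * k + 1 with hp
  let c' : Finset (Fin k × ι) → ℝ := fun S => ∑ i, if graph i = S then c i else 0
  have hc'1 : ∀ i, c' (graph i) = c i := by
    intro i
    simp only [c', graph_injective.eq_iff]
    simp
  have hc'2 : ∀ S, S ∉ univ.image (graph : (Fin k → ι) → Finset (Fin k × ι)) → c' S = 0 := by
    intro S hS
    refine sum_eq_zero fun i _ => if_neg fun hi => hS (mem_image.2 ⟨i, mem_univ _, hi⟩)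
  have hsum : ∀ F : Finset (Fin k × ι) → ℝ → ℝ, (∀ S, F S 0 = 0) →
      ∑ S, F S (c' S) = ∑ i, F (graph i) (c i) := by
    intro F hF
    rw [← sum_subset (subset_univ (univ.image (graph : (Fin k → ι) → Finset (Fin k × ι))))
      (fun S _ hS => by rw [hc'2 S hS, hF]), sum_image fun i _ j _ hij => graph_injective hij]
    exact sum_congr rfl fun i _ => by rw [hc'1]
  set lam : ℝ := 2 ^ u * Real.sqrt d ^ k with hlam
  have hsq : 0 < Real.sqrt d := Real.sqrt_pos.2 (by linarith)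
  have hl : 0 < lam := by positivity
  have h1 := h _ d hd g hg hb z hz c' (fun S hS => by
    by_contra hcard
    refine hS (hc'2 S fun hmem => hcard ?_)
    obtain ⟨i, -, rfl⟩ := mem_image.1 hmem
    exact card_graph i) lam hl
  rw [hsum (fun S t => t * dext g S z) (fun S => zero_mul _),
    hsum (fun _ t => t ^ (2 * p)) (fun _ => zero_pow (by omega))] at h1
  refine h1.trans ?_
  have h2 : ∑ i, c i ^ (2 * p) ≤ (2 : ℝ) ^ (a * u * k) := by
    calc ∑ i, c i ^ (2 * p) ≤ ∑ _i : Fin k → ι, (1 : ℝ) := by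
          refine sum_le_sum fun i _ => ?_
          rw [pow_mul, ← sq_abs]
          exact pow_le_one₀ (by positivity) (pow_le_one₀ (abs_nonneg _) (hc i))
      _ = (Fintype.card ι : ℝ) ^ k := by simp
      _ ≤ ((2 : ℝ) ^ (a * u)) ^ k := by
          gcongr
          exact_mod_cast hι
      _ = _ := by rw [← pow_mul]
  have h3 : K * (d : ℝ) ^ (p * k) * (∑ i, c i ^ (2 * p)) / lam ^ (2 * p - 1) ≤ lam := by
    rw [div_le_iff₀ (by positivity), ← pow_succ', show 2 * p - 1 + 1 = 2 * p by omega]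
    have e : lam ^ (2 * p) = 2 ^ (u * (2 * p)) * (d : ℝ) ^ (p * k) := by
      rw [hlam, mul_pow, ← pow_mul, ← pow_mul, show k * (2 * p) = 2 * (p * k) by ring, pow_mul,
        pow_mul (Real.sqrt d), Real.sq_sqrt (by linarith)]
    have hK' : K ≤ 2 ^ u := hu₀.le.trans (pow_le_pow_right₀ (by norm_num) hu)
    have h0 : 0 ≤ ∑ i, c i ^ (2 * p) := sum_nonneg fun S _ => by
      rw [pow_mul]; positivity
    calc K * (d : ℝ) ^ (p * k) * (∑ i, c i ^ (2 * p))
        ≤ 2 ^ u * (d : ℝ) ^ (p * k) * 2 ^ (a * u * k) := by gcongr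
      _ = 2 ^ (u + a * u * k) * (d : ℝ) ^ (p * k) := by ring
      _ ≤ 2 ^ (u * (2 * p)) * (d : ℝ) ^ (p * k) := by
          gcongr
          · norm_num
          · rw [hp]; nlinarith [Nat.zero_le (a * u * k)]
      _ = _ := e.symm
  rw [hlam] at h3 ⊢
  linarith

end Crest.Agent.R350
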