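import Crest.Agent.R350.Basic

set_option autoImplicit false

namespace Crest.Agent.R350

open Finset

theorem impl_phase_transpose {I E : Type} [DecidableEq E] (φ : E → Option I) (x : I → Bool) :
    (phase φ x).transpose = phase φ x := Matrix.diagonal_transpose _

theorem impl_phase_mul_self {I E : Type} [Fintype E] [DecidableEq E] (φ : E → Option I)
    (x : I → Bool) : phase φ x * phase φ x = 1 := by
  unfold phase
  rw [Matrix.diagonal_mul_diagonal, ← Matrix.diagonal_one]
  congr 1
  funext e
  cases φ e with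
  | none => simp
  | some i => simp [sg_mul_self]

theorem impl_phase_none {I E : Type} [DecidableEq E] (x : I → Bool) :
    phase (fun _ : E => (none : Option I)) x = 1 := by
  unfold phase
  rw [← Matrix.diagonal_one]
  rfl

/-- Block diagonal matrix. -/
def implBlk {A E : Type} [DecidableEq A] (M : A → Matrix E E ℝ) : Matrix (A × E) (A × E) ℝ :=
  Matrix.of fun p p' => if p.1 = p'.1 then M p.1 p.2 p'.2 else 0

theorem implBlk_apply {A E : Type} [DecidableEq A] (M : A → Matrix E E ℝ) (p p' : A × E) :
    implBlk M p p' = if p.1 = p'.1 then M p.1 p.2 p'.2 else 0 := rfl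

theorem implBlk_mul {A E : Type} [Fintype A] [DecidableEq A] [Fintype E]
    (M N : A → Matrix E E ℝ) : implBlk M * implBlk N = implBlk fun a => M a * N a := by
  ext p p'
  rw [Matrix.mul_apply, Fintype.sum_prod_type, implBlk_apply, sum_eq_single p.1]
  · by_cases h : p.1 = p'.1 <;> simp [implBlk_apply, h, Matrix.mul_apply]
  · intro b _ hb
    simp [implBlk_apply, hb.symm]
  · simp

theorem implBlk_transpose {A E : Type} [DecidableEq A] (M : A → Matrix E E ℝ) :
    (implBlk M).transpose = implBlk fun a => (M a).transpose := by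
  ext p p'
  rw [Matrix.transpose_apply, implBlk_apply, implBlk_apply]
  by_cases h : p.1 = p'.1
  · simp [h]
  · simp [h, Ne.symm h]

theorem implBlk_one {A E : Type} [DecidableEq A] [DecidableEq E] :
    implBlk (fun _ : A => (1 : Matrix E E ℝ)) = 1 := by
  ext ⟨a, e⟩ ⟨a', e'⟩
  by_cases h : a = a' <;> by_cases h' : e = e' <;> simp [implBlk_apply, Matrix.one_apply, h, h']

theorem implBlk_phase {I A E : Type} [DecidableEq A] [DecidableEq E] (φ : A → E → Option I)
    (x : I → Bool) : implBlk (fun a => phase (φ a) x) = phase (fun p : A × E => φ p.1 p.2) x := by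
  ext ⟨a, e⟩ ⟨a', e'⟩
  by_cases h : a = a' <;> by_cases h' : e = e' <;>
    simp [implBlk_apply, phase, h, h']

namespace Impl

variable {I E : Type} [Fintype E] [DecidableEq E]

theorem orth {q : ℕ} {V : (I → Bool) → Matrix E E ℝ} (h : Impl q V) (x : I → Bool) :
    (V x).transpose * V x = 1 := by
  induction h with
  | const U hU => exact hU
  | step q V φ U _ hU ih =>
    simp only [Matrix.transpose_mul, impl_phase_transpose]
    calc (V x).transpose * (R350.phase φ x * U.transpose) * (U * R350.phase φ x * V x)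
        = (V x).transpose * (R350.phase φ x * (U.transpose * U) * R350.phase φ x) * V x := by
          simp only [Matrix.mul_assoc]
      _ = 1 := by rw [hU, Matrix.mul_one, impl_phase_mul_self, Matrix.mul_one, ih]

theorem congr {q : ℕ} {V V' : (I → Bool) → Matrix E E ℝ} (h : Impl q V) (e : ∀ x, V x = V' x) :
    Impl q V' := by
  rw [← funext e]
  exact h

theorem succ {q : ℕ} {V : (I → Bool) → Matrix E E ℝ} (h : Impl q V) : Impl (q + 1) V :=
  (Impl.step q V (fun _ => none) 1 h (by simp)).congr fun x => by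
    rw [impl_phase_none, Matrix.one_mul, Matrix.one_mul]

theorem mono {q q' : ℕ} {V : (I → Bool) → Matrix E E ℝ} (h : Impl q V) (hq : q ≤ q') :
    Impl q' V := by
  induction q', hq using Nat.le_induction with
  | base => exact h
  | succ n _ ih => exact ih.succ

theorem mul_left {q : ℕ} {V : (I → Bool) → Matrix E E ℝ} (h : Impl q V) {W : Matrix E E ℝ}
    (hW : W.transpose * W = 1) : Impl q (fun x => W * V x) := by
  have key : ∀ U : Matrix E E ℝ, U.transpose * U = 1 → (W * U).transpose * (W * U) = 1 := by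
    intro U hU
    rw [Matrix.transpose_mul, Matrix.mul_assoc, ← Matrix.mul_assoc W.transpose, hW, Matrix.one_mul,
      hU]
  cases h with
  | const U hU => exact Impl.const (W * U) (key U hU)
  | step q V φ U hV hU =>
    exact (Impl.step q V φ (W * U) hV (key U hU)).congr fun x => by simp only [Matrix.mul_assoc]

theorem mul {q q' : ℕ} {V V' : (I → Bool) → Matrix E E ℝ} (h : Impl q V) (h' : Impl q' V') :
    Impl (q + q') (fun x => V x * V' x) := by
  induction h with
  | const U hU => rw [Nat.zero_add]; exact h'.mul_left hU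
  | step q V φ U _ hU ih =>
    rw [Nat.add_right_comm]
    exact (Impl.step _ _ φ U ih hU).congr fun x => by simp only [Matrix.mul_assoc]

theorem phase (φ : E → Option I) : Impl 1 (fun x => phase φ x) :=
  (Impl.step 0 (fun _ => 1) φ 1 (Impl.const 1 (by simp)) (by simp)).congr fun x => by simp

theorem transpose {q : ℕ} {V : (I → Bool) → Matrix E E ℝ} (h : Impl q V) :
    Impl q (fun x => (V x).transpose) := by
  have key : ∀ U : Matrix E E ℝ, U.transpose * U = 1 →
      U.transpose.transpose * U.transpose = 1 := by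
    intro U hU
    rw [Matrix.transpose_transpose]
    exact mul_eq_one_comm.1 hU
  induction h with
  | const U hU => exact Impl.const _ (key U hU)
  | step q V φ U _ hU ih =>
    exact (ih.mul ((Impl.phase φ).mul (Impl.const _ (key U hU)))).congr fun x => by
      simp only [Matrix.transpose_mul, impl_phase_transpose]

theorem inv_zero {V : (I → Bool) → Matrix E E ℝ} (h : Impl 0 V) :
    ∃ U : Matrix E E ℝ, U.transpose * U = 1 ∧ ∀ x, V x = U := by
  generalize hq : 0 = q at h
  cases h with
  | const U hU => exact ⟨U, hU, fun _ => rfl⟩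
  | step q V φ U hV hU => omega

theorem inv_succ {q : ℕ} {V : (I → Bool) → Matrix E E ℝ} (h : Impl (q + 1) V) :
    ∃ (V' : (I → Bool) → Matrix E E ℝ) (φ : E → Option I) (U : Matrix E E ℝ),
      Impl q V' ∧ U.transpose * U = 1 ∧ ∀ x, V x = U * R350.phase φ x * V' x := by
  generalize hq : q + 1 = n at h
  cases h with
  | const U hU => omega
  | step q' V φ U hV hU =>
    obtain rfl : q = q' := by omega
    exact ⟨V, φ, U, hV, hU, fun _ => rfl⟩

theorem blk {A : Type} [Fintype A] [DecidableEq A] {q : ℕ}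
    {V : A → (I → Bool) → Matrix E E ℝ} (h : ∀ a, Impl q (V a)) :
    Impl q (fun x => implBlk fun a => V a x) := by
  have key : ∀ U : A → Matrix E E ℝ, (∀ a, (U a).transpose * U a = 1) →
      (implBlk U).transpose * implBlk U = 1 := by
    intro U hU
    rw [implBlk_transpose, implBlk_mul, ← implBlk_one]
    congr 1
    funext a
    exact hU a
  induction q generalizing V with
  | zero =>
    choose U hU hV using fun a => (h a).inv_zero
    exact (Impl.const (implBlk U) (key U hU)).congr fun x => by simp only [hV]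
  | succ q ih =>
    choose V' φ U hV' hU hV using fun a => (h a).inv_succ
    exact (Impl.step q _ (fun p : A × E => φ p.1 p.2) (implBlk U) (ih hV') (key U hU)).congr
      fun x => by rw [← implBlk_phase, implBlk_mul, implBlk_mul]; simp only [hV]

/-- An algorithm controlled by a classical register `A`. -/
theorem ctrl {A : Type} [Fintype A] [DecidableEq A] {q : ℕ}
    {V : A → (I → Bool) → Matrix E E ℝ} (h : ∀ a, Impl q (V a)) :
    Impl q (fun x => Matrix.of fun (p p' : A × E) => if p.1 = p'.1 then V p.1 x p.2 p'.2 else 0) :=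
  blk h

theorem reindex {E' : Type} [Fintype E'] [DecidableEq E'] {q : ℕ}
    {V : (I → Bool) → Matrix E E ℝ} (h : Impl q V) (e : E' ≃ E) :
    Impl q (fun x => (V x).submatrix e e) := by
  have key : ∀ U : Matrix E E ℝ, U.transpose * U = 1 →
      (U.submatrix e e).transpose * U.submatrix e e = 1 := by
    intro U hU
    rw [Matrix.transpose_submatrix, Matrix.submatrix_mul_equiv, hU, Matrix.submatrix_one_equiv]
  induction h with
  | const U hU => exact Impl.const _ (key U hU)
  | step q V φ U _ hU ih =>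
    refine (Impl.step q _ (fun a => φ (e a)) (U.submatrix e e) ih (key U hU)).congr fun x => ?_
    have : R350.phase (fun a => φ (e a)) x = (R350.phase φ x).submatrix e e := by
      unfold R350.phase
      rw [Matrix.submatrix_diagonal_equiv]
      rfl
    rw [this, Matrix.submatrix_mul_equiv, Matrix.submatrix_mul_equiv]

/-- Transport to a bigger space with a spectator register. -/
theorem extend {F R : Type} [Fintype F] [DecidableEq F] [Fintype R] [DecidableEq R] {q : ℕ}
    {V : (I → Bool) → Matrix E E ℝ} (h : Impl q V) (e : F ≃ R × E) (f₀ : F) :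
    ∃ W : (I → Bool) → Matrix F F ℝ, Impl q W ∧ ∀ x (g : E → ℝ),
      ∑ f, W x f f₀ ^ 2 * g (e f).2 = ∑ a, V x a (e f₀).2 ^ 2 * g a := by
  refine ⟨_, (blk (A := R) fun _ => h).reindex e, fun x g => ?_⟩
  refine (Fintype.sum_equiv e _ (fun p : R × E => implBlk (fun _ : R => V x) p (e f₀) ^ 2 * g p.2)
    (fun f => rfl)).trans ?_
  rw [Fintype.sum_prod_type, sum_eq_single (e f₀).1]
  · simp [implBlk_apply]
  · intro b _ hb
    simp [implBlk_apply, hb]
  · simp

end Impl

/-- An orthogonal matrix with a prescribed unit column (Householder reflection). -/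
theorem exists_orth_col {E : Type} [Fintype E] [DecidableEq E] (e₀ : E) (ψ : E → ℝ)
    (hψ : ∑ e, ψ e ^ 2 = 1) : ∃ U : Matrix E E ℝ, U.transpose * U = 1 ∧ ∀ e, U e e₀ = ψ e := by
  set u : E → ℝ := fun e => (if e = e₀ then 1 else 0) - ψ e with hu
  have hs : ∑ e, u e * u e = 2 * u e₀ := by
    have h1 : ∀ e, u e * u e = (if e = e₀ then 1 - 2 * ψ e else 0) + ψ e ^ 2 := by
      intro e
      by_cases h : e = e₀ <;> simp [hu, h] <;> ring
    simp only [h1, sum_add_distrib, hψ, sum_ite_eq', mem_univ, if_true]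
    simp only [hu, if_true]
    ring
  by_cases h0 : u e₀ = 0
  · refine ⟨1, by simp, fun e => ?_⟩
    rw [h0, mul_zero, sum_eq_zero_iff_of_nonneg fun e _ => mul_self_nonneg (u e)] at hs
    have h2 := mul_self_eq_zero.1 (hs e (mem_univ _))
    rw [Matrix.one_apply]
    exact sub_eq_zero.1 h2
  · refine ⟨1 - (u e₀)⁻¹ • Matrix.vecMulVec u u, ?_, fun e => ?_⟩
    · have h1 : Matrix.vecMulVec u u * Matrix.vecMulVec u u = (2 * u e₀) • Matrix.vecMulVec u u := by
        ext i j
        simp only [Matrix.mul_apply, Matrix.vecMulVec_apply, Matrix.smul_apply, smul_eq_mul]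
        rw [← hs, sum_mul]
        exact sum_congr rfl fun k _ => by ring
      rw [Matrix.transpose_sub, Matrix.transpose_one, Matrix.transpose_smul,
        Matrix.transpose_vecMulVec, Matrix.sub_mul, Matrix.mul_sub, Matrix.mul_sub, Matrix.one_mul,
        Matrix.one_mul, Matrix.mul_one, Matrix.smul_mul, Matrix.mul_smul, h1, smul_smul, smul_smul]
      have h2 : (u e₀)⁻¹ * (u e₀)⁻¹ * (2 * u e₀) = (u e₀)⁻¹ + (u e₀)⁻¹ := by
        field_simp
        ring
      rw [h2, add_smul]
      abel
    · simp only [Matrix.sub_apply, Matrix.smul_apply, Matrix.vecMulVec_apply, smul_eq_mul,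
        Matrix.one_apply]
      have h2 : (u e₀)⁻¹ * (u e * u e₀) = u e := by field_simp
      rw [h2]
      simp [hu]

namespace Samp

variable {I A B : Type}

theorem of_vec {E : Type} [Fintype E] [DecidableEq E] {q : ℕ} {V : (I → Bool) → Matrix E E ℝ}
    (h : Impl q V) (ψ : E → ℝ) (hψ : ∑ e, ψ e ^ 2 = 1) (lab : E → A) :
    Samp q (fun x (g : A → ℝ) => ∑ e, (V x).mulVec ψ e ^ 2 * g (lab e)) := by
  have hne : Nonempty E := by
    by_contra hE
    rw [not_nonempty_iff] at hE
    simp at hψ
  obtain ⟨e₀⟩ := hne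
  obtain ⟨U, hU, hcol⟩ := exists_orth_col e₀ ψ hψ
  refine ⟨E, inferInstance, inferInstance, e₀, fun x => V x * U, lab,
    h.mul (Impl.const U hU), fun x g => ?_⟩
  simp only [Matrix.mul_apply, hcol, Matrix.mulVec, dotProduct]

theorem isProb {q : ℕ} {P : (I → Bool) → (A → ℝ) → ℝ} (h : Samp q P) (x : I → Bool) :
    IsProb (P x) := by
  obtain ⟨E, _, _, e₀, V, lab, hV, hP⟩ := h
  refine ⟨E, inferInstance, fun e => V x e e₀ ^ 2, lab, ⟨fun e => sq_nonneg _, ?_⟩, hP x⟩
  have := congrFun (congrFun (hV.orth x) e₀) e₀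
  simpa [Matrix.mul_apply, sq] using this

theorem congr {q : ℕ} {P P' : (I → Bool) → (A → ℝ) → ℝ} (h : Samp q P)
    (e : ∀ x g, P x g = P' x g) : Samp q P' := by
  obtain ⟨E, _, _, e₀, V, lab, hV, hP⟩ := h
  exact ⟨E, inferInstance, inferInstance, e₀, V, lab, hV, fun x g => (e x g).symm.trans (hP x g)⟩

theorem mono {q q' : ℕ} {P : (I → Bool) → (A → ℝ) → ℝ} (h : Samp q P) (hq : q ≤ q') :
    Samp q' P := by
  obtain ⟨E, _, _, e₀, V, lab, hV, hP⟩ := h
  exact ⟨E, inferInstance, inferInstance, e₀, V, lab, hV.mono hq, hP⟩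

theorem map {q : ℕ} {P : (I → Bool) → (A → ℝ) → ℝ} (h : Samp q P) (f : A → B) :
    Samp q (fun x (g : B → ℝ) => P x fun a => g (f a)) := by
  obtain ⟨E, _, _, e₀, V, lab, hV, hP⟩ := h
  exact ⟨E, inferInstance, inferInstance, e₀, V, fun e => f (lab e), hV, fun x g => hP x _⟩

theorem bind {q q' : ℕ} {P : (I → Bool) → (A → ℝ) → ℝ} {P' : A → (I → Bool) → (B → ℝ) → ℝ}
    (h : Samp q P) (h' : ∀ a, Samp q' (P' a)) :
    Samp (q + q') (fun x (g : B → ℝ) => P x fun a => P' a x g) := by
  classical
  obtain ⟨E, _, _, e₀, V, lab, hV, hP⟩ := h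
  choose E' fE' dE' e₀' V' lab' hV' hP' using fun e : E => h' (lab e)
  let eqv : ∀ e : E, ((j : E) → E' j) ≃ ((j : {j // j ≠ e}) → E' j) × E' e :=
    fun e => (Equiv.piSplitAt e E').trans (Equiv.prodComm _ _)
  have hsnd : ∀ e f, (eqv e f).2 = f e := fun e f => rfl
  choose W hW hWs using fun e : E => (hV' e).extend (eqv e) e₀'
  have hT := (Impl.blk (A := (j : E) → E' j) fun _ => hV).reindex (Equiv.prodComm E _)
  refine ⟨E × ((j : E) → E' j), inferInstance, inferInstance, (e₀, e₀'), _,
    fun p => lab' p.1 (p.2 p.1), ((Impl.blk hW).mul hT).mono (Nat.add_comm _ _).le, fun x g => ?_⟩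
  refine (hP x _).trans ?_
  rw [Fintype.sum_prod_type]
  refine sum_congr rfl fun e _ => ?_
  have hamp : ∀ f, ((implBlk fun a => W a x) *
      (implBlk fun _ : (j : E) → E' j => V x).submatrix (Equiv.prodComm E _) (Equiv.prodComm E _))
      (e, f) (e₀, e₀') = W e x f e₀' * V x e e₀ := by
    intro f
    rw [Matrix.mul_apply, sum_eq_single (e, e₀')]
    · simp [implBlk_apply]
    · rintro ⟨a, b⟩ _ hb
      by_cases h1 : e = a
      · subst h1
        have h2 : b ≠ e₀' := fun h2 => hb (by rw [h2])
        simp [implBlk_apply, h2]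
      · simp [implBlk_apply, h1]
    · simp
  have h3 := hWs e x (fun a => g (lab' e a))
  simp only [hsnd] at h3
  simp only [hamp]
  rw [hP', ← h3, mul_sum]
  exact sum_congr rfl fun f _ => by ring

theorem const {Ω : Type} [Fintype Ω] {w : Ω → ℝ} (hw : IsW w) :
    Samp 0 (fun (_ : I → Bool) (g : Ω → ℝ) => Ex w g) := by
  classical
  have h1 : ∀ ω, Real.sqrt (w ω) ^ 2 = w ω := fun ω => Real.sq_sqrt (hw.1 ω)
  refine (of_vec (I := I) (Impl.const (1 : Matrix Ω Ω ℝ) (by simp)) (fun ω => Real.sqrt (w ω))
    (by simp only [h1, hw.2]) id).congr fun x g => ?_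
  simp only [Matrix.one_mulVec, h1, id, Ex]

theorem pure (a : A) : Samp 0 (fun (_ : I → Bool) (g : A → ℝ) => g a) :=
  ⟨Unit, inferInstance, inferInstance, (), fun _ => 1, fun _ => a, Impl.const 1 (by simp),
    fun x g => by simp⟩

theorem read (i : I) : Samp 1 (fun (x : I → Bool) (g : Bool → ℝ) => g (x i)) := by
  set c : ℝ := Real.sqrt (1 / 2) with hc
  have hcc : c * c = 1 / 2 := Real.mul_self_sqrt (by norm_num)
  let H : Matrix Bool Bool ℝ := Matrix.of fun a b => c * sg (a && b)
  have hH : H.transpose * H = 1 := by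
    ext a b
    cases a <;> cases b <;> simp [H, Matrix.mul_apply] <;> linarith
  refine (of_vec ((Impl.phase fun b : Bool => if b then some i else none).mul_left hH)
    (fun _ => c) (by simp [sq, hcc]) id).congr fun x g => ?_
  have h1 : ∀ b, (H * phase (fun b : Bool => if b then some i else none) x).mulVec (fun _ => c) b =
      if b = x i then 1 else 0 := by
    intro b
    cases hx : x i <;> cases b <;>
      simp [H, phase, Matrix.mulVec, dotProduct, Matrix.mul_diagonal, hx] <;> linarith
  simp only [h1, id]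
  cases x i <;> simp

theorem ofDT {d : ℕ} {f : (I → Bool) → A} (h : DT d f) :
    Samp d (fun x (g : A → ℝ) => g (f x)) := by
  induction h with
  | const d a => exact (pure a).mono (Nat.zero_le d)
  | query d i f f' _ _ ih ih' =>
    have h1 := (read i).bind (q' := d)
      (P' := fun (b : Bool) x (g : A → ℝ) => g (if b then f' x else f x)) (fun b => by
        cases b
        · simpa using ih
        · simpa using ih')
    exact (h1.mono (Nat.add_comm _ _).le).congr fun x g => rfl

theorem pi_fin {Ω : Type} [Fintype Ω] {q : ℕ} (k : ℕ)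
    (w : Fin k → (I → Bool) → Ω → ℝ) (h : ∀ κ, Samp q (fun x (g : Ω → ℝ) => Ex (w κ x) g)) :
    Samp (k * q) (fun x (g : (Fin k → Ω) → ℝ) => Ex (piW fun κ => w κ x) g) := by
  induction k with
  | zero =>
    refine ((pure (I := I) (fun κ : Fin 0 => (κ.elim0 : Ω))).mono (Nat.zero_le _)).congr
      fun x g => ?_
    rw [Ex, Fintype.sum_subsingleton _ (fun κ : Fin 0 => (κ.elim0 : Ω))]
    simp [piW]
  | succ k ih =>
    have h1 := (h 0).bind fun ω₀ =>
      (ih (fun κ => w κ.succ) fun κ => h κ.succ).map
        (fun ω => (Fin.cons ω₀ ω : Fin (k + 1) → Ω))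
    refine (h1.mono (le_of_eq (by ring))).congr fun x g => ?_
    simp only [Ex, piW]
    rw [← Fintype.sum_equiv (Fin.consEquiv fun _ : Fin (k + 1) => Ω)
      (fun p => (∏ κ, w κ x ((Fin.cons p.1 p.2 : Fin (k + 1) → Ω) κ)) * g (Fin.cons p.1 p.2)) _
      (fun p => rfl), Fintype.sum_prod_type]
    refine sum_congr rfl fun ω₀ _ => ?_
    rw [mul_sum]
    refine sum_congr rfl fun ω _ => ?_
    rw [Fin.prod_univ_succ]
    simp only [Fin.cons_zero, Fin.cons_succ]
    ring

/-- Independent runs. -/
theorem pi {K Ω : Type} [Fintype K] [DecidableEq K] [Fintype Ω] {q : ℕ}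
    (w : K → (I → Bool) → Ω → ℝ) (h : ∀ κ, Samp q (fun x (g : Ω → ℝ) => Ex (w κ x) g)) :
    Samp (Fintype.card K * q) (fun x (g : (K → Ω) → ℝ) => Ex (piW fun κ => w κ x) g) := by
  let e := Fintype.equivFin K
  refine ((pi_fin (Fintype.card K) (fun j => w (e.symm j)) fun j => h _).map
    (fun ω κ => ω (e κ))).congr fun x g => ?_
  simp only [Ex, piW]
  refine Fintype.sum_equiv (Equiv.arrowCongr e.symm (Equiv.refl Ω)) _ _ fun ω => ?_
  congr 1
  refine Fintype.prod_equiv e.symm _ _ fun j => ?_
  simp

end Samp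

end Crest.Agent.R350
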