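import Crest.Agent.R350.Func
import Crest.Agent.R350.Core

/-!
Choice of parameters.
-/

set_option autoImplicit false

namespace Crest.Agent.R350

open Finset Crest.MathPhysics.Query

lemma exists_lin_le_pow (c d : ℕ) : ∃ u₁ : ℕ, ∀ u, u₁ ≤ u → c * u + d ≤ 2 ^ u := by
  refine ⟨2 * (c + d) + 4, fun u hu => ?_⟩
  have h1 : ∀ v : ℕ, 4 ≤ v → v ^ 2 ≤ 2 ^ v := by
    intro v hv
    induction v, hv using Nat.le_induction with
    | base => norm_num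
    | succ v hv ih => rw [pow_succ 2 v]; nlinarith
  have := h1 u (by omega)
  nlinarith

lemma q_bound (B P Q n m T b R ρ : ℕ) (hB : 200 ≤ B) (hQ : 1 ≤ Q) (hn : 2 * (n + 2) ≤ B)
    (hm : m + 1 ≤ B) (hT : T ≤ B * Q ^ 2) (hb : b ≤ B) (hR : R ≤ B) (hρ : ρ ≤ B) :
    R * (2 * (2 * P) * (n * T * (m + 1) + R * (2 * (n + 1)))
      + ρ * (2 * (P * Q * B ^ 3) * (n + 2 + 3 * b + T * b))) ≤ P * Q ^ 3 * B ^ 10 := by
  have hB1 : 1 ≤ B := by omega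
  have hQ2 : 1 ≤ Q ^ 2 := Nat.one_le_pow _ _ hQ
  have h1 : n * T * (m + 1) ≤ B ^ 3 * Q ^ 2 := by
    calc n * T * (m + 1) ≤ B * (B * Q ^ 2) * B := by gcongr; omega
      _ = _ := by ring
  have h2 : R * (2 * (n + 1)) ≤ B ^ 3 * Q ^ 2 := by
    calc R * (2 * (n + 1)) ≤ B * B := by gcongr; omega
      _ = B * B * 1 * 1 := by ring
      _ ≤ B * B * B * Q ^ 2 := by gcongr
      _ = _ := by ring
  have h3 : n + 2 + 3 * b + T * b ≤ B ^ 3 * Q ^ 2 := by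
    have h4 : T * b ≤ B * Q ^ 2 * B := by gcongr
    have h5 : n + 2 + 3 * b ≤ B * Q ^ 2 * B := by
      calc n + 2 + 3 * b ≤ B * 1 * 4 := by omega
        _ ≤ B * Q ^ 2 * B := by gcongr; omega
    calc n + 2 + 3 * b + T * b ≤ 2 * (B * Q ^ 2 * B) := by omega
      _ ≤ B * (B * Q ^ 2 * B) := by gcongr; omega
      _ = _ := by ring
  calc _ ≤ B * (2 * (2 * P) * (B ^ 3 * Q ^ 2 + B ^ 3 * Q ^ 2)
        + B * (2 * (P * Q * B ^ 3) * (B ^ 3 * Q ^ 2))) := by gcongr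
    _ = P * Q ^ 2 * B ^ 4 * 1 * 8 + 2 * (P * Q ^ 3 * B ^ 8) := by ring
    _ ≤ P * Q ^ 2 * B ^ 4 * Q * B ^ 4 + 2 * (P * Q ^ 3 * B ^ 8) := by
        gcongr
        calc 8 ≤ 200 ^ 4 := by norm_num
          _ ≤ B ^ 4 := by gcongr
    _ = P * Q ^ 3 * B ^ 8 * 3 := by ring
    _ ≤ P * Q ^ 3 * B ^ 8 * B ^ 2 := by
        gcongr
        calc 3 ≤ 200 ^ 2 := by norm_num
          _ ≤ B ^ 2 := by gcongr
    _ = _ := by ring

lemma card_chk_le (B P Q n m T : ℕ) (hB : 200 ≤ B) (hQ : 1 ≤ Q) (hn : n + 1 ≤ B)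
    (hm : m + 1 ≤ B) (hT : T ≤ B * Q ^ 2) (hP : 2 ^ n = P ^ 2) :
    Fintype.card (Chk n m T) ≤ (P * Q * B ^ 3) ^ 2 := by
  have hnP : n ≤ P ^ 2 := by rw [← hP]; exact Nat.lt_two_pow_self.le
  have hQ2 : 1 ≤ Q ^ 2 := Nat.one_le_pow _ _ hQ
  have hB4 : 1 ≤ B ^ 4 := Nat.one_le_pow _ _ (by omega)
  simp only [Fintype.card_sum, Fintype.card_prod, Fintype.card_fin, card_cube, hP]
  have h1 : n * T * ((m + 1) * ((n + 1) * P ^ 2)) ≤ P ^ 2 * Q ^ 2 * B ^ 4 := by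
    calc _ ≤ B * (B * Q ^ 2) * (B * (B * P ^ 2)) := by gcongr; omega
      _ = _ := by ring
  have h2 : P ^ 2 ≤ P ^ 2 * Q ^ 2 * B ^ 4 := by
    calc P ^ 2 = P ^ 2 * 1 * 1 := by ring
      _ ≤ _ := by gcongr
  calc _ ≤ P ^ 2 * Q ^ 2 * B ^ 4 * 4 := by omega
    _ ≤ P ^ 2 * Q ^ 2 * B ^ 4 * B ^ 2 := by
        gcongr
        calc 4 ≤ 200 ^ 2 := by norm_num
          _ ≤ B ^ 2 := by gcongr
    _ = _ := by ring

theorem main_u (k m a₂ σ : ℕ) (hk : 2 ≤ k) (hm : m + 1 = 2 * k) (ha₂ : 1 ≤ a₂)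
    (hσ : σ + 5 = a₂ * m) : ∃ u₀ : ℕ, ∀ u, u₀ ≤ u →
    ∃ (n' : ℕ) (F : (Fin n' → Bool) → Bool),
      (∃ q : ℕ, q ≤ (2 ^ u) ^ (k * a₂ + 3 * m + 10) ∧ QuantumComputes F q) ∧
      ∀ r : ℕ, RandomizedComputes F r → (3 / 20 : ℝ) * (2 ^ u) ^ (2 * (k * a₂) + σ) ≤ r := by
  obtain ⟨u₀, hcore⟩ := core m (2 * (k * a₂)) (by omega)
  obtain ⟨u₁, hu₁⟩ := exists_lin_le_pow (200 * (m + 2) * (2 * (k * a₂))) (200 * (m + 2) * 3)
  refine ⟨max (max u₀ u₁) 1, fun u hu => ?_⟩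
  obtain ⟨D, hD, hmean, hind⟩ := hcore u (le_trans (by omega) hu)
  have hBig := hu₁ u (le_trans (by omega) hu)
  have hu1 : 1 ≤ u := le_trans (by omega) hu
  set n := 2 * (k * a₂) * u with hn
  set B := 2 ^ u with hB
  have hka : 1 ≤ k * a₂ := Nat.mul_pos (by omega) ha₂
  have hun : u ≤ n := by rw [hn]; nlinarith
  have hBig' : 200 * (m + 2) * (n + 3) ≤ B := by
    calc 200 * (m + 2) * (n + 3) = 200 * (m + 2) * (2 * (k * a₂)) * u + 200 * (m + 2) * 3 := by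
          rw [hn]; ring
      _ ≤ B := hBig
  have hB200 : 200 * (n + 3) ≤ B := by nlinarith
  have hBm : m + 1 ≤ B := by nlinarith
  have hBb : n * (m + 1) + 2 ≤ B := by nlinarith
  set P := B ^ (k * a₂) with hP
  set Q := B ^ m with hQ
  have hQ1 : 1 ≤ Q := Nat.one_le_pow _ _ (by omega)
  have hPn : 2 ^ n = P ^ 2 := by
    rw [hP, hB, ← pow_mul, ← pow_mul, hn]; congr 1; ring
  set T := 160 * n * Q ^ 2 with hT
  have hT1 : 1 ≤ T := Nat.mul_pos (by omega) (Nat.one_le_pow _ _ hQ1)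
  have hTB : T ≤ B * Q ^ 2 := by rw [hT]; gcongr; omega
  set θ : ℝ := 1 / 2 * (1 / 2 ^ u) ^ m with hθ
  have hθ0 : 0 < θ := by positivity
  have hBR : (B : ℝ) = 2 ^ u := by rw [hB]; push_cast; rfl
  have hBpos : (0 : ℝ) < B := by rw [hBR]; positivity
  have hTθ : (T : ℝ) * θ ^ 2 = 40 * n := by
    rw [hT, hθ, hQ, ← hBR]
    push_cast
    rw [one_div_pow]
    field_simp
    ring
  set b := n * (m + 1) + 2 with hb
  let e : Fin (Fintype.card (Var n m T b)) ≃ Var n m T b := (Fintype.equivFin _).symm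
  refine ⟨_, fun y => FF n m T b θ fun i => y (e.symm i), ⟨_, ?_,
    quantum_upper n m T b (2 * P) (P * Q * B ^ 3) (32 * (n + 3)) (8 * (u + 2)) θ hθ0 hT1
      ?_ ?_ (card_chk_le B P Q n m T (by omega) hQ1 (by omega) hBm hTB hPn) ?_ ?_ e⟩, ?_⟩
  · refine (q_bound B P Q n m T b _ _ (by omega) hQ1 (by omega) hBm hTB hBb (by omega)
      (by omega)).trans (le_of_eq ?_)
    rw [hP, hQ]; ring
  · rw [hTθ]; have : (0 : ℝ) ≤ n := Nat.cast_nonneg n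
    linarith
  · rw [hPn]; nlinarith
  · rw [pow_mul]
    calc ((31 / 32 : ℝ) ^ 32) ^ (n + 3) * (2 * 2 ^ n) ≤ (1 / 2) ^ (n + 3) * (2 * 2 ^ n) := by
          gcongr; norm_num
      _ = 1 / 4 := by rw [pow_add, one_div_pow]; field_simp; norm_num
      _ ≤ 1 / 3 := by norm_num
  · rw [pow_mul]
    have h1 : ((32 * (n + 3) : ℕ) : ℝ) ≤ 2 ^ u := by
      rw [← hBR]; exact_mod_cast (by omega : 32 * (n + 3) ≤ B)
    calc ((32 * (n + 3) : ℕ) : ℝ) * ((7 / 8 : ℝ) ^ 8) ^ (u + 2) ≤ 2 ^ u * (1 / 2) ^ (u + 2) := by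
          gcongr; norm_num
      _ = 1 / 4 := by rw [pow_add, one_div_pow]; field_simp; norm_num
      _ ≤ 1 / 3 := by norm_num
  · intro r hr
    have hs : 1 ≤ B ^ σ := Nat.one_le_pow _ _ (by omega)
    have := random_lower n m T b (B ^ σ) θ _ hθ0 hT1 hs le_rfl hTθ.ge _ hD hmean
      (hind (B ^ σ) hs) e r hr
    have hB200' : (200 : ℝ) ≤ B := by exact_mod_cast (by omega : 200 ≤ B)
    have hB1 : (1 : ℝ) ≤ B := by linarith
    have hN : (2 : ℝ) ^ n = (B : ℝ) ^ (2 * (k * a₂)) := by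
      rw [hBR, ← pow_mul, hn]; congr 1; ring
    have hrt : rt n = (B : ℝ) ^ (k * a₂) := by
      rw [rt, hN, mul_comm 2, pow_mul]; exact Real.sqrt_sq (by positivity)
    have hsq : Real.sqrt ((B ^ σ : ℕ) : ℝ) ^ (m + 1) = (B : ℝ) ^ (σ * k) := by
      rw [hm, pow_mul, Real.sq_sqrt (by positivity)]; push_cast; rw [← pow_mul]
    have h1 : ((B ^ σ : ℕ) : ℝ) / 2 ^ n ≤ 1 / 20 := by
      rw [hN, div_le_iff₀ (by positivity)]
      push_cast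
      have h2 : (B : ℝ) ^ (σ + 1) ≤ (B : ℝ) ^ (2 * (k * a₂)) :=
        pow_le_pow_right₀ hB1 (by nlinarith)
      rw [pow_succ] at h2
      have h3 : (0 : ℝ) < (B : ℝ) ^ σ := by positivity
      nlinarith
    have h2 : (n : ℝ) * T * (10 * 2 ^ u * Real.sqrt ((B ^ σ : ℕ) : ℝ) ^ (m + 1) / rt n ^ m)
        ≤ 1 / 20 := by
      rw [hsq, hrt, ← hBR, ← mul_div_assoc, div_le_iff₀ (by positivity), ← pow_mul]
      have h3 : (n : ℝ) ≤ B := by exact_mod_cast (by omega : n ≤ B)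
      have h4 : (T : ℝ) ≤ B * ((B : ℝ) ^ m) ^ 2 := by exact_mod_cast hTB
      have h5 : (B : ℝ) ^ (4 + 2 * m + σ * k) ≤ (B : ℝ) ^ (k * a₂ * m) := by
        refine pow_le_pow_right₀ hB1 ?_
        have : k * a₂ * m = σ * k + 5 * k := by rw [mul_assoc, ← hσ]; ring
        omega
      calc (n : ℝ) * T * (10 * B * (B : ℝ) ^ (σ * k))
          ≤ B * (B * ((B : ℝ) ^ m) ^ 2) * (10 * B * (B : ℝ) ^ (σ * k)) := by gcongr
        _ = 1 / 20 * (200 * (B : ℝ) ^ (3 + 2 * m + σ * k)) := by ring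
        _ ≤ 1 / 20 * (B * (B : ℝ) ^ (3 + 2 * m + σ * k)) := by gcongr
        _ = 1 / 20 * (B : ℝ) ^ (4 + 2 * m + σ * k) := by ring
        _ ≤ _ := by gcongr
    have h3 : (3 / 20 : ℝ) ≤ r / (2 ^ n * ((B ^ σ : ℕ) : ℝ)) := by linarith
    rw [le_div_iff₀ (by positivity), hN] at h3
    rw [← hBR, pow_add]
    exact_mod_cast h3

end Crest.Agent.R350
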