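import Crest.Agent.R350.Had

/-!
Locally checkable transcripts of the fast Hadamard transform computing Forrelation.
-/

set_option autoImplicit false

namespace Crest.Agent.R350

open Finset

variable {n m : ℕ}

/-- The layers of the fast Hadamard transform. -/
def lay (w : Cube n → ℤ) : Fin (n + 1) → Cube n → ℤ :=
  Fin.induction (motive := fun _ => Cube n → ℤ) w
    (fun a prev i => prev (Function.update i a false) + sg (i a) * prev (Function.update i a true))

@[simp] lemma lay_zero (w : Cube n → ℤ) : lay w 0 = w := rfl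

@[simp] lemma lay_succ (w : Cube n → ℤ) (a : Fin n) (i : Cube n) :
    lay w a.succ i = lay w a.castSucc (Function.update i a false)
      + sg (i a) * lay w a.castSucc (Function.update i a true) := by
  simp [lay]

/-- The kernel of the first `a` layers. -/
def ker (a : ℕ) (i j : Cube n) : ℤ :=
  ∏ t : Fin n, if t.val < a then sg (i t && j t) else if i t = j t then 1 else 0

lemma ker_succ (a : Fin n) (i j : Cube n) :
    ker (a.val + 1) i j = ker a.val i (Function.update j a false)
      + sg (j a) * ker a.val i (Function.update j a true) := by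
  unfold ker
  rw [← mul_prod_erase univ _ (mem_univ a), ← mul_prod_erase univ _ (mem_univ a),
    ← mul_prod_erase univ _ (mem_univ a)]
  have h : ∀ c : Bool, ∏ t ∈ univ.erase a, (if t.val < a.val then
      (sg (i t && Function.update j a c t) : ℤ) else if i t = Function.update j a c t then 1 else 0)
      = ∏ t ∈ univ.erase a, (if t.val < a.val + 1 then (sg (i t && j t) : ℤ)
        else if i t = j t then 1 else 0) := by
    intro c
    refine prod_congr rfl fun t ht => ?_
    have hne : t ≠ a := ne_of_mem_erase ht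
    have hne' : t.val ≠ a.val := fun h => hne (Fin.ext h)
    rw [Function.update_of_ne hne]
    by_cases hlt : t.val < a.val
    · rw [if_pos hlt, if_pos (by omega)]
    · rw [if_neg hlt, if_neg (show ¬ t.val < a.val + 1 by omega)]
  rw [h, h]
  simp only [Function.update_self, lt_add_iff_pos_right, zero_lt_one, if_true, lt_irrefl, if_false]
  cases i a <;> cases j a <;> simp

lemma lay_eq (w : Cube n → ℤ) (a : Fin (n + 1)) : ∀ j, lay w a j = ∑ i, ker a.val i j * w i := by
  induction a using Fin.induction with
  | zero =>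
    intro j
    rw [Finset.sum_eq_single j]
    · simp [ker]
    · intro i _ hij
      obtain ⟨t, ht⟩ := Function.ne_iff.1 hij
      have : ker 0 i j = 0 := Finset.prod_eq_zero (mem_univ t) (by simp [ht])
      simp [this]
    · simp
  | succ a ih =>
    intro j
    rw [lay_succ, ih, ih, mul_sum, ← sum_add_distrib]
    refine sum_congr rfl fun i _ => ?_
    simp only [Fin.val_succ, Fin.val_castSucc]
    rw [ker_succ]; ring

lemma lay_last (w : Cube n → ℤ) (j : Cube n) : lay w (Fin.last n) j = ∑ i, had i j * w i := by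
  rw [lay_eq]
  refine sum_congr rfl fun i _ => ?_
  congr 1
  unfold ker had
  refine prod_congr rfl fun t _ => ?_
  simp

lemma abs_lay_le (w : Cube n → ℤ) (K : ℤ) (hw : ∀ i, |w i| ≤ K) (a : Fin (n + 1)) :
    ∀ i, |lay w a i| ≤ 2 ^ a.val * K := by
  induction a using Fin.induction with
  | zero => simpa using hw
  | succ a ih =>
    intro i
    rw [lay_succ]
    have h1 := ih (Function.update i a false)
    have h2 := ih (Function.update i a true)
    simp only [Fin.val_succ, Fin.val_castSucc] at *
    calc _ ≤ |lay w a.castSucc (Function.update i a false)|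
          + |sg (i a) * lay w a.castSucc (Function.update i a true)| := abs_add_le _ _
      _ ≤ 2 ^ a.val * K + 2 ^ a.val * K := by
          rw [abs_mul, abs_sg, one_mul]; exact add_le_add h1 h2
      _ = _ := by ring

/-- Gates of the transcript. -/
abbrev Gate (n m : ℕ) : Type := Fin (m + 1) × Fin (n + 1) × Cube n

/-- The value a gate should have, given the other gates and the input. -/
def rule (ν : Gate n m → ℤ) (z : Fin (m + 1) × Cube n → Bool) (g : Gate n m) : ℤ :=
  Fin.cases (motive := fun _ => ℤ)
    (Fin.cases (motive := fun _ => ℤ) (sg (z (0, g.2.2)))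
      (fun κ => sg (z (κ.succ, g.2.2)) * ν (κ.castSucc, Fin.last n, g.2.2)) g.1)
    (fun a => ν (g.1, a.castSucc, Function.update g.2.2 a false)
      + sg (g.2.2 a) * ν (g.1, a.castSucc, Function.update g.2.2 a true)) g.2.1

/-- The true transcript. -/
def tval (z : Fin (m + 1) × Cube n → Bool) (g : Gate n m) : ℤ :=
  lay (vec (fun v => (sg (z v) : ℤ)) g.1) g.2.1 g.2.2

/-- The output gate. -/
def outGate (n m : ℕ) : Gate n m := (Fin.last m, Fin.last n, fun _ => false)

lemma tval_rule (z : Fin (m + 1) × Cube n → Bool) (g : Gate n m) :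
    tval z g = rule (tval z) z g := by
  obtain ⟨κ, a, i⟩ := g
  refine Fin.cases ?_ (fun a => ?_) a
  · refine Fin.cases ?_ (fun κ => ?_) κ
    · simp [tval, rule]
    · simp [tval, rule, lay_last]
  · simp [tval, rule]

lemma eq_tval (z : Fin (m + 1) × Cube n → Bool) (ν : Gate n m → ℤ)
    (h : ∀ g, ν g = rule ν z g) : ∀ g, ν g = tval z g := by
  have step : ∀ κ, (∀ i, ν (κ, 0, i) = tval z (κ, 0, i)) →
      ∀ a i, ν (κ, a, i) = tval z (κ, a, i) := by
    intro κ h0 a
    induction a using Fin.induction with
    | zero => exact h0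
    | succ a ih =>
      intro i
      rw [h, tval_rule]
      simp [rule, ih]
  have main : ∀ κ a i, ν (κ, a, i) = tval z (κ, a, i) := by
    intro κ
    induction κ using Fin.induction with
    | zero =>
      refine step 0 fun i => ?_
      rw [h, tval_rule]
      simp [rule]
    | succ κ ih =>
      refine step _ fun i => ?_
      rw [h, tval_rule]
      simp [rule, ih]
  rintro ⟨κ, a, i⟩
  exact main κ a i

lemma tval_out (z : Fin (m + 1) × Cube n → Bool) :
    (tval z (outGate n m) : ℝ) = forr z * rt n ^ (m + 2) := by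
  have h1 : tval z (outGate n m) = forrI (fun v => (sg (z v) : ℤ)) := by
    simp [tval, outGate, lay_last, had_zero, forrI]
  have h2 := map_forrI (Int.castRingHom ℝ) (fun v => (sg (z v) : ℤ))
  simp only [eq_intCast, intCast_sg] at h2
  rw [h1, h2, forr, div_mul_cancel₀]
  exact (pow_pos (rt_pos n) _).ne'

lemma abs_vec_le (z : Fin (m + 1) × Cube n → Bool) (κ : Fin (m + 1)) :
    ∀ i, |vec (fun v => (sg (z v) : ℤ)) κ i| ≤ 2 ^ (n * κ.val) := by
  induction κ using Fin.induction with
  | zero => intro i; simp [abs_sg]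
  | succ κ ih =>
    intro i
    rw [vec_succ, abs_mul, abs_sg, one_mul, ← lay_last]
    have := abs_lay_le _ _ ih (Fin.last n) i
    simp only [Fin.val_last, Fin.val_castSucc, Fin.val_succ] at *
    refine this.trans (le_of_eq ?_)
    rw [← pow_add]; congr 1; ring

lemma abs_tval_le (z : Fin (m + 1) × Cube n → Bool) (g : Gate n m) :
    |tval z g| ≤ 2 ^ (n * (m + 1)) := by
  obtain ⟨κ, a, i⟩ := g
  have := abs_lay_le _ _ (abs_vec_le z κ) a i
  refine this.trans ?_
  rw [← pow_add]
  refine pow_le_pow_right₀ (by norm_num) ?_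
  have h1 : a.val ≤ n := Nat.lt_succ_iff.1 a.2
  have h2 : κ.val ≤ m := Nat.lt_succ_iff.1 κ.2
  nlinarith

/-- Decoding of integers from bit strings. -/
noncomputable def dec (b : ℕ) (β : Fin b → Bool) : ℤ :=
  ((Fintype.equivFin (Fin b → Bool) β : ℕ) : ℤ) - 2 ^ (b - 1)

lemma exists_dec (b K : ℕ) (hb : K + 2 ≤ b) (y : ℤ) (hy : |y| ≤ 2 ^ K) : ∃ β, dec b β = y := by
  obtain ⟨c, rfl⟩ : ∃ c, b = c + 1 := ⟨b - 1, by omega⟩
  have h1 : (2 : ℤ) ^ (K + 1) ≤ 2 ^ c := pow_le_pow_right₀ (by norm_num) (by omega)
  have h2 := abs_le.1 hy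
  have h3 : (0 : ℤ) < 2 ^ K := by positivity
  rw [pow_succ] at h1
  have h0 : 0 ≤ y + 2 ^ c := by omega
  have hlt : (y + 2 ^ c).toNat < Fintype.card (Fin (c + 1) → Bool) := by
    have : (((y + 2 ^ c).toNat : ℕ) : ℤ) < ((2 ^ (c + 1) : ℕ) : ℤ) := by
      rw [Int.toNat_of_nonneg h0]; push_cast; rw [pow_succ]; omega
    have h4 : (y + 2 ^ c).toNat < 2 ^ (c + 1) := by exact_mod_cast this
    simpa using h4
  refine ⟨(Fintype.equivFin _).symm ⟨_, hlt⟩, ?_⟩
  simp only [dec, Equiv.apply_symm_apply, Nat.add_sub_cancel]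
  rw [Int.toNat_of_nonneg h0]; ring

/-- The rule of a gate reads at most two numbers and one bit. -/
lemma dt_rule {I : Type} {b : ℕ} (ν : Gate n m → (I → Bool) → ℤ) (hν : ∀ g, DT b (ν g))
    (emb : Fin (m + 1) × Cube n → I) (g : Gate n m) :
    DT (2 * b + 1) (fun x => rule (fun g => ν g x) (fun v => x (emb v)) g) := by
  obtain ⟨κ, a, i⟩ := g
  refine Fin.cases ?_ (fun a => ?_) a
  · refine Fin.cases ?_ (fun κ => ?_) κ
    · exact (((DT.read (emb (0, i))).map fun c => (sg c : ℤ)).mono (by omega)).congr fun x => by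
        simp [rule]
    · exact (((DT.read (emb (κ.succ, i))).map₂ (hν (κ.castSucc, Fin.last n, i))
        fun c y => (sg c : ℤ) * y).mono (by omega)).congr fun x => by simp [rule]
  · exact (((hν (κ, a.castSucc, Function.update i a false)).map₂
      (hν (κ, a.castSucc, Function.update i a true))
        fun y y' => y + (sg (i a) : ℤ) * y').mono (by omega)).congr fun x => by simp [rule]

end Crest.Agent.R350
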