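import Crest.Agent.R350.Defs

set_option autoImplicit false

namespace Crest.Agent.R350

open Finset

open MvPolynomial

/-- Indices of the Gaussian variables. -/
abbrev Sig (m n : ℕ) : Type := Fin m × Cube n

/-- `V_κ = H U_κ` with the normalised Hadamard matrix. -/
noncomputable def Vp (m n : ℕ) (κ : Fin m) (j : Cube n) : MvPolynomial (Sig m n) ℝ :=
  ∑ i, (had i j / rt n : ℝ) • (X (κ, i) : MvPolynomial (Sig m n) ℝ)

/-- Left factor of block `κ`: `t` for the first block, `V_{κ-1}` afterwards. -/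
noncomputable def Ap (m n : ℕ) (t : ℝ) (κ : Fin (m + 1)) (j : Cube n) : MvPolynomial (Sig m n) ℝ :=
  Fin.cases (motive := fun _ => MvPolynomial (Sig m n) ℝ) (C t) (fun κ => Vp m n κ j) κ

/-- Right factor of block `κ`: `U_κ`, and `1` for the last block. -/
noncomputable def Bp (m n : ℕ) (κ : Fin (m + 1)) (j : Cube n) : MvPolynomial (Sig m n) ℝ :=
  Fin.lastCases (motive := fun _ => MvPolynomial (Sig m n) ℝ) 1 (fun κ => X (κ, j)) κ

@[simp] lemma Ap_zero (m n : ℕ) (t : ℝ) (j : Cube n) : Ap m n t 0 j = C t := rfl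
@[simp] lemma Ap_succ (m n : ℕ) (t : ℝ) (κ : Fin m) (j : Cube n) :
    Ap m n t κ.succ j = Vp m n κ j := rfl
@[simp] lemma Bp_last (m n : ℕ) (j : Cube n) : Bp m n (Fin.last m) j = 1 := by simp [Bp]
@[simp] lemma Bp_castSucc (m n : ℕ) (κ : Fin m) (j : Cube n) :
    Bp m n κ.castSucc j = X (κ, j) := by simp [Bp]

/-- The point `(t U_0, V_0 U_1, …, V_{m-2} U_{m-1}, V_{m-1})`. -/
noncomputable def Zp (m n : ℕ) (t : ℝ) (v : Fin (m + 1) × Cube n) : MvPolynomial (Sig m n) ℝ :=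
  Ap m n t v.1 v.2 * Bp m n v.1 v.2

/-- The product of Hadamard signs along a path. -/
noncomputable def chainSign {m n : ℕ} (i : Fin (m + 1) → Cube n) : ℝ :=
  ∏ κ : Fin m, had (i κ.castSucc) (i κ.succ)

/-- All Gaussian coordinates are small. -/
def Good (m n : ℕ) (ω : Sig m n → ℝ) : Prop :=
  ∀ κ i, |ω (κ, i)| ≤ 1 / 2 ∧ |eval ω (Vp m n κ i)| ≤ 1 / 2

/-- The growth factor of multilinear extensions outside the cube. -/
noncomputable def Pm (m n : ℕ) (t : ℝ) (ω : Sig m n → ℝ) : ℝ := ∏ v, max 1 |eval ω (Zp m n t v)|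

end Crest.Agent.R350
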